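import Crest.Agent.R271.W_792
import Crest.Agent.R271.Montel_868
import Crest.Agent.R271.T7a_297

/-!
# Row 273, leaf DIR (helper73), file 0: hyperplane sections of a Riemann domain

`Hs M a = {x : M // x₀ + a₀ + ∑ a_{j+1} x_{j+1} = 0}` for a Riemann domain `M` over `ℂ^{n+1}`, with the
coordinates `x₁,…,xₙ`.
-/

set_option autoImplicit false
set_option linter.unusedSectionVars false

noncomputable section

open Set Filter Topology MeasureTheory

namespace Crest.Agent.R273.Dir73

open Crest.Agent.R271.Ho51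
open Crest.Agent.R271.W792 hiding Hol

variable {n : ℕ}

/-- the affine form `z₀ + a₀ + ∑ a_{j+1} z_{j+1}` -/
def ell (a : Fin (n + 1) → ℂ) (z : Fin (n + 1) → ℂ) : ℂ := z 0 + a 0 + ∑ j : Fin n, a j.succ * z j.succ

/-- the parametrisation of `ell a = 0` -/
def gam (a : Fin (n + 1) → ℂ) (z : Fin n → ℂ) : Fin (n + 1) → ℂ :=
  Fin.cons (-(a 0) - ∑ j, a j.succ * z j) z

lemma gam_zero (a : Fin (n + 1) → ℂ) (z : Fin n → ℂ) :
    gam a z 0 = -(a 0) - ∑ j, a j.succ * z j := rfl

lemma gam_succ (a : Fin (n + 1) → ℂ) (z : Fin n → ℂ) (j : Fin n) : gam a z j.succ = z j := rfl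

lemma tail_gam (a : Fin (n + 1) → ℂ) (z : Fin n → ℂ) : Fin.tail (gam a z) = z := rfl

lemma ell_gam (a : Fin (n + 1) → ℂ) (z : Fin n → ℂ) : ell a (gam a z) = 0 := by
  unfold ell
  simp only [gam_zero, gam_succ]
  ring

lemma gam_tail {a z : Fin (n + 1) → ℂ} (h : ell a z = 0) : gam a (Fin.tail z) = z := by
  unfold ell at h
  funext i
  refine Fin.cases ?_ (fun j => ?_) i
  · rw [gam_zero]
    simp only [Fin.tail]
    linear_combination -h
  · rfl

/-- the linear part of `gam` -/
def gamL (a : Fin (n + 1) → ℂ) : (Fin n → ℂ) →L[ℂ] (Fin (n + 1) → ℂ) :=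
  ContinuousLinearMap.pi fun i => Fin.cases (motive := fun _ => (Fin n → ℂ) →L[ℂ] ℂ)
    (-∑ j : Fin n, a j.succ • (ContinuousLinearMap.proj (R := ℂ) j : (Fin n → ℂ) →L[ℂ] ℂ))
    (fun j => ContinuousLinearMap.proj (R := ℂ) j) i

lemma gamL_zero (a : Fin (n + 1) → ℂ) (w : Fin n → ℂ) : gamL a w 0 = -∑ j, a j.succ * w j := by
  simp [gamL]

lemma gamL_succ (a : Fin (n + 1) → ℂ) (w : Fin n → ℂ) (j : Fin n) : gamL a w j.succ = w j := by
  simp [gamL]

lemma gam_eq (a : Fin (n + 1) → ℂ) (z : Fin n → ℂ) : gam a z = gamL a z + Fin.cons (-(a 0)) 0 := by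
  funext i
  refine Fin.cases ?_ (fun j => ?_) i
  · rw [Pi.add_apply, gamL_zero, gam_zero]
    simp only [Fin.cons_zero]
    ring
  · rw [Pi.add_apply, gamL_succ, gam_succ]
    simp

/-- the linear part, real version -/
def gamR (a : Fin (n + 1) → ℂ) : (Fin n → ℂ) →L[ℝ] (Fin (n + 1) → ℂ) :=
  (gamL a).restrictScalars ℝ

lemma gamR_apply (a : Fin (n + 1) → ℂ) (w : Fin n → ℂ) : gamR a w = gamL a w := rfl

lemma gamR_I (a : Fin (n + 1) → ℂ) (w : Fin n → ℂ) :
    gamR a (Complex.I • w) = Complex.I • gamR a w := by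
  simp [gamR_apply]

lemma hasFDerivAt_gam (a : Fin (n + 1) → ℂ) (z : Fin n → ℂ) : HasFDerivAt (gam a) (gamR a) z := by
  have h : gam a = fun z => gamR a z + Fin.cons (-(a 0)) 0 := by
    funext z; rw [gam_eq]; rfl
  rw [h]
  exact (gamR a).hasFDerivAt.add_const _

lemma contDiff_gam (a : Fin (n + 1) → ℂ) : ContDiff ℝ (⊤ : ℕ∞) (gam a) := by
  have h : gam a = fun z => gamR a z + Fin.cons (-(a 0)) 0 := by
    funext z; rw [gam_eq]; rfl
  rw [h]
  exact (gamR a).contDiff.add contDiff_const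

lemma differentiable_gam (a : Fin (n + 1) → ℂ) : Differentiable ℂ (gam a) := by
  have h : gam a = fun z => gamL a z + Fin.cons (-(a 0)) 0 := by
    funext z; rw [gam_eq]
  rw [h]
  exact (gamL a).differentiable.add_const _

lemma continuous_gam (a : Fin (n + 1) → ℂ) : Continuous (gam a) :=
  (differentiable_gam a).continuous

lemma continuous_ell (a : Fin (n + 1) → ℂ) : Continuous (ell a) := by
  unfold ell; fun_prop

/-- the hyperplane section -/
def Hs (M : Type*) [TopologicalSpace M] [RDom (n + 1) M] (a : Fin (n + 1) → ℂ) : Type _ :=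
  {x : M // ell a (cp x) = 0}

section inst

variable {M : Type*} [TopologicalSpace M] [RDom (n + 1) M] {a : Fin (n + 1) → ℂ}

instance : TopologicalSpace (Hs M a) := inferInstanceAs (TopologicalSpace {x : M // ell a (cp x) = 0})

instance [T2Space M] : T2Space (Hs M a) := inferInstanceAs (T2Space {x : M // ell a (cp x) = 0})

instance [SecondCountableTopology M] : SecondCountableTopology (Hs M a) :=
  TopologicalSpace.Subtype.secondCountableTopology {x : M | ell a (cp x) = 0}

/-- the inclusion -/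
def ι (x : Hs M a) : M := x.1

lemma ell_ι (x : Hs M a) : ell a (cp (ι x)) = 0 := x.2

lemma continuous_ι : Continuous (ι : Hs M a → M) := continuous_subtype_val

lemma ι_injective : Function.Injective (ι : Hs M a → M) := Subtype.val_injective

lemma isClosedEmbedding_ι : IsClosedEmbedding (ι : Hs M a → M) :=
  IsClosed.isClosedEmbedding_subtypeVal
    (isClosed_singleton.preimage ((continuous_ell a).comp cp_cont) :
      IsClosed ((fun x : M => ell a (cp x)) ⁻¹' {0}))

lemma isEmbedding_ι : IsEmbedding (ι : Hs M a → M) := isClosedEmbedding_ι.isEmbedding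

/-- points of `Hs M a` -/
def mkHs (x : M) (h : ell a (cp x) = 0) : Hs M a := ⟨x, h⟩

lemma ι_mkHs (x : M) (h : ell a (cp x) = 0) : ι (mkHs x h) = x := rfl

lemma Hs_ext {x y : Hs M a} (h : ι x = ι y) : x = y := ι_injective h

open Classical in
/-- inverse of the chart -/
def invD {e : OpenPartialHomeomorph M (Fin (n + 1) → ℂ)} (he : IsCh e) (x0 : Hs M a)
    (z : Fin n → ℂ) : Hs M a :=
  if h : gam a z ∈ e.target then mkHs (e.symm (gam a z)) (by rw [he.cp_symm h, ell_gam]) else x0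

lemma ι_invD {e : OpenPartialHomeomorph M (Fin (n + 1) → ℂ)} (he : IsCh e) (x0 : Hs M a)
    {z : Fin n → ℂ} (hz : gam a z ∈ e.target) : ι (invD he x0 z) = e.symm (gam a z) := by
  unfold invD
  rw [dif_pos hz, ι_mkHs]

/-- the chart of `Hs M a` given by a chart of `M` -/
def chD {e : OpenPartialHomeomorph M (Fin (n + 1) → ℂ)} (he : IsCh e) (x0 : Hs M a) :
    OpenPartialHomeomorph (Hs M a) (Fin n → ℂ) where
  toFun := fun y => Fin.tail (cp (ι y))
  invFun := invD he x0
  source := ι ⁻¹' e.source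
  target := gam a ⁻¹' e.target
  map_source' := fun y hy => by
    show gam a (Fin.tail (cp (ι y))) ∈ e.target
    rw [gam_tail (ell_ι y)]
    exact he.cp_mem hy
  map_target' := fun z hz => by
    have hz' : gam a z ∈ e.target := hz
    show ι (invD he x0 z) ∈ e.source
    rw [ι_invD he x0 hz']
    exact e.map_target hz'
  left_inv' := fun y hy => by
    have hy' : ι y ∈ e.source := hy
    have h : gam a (Fin.tail (cp (ι y))) ∈ e.target := by
      rw [gam_tail (ell_ι y)]; exact he.cp_mem hy'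
    apply Hs_ext
    show ι (invD he x0 (Fin.tail (cp (ι y)))) = ι y
    rw [ι_invD he x0 h, gam_tail (ell_ι y), he.symm_cp hy']
  right_inv' := fun z hz => by
    have hz' : gam a z ∈ e.target := hz
    show Fin.tail (cp (ι (invD he x0 z))) = z
    rw [ι_invD he x0 hz', he.cp_symm hz', tail_gam]
  open_source := e.open_source.preimage continuous_ι
  open_target := e.open_target.preimage (continuous_gam a)
  continuousOn_toFun := by
    apply Continuous.continuousOn
    have h1 : Continuous fun y : Hs M a => cp (ι y) := cp_cont.comp continuous_ι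
    exact continuous_pi fun j => (continuous_apply j.succ).comp h1
  continuousOn_invFun := by
    rw [isEmbedding_ι.continuousOn_iff]
    refine (e.symm.continuousOn.comp (continuous_gam a).continuousOn fun z hz => hz).congr ?_
    intro z hz
    have hz' : gam a z ∈ e.target := hz
    exact ι_invD he x0 hz'

instance : RDom n (Hs M a) where
  p := fun y => Fin.tail (cp (ι y))
  hp := by
    intro x
    exact ⟨chD (isCh_ch (ι x)) x, mem_ch (ι x), rfl⟩

lemma cp_Hs (x : Hs M a) : cp x = Fin.tail (cp (ι x)) := rfl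

lemma cp_Hs_apply (x : Hs M a) (j : Fin n) : cp x j = cp (ι x) j.succ := rfl

lemma gam_cp (x : Hs M a) : gam a (cp x) = cp (ι x) := gam_tail (ell_ι x)

lemma isCh_chD {e : OpenPartialHomeomorph M (Fin (n + 1) → ℂ)} (he : IsCh e) (x0 : Hs M a) :
    IsCh (chD he x0) := rfl

lemma chD_source {e : OpenPartialHomeomorph M (Fin (n + 1) → ℂ)} (he : IsCh e) (x0 : Hs M a) :
    (chD he x0).source = ι ⁻¹' e.source := rfl

lemma chD_target {e : OpenPartialHomeomorph M (Fin (n + 1) → ℂ)} (he : IsCh e) (x0 : Hs M a) :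
    (chD he x0).target = gam a ⁻¹' e.target := rfl

lemma ι_chD_symm {e : OpenPartialHomeomorph M (Fin (n + 1) → ℂ)} (he : IsCh e) (x0 : Hs M a)
    {z : Fin n → ℂ} (hz : gam a z ∈ e.target) : ι ((chD he x0).symm z) = e.symm (gam a z) := by
  exact ι_invD he x0 hz

/-! ### restriction of functions -/

variable {G : Type*} [NormedAddCommGroup G] [NormedSpace ℝ G]

lemma comp_symm_germ (f : M → G) {e : OpenPartialHomeomorph M (Fin (n + 1) → ℂ)} (he : IsCh e)
    (x0 : Hs M a) {x : Hs M a} (hx : ι x ∈ e.source) :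
    ((fun y => f (ι y)) ∘ (chD he x0).symm) =ᶠ[𝓝 (cp x)] ((f ∘ e.symm) ∘ gam a) := by
  have h1 : (chD he x0).target ∈ 𝓝 (cp x) := (chD he x0).open_target.mem_nhds (by
    show gam a (cp x) ∈ e.target
    rw [gam_cp]; exact he.cp_mem hx)
  filter_upwards [h1] with z hz
  simp only [Function.comp_apply]
  rw [ι_chD_symm he x0 hz]

lemma Sm.restr {f : M → G} (hf : Sm f) : Sm (fun y : Hs M a => f (ι y)) := by
  intro x
  have h1 : ContDiffAt ℝ (⊤ : ℕ∞) ((f ∘ (ch (ι x)).symm) ∘ gam a) (cp x) := by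
    apply ContDiffAt.comp
    · rw [gam_cp]; exact hf (ι x)
    · exact (contDiff_gam a).contDiffAt
  have h2 := h1.congr_of_eventuallyEq (comp_symm_germ f (isCh_ch (ι x)) x (mem_ch (ι x)))
  refine h2.congr_of_eventuallyEq ?_
  exact comp_germ (isCh_ch x) (isCh_chD (isCh_ch (ι x)) x) (mem_ch x) (mem_ch (ι x))
    (fun y : Hs M a => f (ι y))

lemma D_restr {f : M → G} (hf : Sm f) (x : Hs M a) :
    D (fun y : Hs M a => f (ι y)) x = (D f (ι x)).comp (gamR a) := by
  rw [D_eq (isCh_chD (isCh_ch (ι x)) x) (mem_ch (ι x)) (fun y : Hs M a => f (ι y)),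
    (comp_symm_germ f (isCh_ch (ι x)) x (mem_ch (ι x))).fderiv_eq]
  have h1 : HasFDerivAt (f ∘ (ch (ι x)).symm) (D f (ι x)) (gam a (cp x)) := by
    rw [gam_cp]; exact (hf.differentiableAt (ι x)).hasFDerivAt
  exact (h1.comp (cp x) (hasFDerivAt_gam a (cp x))).fderiv

lemma lev_restr {φ : M → ℝ} (hφ : Sm φ) (x : Hs M a) (w : Fin n → ℂ) :
    lev (fun y : Hs M a => φ (ι y)) x w = lev φ (ι x) (gamL a w) := by
  unfold lev
  have h : ∀ v : Fin n → ℂ, D (fun y => D (fun y : Hs M a => φ (ι y)) y v) x v =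
      D (fun y => D φ y (gamR a v)) (ι x) (gamR a v) := by
    intro v
    have h1 : (fun y : Hs M a => D (fun y : Hs M a => φ (ι y)) y v) =
        fun y : Hs M a => (fun y : M => D φ y (gamR a v)) (ι y) := by
      funext y
      rw [D_restr hφ]; rfl
    rw [h1, D_restr (hφ.D.apply _)]
    rfl
  rw [h, h, gamR_I]
  rfl

lemma Levi_restr {φ : M → ℝ} (hφ : Sm φ) (x : Hs M a) (w : Fin n → ℂ) :
    Levi (fun y : Hs M a => φ (ι y)) x w = Levi φ (ι x) (gamL a w) := by
  rw [Levi_eq_lev (Sm.restr hφ), Levi_eq_lev hφ, lev_restr hφ]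

lemma nsq_le_gamL (a : Fin (n + 1) → ℂ) (w : Fin n → ℂ) : nsq w ≤ nsq (gamL a w) := by
  unfold nsq
  rw [Fin.sum_univ_succ]
  simp only [gamL_succ]
  have : 0 ≤ ‖gamL a w 0‖ ^ 2 := by positivity
  linarith

lemma hol_of_local {M : Type*} [TopologicalSpace M] {n : ℕ} [RDom n M] {F : M → ℂ}
    (h : ∀ x : M, ∃ e : OpenPartialHomeomorph M (Fin n → ℂ), IsCh e ∧ x ∈ e.source ∧
      DifferentiableAt ℂ (F ∘ e.symm) (cp x)) : Hol F := by
  intro e he z hz
  obtain ⟨e', he', hx', hd⟩ := h (e.symm z)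
  have h1 : e.symm z ∈ e.source := e.map_target hz
  have h2 := comp_germ he he' h1 hx' F
  rw [he.cp_symm hz] at h2 hd
  exact (hd.congr_of_eventuallyEq h2).differentiableWithinAt

lemma Hol.restr {F : M → ℂ} (hF : Hol F) : Hol (fun y : Hs M a => F (ι y)) := by
  refine hol_of_local fun x => ⟨chD (isCh_ch (ι x)) x, isCh_chD _ _, mem_ch (ι x), ?_⟩
  refine DifferentiableAt.congr_of_eventuallyEq ?_
    (comp_symm_germ F (isCh_ch (ι x)) x (mem_ch (ι x)))
  apply DifferentiableAt.comp
  · rw [gam_cp]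
    exact (hF _ (isCh_ch (ι x))).differentiableAt
      ((ch (ι x)).open_target.mem_nhds ((isCh_ch (ι x)).cp_mem (mem_ch (ι x))))
  · exact (differentiable_gam a) _

lemma isCompact_sub {ρ : M → ℝ} (h : ∀ c, IsCompact {x | ρ x ≤ c}) (c : ℝ) :
    IsCompact {x : Hs M a | ρ (ι x) ≤ c} := isClosedEmbedding_ι.isCompact_preimage (h c)

end inst

end Crest.Agent.R273.Dir73
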