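import Crest.Agent.R273.OTU_34
import Crest.Agent.R273.Dir0_73

/-!
# Rows 273 / 276: extension of a holomorphic function from a hyperplane section (helper34)

`D = Hs M a = {ell a (cp x) = 0}` ⊂ `M` (helper73).  `loc_ext` : the extension constant in the
direction `e₀` near `D`; `ext_slice` : every holomorphic function on `D` is the restriction of a
holomorphic function on `M` (no estimate).
-/

set_option autoImplicit false
set_option linter.unusedSectionVars false

noncomputable section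

open Set Filter Topology MeasureTheory ComplexConjugate Metric
open scoped ENNReal

namespace Crest.Agent.R273.OTX_34

open Crest.Agent.R271 Crest.Agent.R271.Ho51 Crest.Agent.R273.OTA_34 Crest.Agent.R273.OTC_34
  Crest.Agent.R273.OTD_34 Crest.Agent.R273.OTE_34 Crest.Agent.R273.Reg_844
  Crest.Agent.R273.Dir73 Crest.Agent.R276.EngU_29

variable {n : ℕ} {M : Type*} [TopologicalSpace M] [RDom (n + 1) M] {a : Fin (n + 1) → ℂ}

/-- projection to the hyperplane -/
def Pr (a : Fin (n + 1) → ℂ) (z : Fin (n + 1) → ℂ) : Fin (n + 1) → ℂ := gam a (Fin.tail z)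

lemma norm_Pr_sub (z : Fin (n + 1) → ℂ) : ‖Pr a z - z‖ ≤ ‖ell a z‖ := by
  rw [pi_norm_le_iff_of_nonneg (norm_nonneg _)]
  intro i
  refine Fin.cases ?_ (fun j => ?_) i
  · have h1 : (Pr a z - z) 0 = -ell a z := by
      simp only [Pr, Pi.sub_apply, gam_zero, ell, Fin.tail]
      ring
    rw [h1, norm_neg]
  · have h1 : (Pr a z - z) j.succ = 0 := by
      simp only [Pr, Pi.sub_apply, gam_succ, Fin.tail, sub_self]
    rw [h1, norm_zero]
    exact norm_nonneg _

lemma ell_Pr (z : Fin (n + 1) → ℂ) : ell a (Pr a z) = 0 := ell_gam _ _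

lemma Pr_of_ell {z : Fin (n + 1) → ℂ} (h : ell a z = 0) : Pr a z = z := gam_tail h

open Classical in
/-- `f` on `M`, zero off `D` -/
def f1 (f : Hs M a → ℂ) (y : M) : ℂ := if hy : ell a (cp y) = 0 then f (mkHs y hy) else 0

lemma f1_ι (f : Hs M a → ℂ) (y : Hs M a) : f1 f (ι y) = f y := by
  unfold f1
  rw [dif_pos (ell_ι y)]
  rfl

/-- the points where the extension is defined -/
def Cx (a : Fin (n + 1) → ℂ) (x : M) : Prop :=
  ∃ e : OpenPartialHomeomorph M (Fin (n + 1) → ℂ), IsCh e ∧ x ∈ e.source ∧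
    segment ℝ (cp x) (Pr a (cp x)) ⊆ e.target

open Classical in
/-- the local extension -/
def fx (f : Hs M a → ℂ) (x : M) : ℂ :=
  if H : Cx a x then f1 f (H.choose.symm (Pr a (cp x))) else 0

variable [T2Space M]

lemma fx_eq (f : Hs M a → ℂ) {x : M} {e : OpenPartialHomeomorph M (Fin (n + 1) → ℂ)}
    (he : IsCh e) (hx : x ∈ e.source) (hs : segment ℝ (cp x) (Pr a (cp x)) ⊆ e.target) :
    fx f x = f1 f (e.symm (Pr a (cp x))) := by
  have H : Cx a x := ⟨e, he, hx, hs⟩
  unfold fx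
  rw [dif_pos H]
  congr 1
  obtain ⟨h1, h2, h3⟩ := H.choose_spec
  refine symm_eqOn h1 he (convex_segment _ _).isPreconnected h3 hs
    (left_mem_segment ℝ (cp x) (Pr a (cp x))) ?_ (right_mem_segment ℝ (cp x) (Pr a (cp x)))
  rw [h1.symm_cp h2, he.symm_cp hx]

lemma fx_ι (f : Hs M a → ℂ) (y : Hs M a) : fx f (ι y) = f y := by
  have h1 : Pr a (cp (ι y)) = cp (ι y) := Pr_of_ell (ell_ι y)
  have h2 : segment ℝ (cp (ι y)) (Pr a (cp (ι y))) ⊆ (ch (ι y)).target := by
    rw [h1, segment_same, singleton_subset_iff]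
    exact (isCh_ch (ι y)).cp_mem (mem_ch (ι y))
  rw [fx_eq f (isCh_ch (ι y)) (mem_ch (ι y)) h2, h1, symm_cp, f1_ι]

lemma continuous_Pr : Continuous (Pr a) := by
  unfold Pr
  refine (continuous_gam a).comp ?_
  exact continuous_pi fun j => continuous_apply j.succ

lemma f1_symm (f : Hs M a → ℂ) {e : OpenPartialHomeomorph M (Fin (n + 1) → ℂ)} (he : IsCh e)
    (x0 : Hs M a) {w : Fin n → ℂ} (hw : gam a w ∈ e.target) :
    f1 f (e.symm (gam a w)) = f ((chD he x0).symm w) := by
  rw [← ι_chD_symm he x0 hw, f1_ι]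

/-- the local extension is holomorphic near the points of small height -/
lemma fx_near {f : Hs M a → ℂ} (hf : Hol f) {x : M}
    {e : OpenPartialHomeomorph M (Fin (n + 1) → ℂ)} (he : IsCh e) {r : ℝ}
    (hr : 0 < r) (hb : ball (cp x) r ⊆ e.target) (hh : ‖ell a (cp x)‖ < r / 3) :
    AnalyticAt ℂ (fx f ∘ e.symm) (cp x) := by
  have hPx : Pr a (cp x) ∈ e.target := by
    refine hb ?_
    rw [mem_ball, dist_eq_norm]
    exact (norm_Pr_sub _).trans_lt (by linarith)
  set x0 : Hs M a := mkHs (e.symm (Pr a (cp x))) (by rw [he.cp_symm hPx, ell_Pr]) with hx0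
  have h1 : DifferentiableOn ℂ (f ∘ (chD he x0).symm) (chD he x0).target :=
    hf _ (isCh_chD he x0)
  have htl : Fin.tail (cp x) ∈ (chD he x0).target := by
    rw [chD_target]
    exact hPx
  have h2 : AnalyticAt ℂ (f ∘ (chD he x0).symm) (Fin.tail (cp x)) :=
    Crest.Agent.R266.SCV.analyticOnNhd_of_differentiableOn (chD he x0).open_target h1 _ htl
  have h3 : AnalyticAt ℂ (fun z : Fin (n + 1) → ℂ => (Fin.tail z : Fin n → ℂ)) (cp x) := by
    have : (fun z : Fin (n + 1) → ℂ => (Fin.tail z : Fin n → ℂ)) =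
        (ContinuousLinearMap.pi fun j : Fin n =>
          (ContinuousLinearMap.proj (R := ℂ) j.succ : (Fin (n + 1) → ℂ) →L[ℂ] ℂ)) := by
      funext z j; rfl
    rw [this]
    exact ContinuousLinearMap.analyticAt _ _
  have h4 : AnalyticAt ℂ ((f ∘ (chD he x0).symm) ∘ fun z : Fin (n + 1) → ℂ => Fin.tail z)
      (cp x) := h2.comp h3
  refine h4.congr ?_
  have hc : Continuous fun z : Fin (n + 1) → ℂ => ‖ell a z‖ := (continuous_ell a).norm
  filter_upwards [ball_mem_nhds (cp x) (show 0 < r / 3 by positivity),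
    hc.continuousAt.eventually_lt continuousAt_const hh] with z hz1 hz2
  have hz1' : ‖z - cp x‖ < r / 3 := by rwa [mem_ball, dist_eq_norm] at hz1
  have hseg : segment ℝ z (Pr a z) ⊆ ball (cp x) r := by
    refine (convex_ball (cp x) r).segment_subset ?_ ?_
    · rw [mem_ball, dist_eq_norm]; linarith
    · rw [mem_ball, dist_eq_norm]
      calc ‖Pr a z - cp x‖ = ‖(Pr a z - z) + (z - cp x)‖ := by congr 1; abel
        _ ≤ ‖Pr a z - z‖ + ‖z - cp x‖ := norm_add_le _ _
        _ < r := by have := norm_Pr_sub (a := a) z; linarith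
  have hzt : z ∈ e.target := hb (hseg (left_mem_segment ℝ z (Pr a z)))
  have hPz : Pr a z ∈ e.target := hb (hseg (right_mem_segment ℝ z (Pr a z)))
  simp only [Function.comp_apply]
  have h5 : fx f (e.symm z) = f1 f (e.symm (Pr a (cp (e.symm z)))) := by
    refine fx_eq f he (e.map_target hzt) ?_
    rw [he.cp_symm hzt]
    exact hseg.trans hb
  rw [h5, he.cp_symm hzt]
  exact (f1_symm f he x0 hPz).symm

/-- smoothness and `∂̄ = 0` from analyticity in a chart -/
lemma contDiffAt_of_an {F : M → ℂ} {x : M} {e : OpenPartialHomeomorph M (Fin (n + 1) → ℂ)}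
    (he : IsCh e) (hx : x ∈ e.source) (h : AnalyticAt ℂ (F ∘ e.symm) (cp x)) :
    ContDiffAt ℝ (⊤ : ℕ∞) (F ∘ (ch x).symm) (cp x) := by
  have h1 : AnalyticAt ℂ (F ∘ (ch x).symm) (cp x) :=
    h.congr (comp_germ he (isCh_ch x) hx (mem_ch x) F)
  exact (h1.restrictScalars (𝕜 := ℝ)).contDiffAt

lemma db_of_an {F : M → ℂ} {x : M} {e : OpenPartialHomeomorph M (Fin (n + 1) → ℂ)}
    (he : IsCh e) (hx : x ∈ e.source) (h : AnalyticAt ℂ (F ∘ e.symm) (cp x)) (j : Fin (n + 1)) :
    db j F x = 0 := by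
  have h1 : D F x = fderiv ℝ (F ∘ e.symm) (cp x) := D_eq he hx F
  have h2 : fderiv ℝ (F ∘ e.symm) (cp x) = (fderiv ℂ (F ∘ e.symm) (cp x)).restrictScalars ℝ :=
    h.differentiableAt.fderiv_restrictScalars ℝ
  have h3 : Pi.single j Complex.I = Complex.I • (Pi.single j 1 : Fin (n + 1) → ℂ) := by
    rw [← Pi.single_smul, smul_eq_mul, mul_one]
  rw [db_eq, h1, h2]
  simp only [ContinuousLinearMap.coe_restrictScalars']
  rw [h3, map_smul, smul_eq_mul, ← mul_assoc, Complex.I_mul_I]
  ring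

/-! ### the linear function -/

lemma differentiable_ell (a : Fin (n + 1) → ℂ) : Differentiable ℂ (ell a) := by
  unfold ell
  refine ((differentiable_apply 0).add (differentiable_const _)).add ?_
  exact Differentiable.fun_sum fun j _ => (differentiable_const _).mul (differentiable_apply j.succ)

lemma hol_ell (a : Fin (n + 1) → ℂ) : W792.Hol (fun x : M => ell a (cp x)) := by
  apply hol_of
  intro e he
  refine (differentiable_ell a).differentiableOn.congr fun z hz => ?_
  simp only [Function.comp_apply]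
  rw [he.cp_symm hz]

end Crest.Agent.R273.OTX_34

namespace Crest.Agent.R273.OTX_34

open Crest.Agent.R271 Crest.Agent.R271.Ho51 Crest.Agent.R273.OTA_34 Crest.Agent.R273.OTC_34
  Crest.Agent.R273.OTD_34 Crest.Agent.R273.OTE_34 Crest.Agent.R273.Reg_844
  Crest.Agent.R273.Dir73 Crest.Agent.R276.EngU_29

section gen

variable {n : ℕ} {M : Type*} [TopologicalSpace M] [RDom n M]

/-- `log |h|²` is psh -/
lemma lpsh_normSq {h : M → ℂ} (hh : W792.Hol h) : LPsh (fun x => ‖h x‖ ^ 2) := by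
  refine ⟨fun x => by positivity, fun δ hδ => ?_⟩
  have h1 : (fun x => Real.log (‖h x‖ ^ 2 + δ)) =
      Wd h (fun _ => 0) (Real.sqrt δ) := by
    funext x
    unfold Wd
    rw [Real.sq_sqrt hδ.le, zero_add]
  rw [h1]
  refine PSH.of_smooth (sm_Wd hh.sm (Sm.const 0) (Real.sqrt_pos.2 hδ)) fun x w => ?_
  refine le_trans (le_of_eq ?_) (lev_Wd hh (Sm.const 0) (Real.sqrt_pos.2 hδ) x w)
  rw [W792.lev_const]

variable [T2Space M] [SecondCountableTopology M] [MeasurableSpace M] [BorelSpace M]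
  {μ : Measure M}

/-- a continuous function which is integrable against `|h|^{-2}` vanishes on `{h = 0}` -/
lemma eq_zero_of_int (hμ : IsLeb μ) {h : M → ℂ} (hh : W792.Hol h) {g : M → ℝ} (hg : Continuous g)
    {K : ℝ≥0∞} (hK : K ≠ ∞)
    (hb : ∫⁻ x, ENNReal.ofReal (g x) / ENNReal.ofReal (‖h x‖ ^ 2) ∂μ ≤ K) {x0 : M}
    (hx0 : h x0 = 0) : g x0 ≤ 0 := by
  by_contra hne
  push Not at hne
  have hU : {x | g x0 / 2 < g x} ∈ 𝓝 x0 :=
    hg.continuousAt.eventually_const_lt (show g x0 / 2 < g x0 by linarith)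
  have h1 := not_int hμ ((hol_iff h).2 hh) hx0 hU
  have hUm : MeasurableSet {x | g x0 / 2 < g x} :=
    (isOpen_lt continuous_const hg).measurableSet
  have h2 : ENNReal.ofReal (g x0 / 2) *
      ∫⁻ x in {x | g x0 / 2 < g x}, (ENNReal.ofReal (‖h x‖ ^ 2))⁻¹ ∂μ ≤ K := by
    rw [← lintegral_const_mul' _ _ ENNReal.ofReal_ne_top]
    refine le_trans ?_ hb
    refine le_trans (setLIntegral_mono' hUm (g := fun x =>
      ENNReal.ofReal (g x) / ENNReal.ofReal (‖h x‖ ^ 2)) fun x hx => ?_)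
        (setLIntegral_le_lintegral _ _)
    exact (mul_le_mul_left (ENNReal.ofReal_le_ofReal (le_of_lt hx)) _).trans
      (le_of_eq (div_eq_mul_inv _ _).symm)
  rw [h1, ENNReal.mul_top (by simpa using hne)] at h2
  exact hK (top_unique h2)

end gen

section ext

variable {n : ℕ} {M : Type*} [TopologicalSpace M] [RDom (n + 1) M] {a : Fin (n + 1) → ℂ}
variable [T2Space M] [SecondCountableTopology M] [MeasurableSpace M] [BorelSpace M]
  {μ : Measure M}

/-- cut-off: `1` on `t ≤ 1/2`, `0` on `t ≥ 3/4` -/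
def ct (t : ℝ) : ℝ := 1 - Real.smoothTransition (4 * t - 2)

lemma contDiff_ct : ContDiff ℝ (⊤ : ℕ∞) ct := by
  unfold ct
  exact contDiff_const.sub (Real.smoothTransition.contDiff.comp
    ((contDiff_const.mul contDiff_id).sub contDiff_const))

lemma ct_one {t : ℝ} (h : t ≤ 1 / 2) : ct t = 1 := by
  unfold ct
  rw [Real.smoothTransition.zero_of_nonpos (by linarith), sub_zero]

lemma ct_zero {t : ℝ} (h : 3 / 4 ≤ t) : ct t = 0 := by
  unfold ct
  rw [Real.smoothTransition.one_of_one_le (by linarith), sub_self]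

/-- a smooth function controlling the size of the tubular neighbourhood -/
lemma exists_tub {ρ : M → ℝ} (hρ : Sm ρ) (hcpt : ∀ t : ℝ, IsCompact {x | ρ x ≤ t}) :
    ∃ L : M → ℝ, Sm L ∧ ∀ x, ∃ r : ℝ, 0 < r ∧ Adm r x ∧ Real.exp (-L x) ≤ (r / 3) ^ 2 := by
  choose r hr hadm using fun k : ℕ => exists_adm (hcpt ((k : ℝ) + 2))
  obtain ⟨X, hX, hX0, hXp, hXb⟩ := H88.exists_convex_weight 0
    (fun k => -2 * Real.log (r k / 3))
  have hsq : ∀ k, Real.exp (-(-2 * Real.log (r k / 3))) = (r k / 3) ^ 2 := by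
    intro k
    have h3 : 0 < r k / 3 := by have := hr k; positivity
    rw [show -(-2 * Real.log (r k / 3)) = Real.log (r k / 3) + Real.log (r k / 3) by ring,
      Real.exp_add, Real.exp_log h3]
    ring
  refine ⟨fun x => |(-2 * Real.log (r 0 / 3))| + X (ρ x), (Sm.const _).add (Sm.comp hX hρ), ?_⟩
  intro x
  rcases le_total (ρ x) 1 with hx | hx
  · refine ⟨r 0, hr 0, hadm 0 x (show ρ x ≤ ((0 : ℕ) : ℝ) + 2 by push_cast; linarith), ?_⟩
    rw [← hsq 0]
    apply Real.exp_le_exp.2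
    have h1 := (hXp (ρ x)).1
    have h2 := le_abs_self (-2 * Real.log (r 0 / 3))
    linarith
  · obtain ⟨k, hk1, hk2⟩ : ∃ k : ℕ, 0 + (k : ℝ) + 1 ≤ ρ x ∧ ρ x ≤ (k : ℝ) + 2 := by
      refine ⟨⌊ρ x - 1⌋₊, ?_, ?_⟩
      · have := Nat.floor_le (a := ρ x - 1) (by linarith)
        linarith
      · have := (Nat.lt_floor_add_one (ρ x - 1)).le
        linarith
    refine ⟨r k, hr k, hadm k x hk2, ?_⟩
    rw [← hsq k]
    apply Real.exp_le_exp.2
    have h1 := (hXb k (ρ x) hk1).1
    have h2 := abs_nonneg (-2 * Real.log (r 0 / 3))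
    linarith

/-- **extension from a hyperplane section, without estimates** -/
theorem ext_slice (hμ : IsLeb μ) {ρ : M → ℝ} (hρ : Sm ρ)
    (hcpt : ∀ t : ℝ, IsCompact {x | ρ x ≤ t}) (hL : ∀ x w, nsq w ≤ Levi ρ x w)
    {f : Hs M a → ℂ} (hf : Hol f) : ∃ F : M → ℂ, Hol F ∧ ∀ y, F (ι y) = f y := by
  obtain ⟨L, hLs, hLr⟩ := exists_tub hρ hcpt
  set h : M → ℂ := fun x => ell a (cp x) with hh
  have hhol : W792.Hol h := hol_ell a
  have hhc := hhol.sm.continuous
  set s : M → ℝ := fun x => ‖h x‖ ^ 2 * Real.exp (L x) with hs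
  have hss : Sm s := (W792.Hol.sm_normSq hhol.sm).mulR (sm_exp hLs)
  have hsc := hss.continuous
  -- holomorphy of the local extension
  have hfan : ∀ x, s x < 1 → ∃ e : OpenPartialHomeomorph M (Fin (n + 1) → ℂ), IsCh e ∧
      x ∈ e.source ∧ AnalyticAt ℂ (fx f ∘ e.symm) (cp x) := by
    intro x hx
    obtain ⟨r, hr, ⟨e, he, hxe, hb⟩, hr2⟩ := hLr x
    refine ⟨e, he, hxe, fx_near hf he hr hb ?_⟩
    have h1 : ‖h x‖ ^ 2 < (r / 3) ^ 2 := by
      refine lt_of_lt_of_le ?_ hr2
      rw [Real.exp_neg, ← one_div, lt_div_iff₀ (Real.exp_pos _)]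
      exact hx
    exact lt_of_pow_lt_pow_left₀ 2 (by positivity) h1
  set G : M → ℂ := fun x => ((ct (s x) : ℝ) : ℂ) * fx f x with hG
  have hcts : Sm (fun x => ((ct (s x) : ℝ) : ℂ)) := (Sm.comp contDiff_ct hss).ofReal
  have hG0 : ∀ x, 3 / 4 < s x → G =ᶠ[𝓝 x] fun _ => 0 := by
    intro x hx
    filter_upwards [hsc.continuousAt.eventually_const_lt hx] with y hy
    simp only [hG]
    rw [ct_zero (le_of_lt hy)]
    simp
  have hG1 : ∀ x, s x < 1 / 2 → G =ᶠ[𝓝 x] fx f := by
    intro x hx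
    filter_upwards [hsc.continuousAt.eventually_lt_const hx] with y hy
    simp only [hG]
    rw [ct_one (le_of_lt hy)]
    simp
  have hGs : Sm G := by
    intro x
    rcases lt_or_ge (s x) 1 with hx | hx
    · obtain ⟨e, he, hxe, han⟩ := hfan x hx
      exact (hcts x).mul (contDiffAt_of_an he hxe han)
    · have h1 : (G ∘ (ch x).symm) =ᶠ[𝓝 (cp x)] fun _ => 0 := by
        have h2 : Tendsto (ch x).symm (𝓝 (cp x)) (𝓝 x) := by
          have := (ch x).symm.continuousAt (x := cp x) (by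
            simpa using (isCh_ch x).cp_mem (mem_ch x))
          rwa [ContinuousAt, (isCh_ch x).symm_cp (mem_ch x)] at this
        exact h2.eventually (hG0 x (by linarith))
      exact contDiffAt_const.congr_of_eventuallyEq h1
  have hdb : ∀ x, s x < 1 / 2 ∨ 3 / 4 < s x → ∀ j, db j G x = 0 := by
    rintro x (hx | hx) j
    · obtain ⟨e, he, hxe, han⟩ := hfan x (by linarith)
      rw [db_congr (hG1 x hx)]
      exact db_of_an he hxe han j
    · rw [db_congr (hG0 x hx), db_const]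
  -- weights
  set κ : M → ℝ := fun x => nsq (fun j => db j G x) with hκ
  have hκ0 : ∀ x, 0 ≤ κ x := fun x => nsq_nonneg _
  have hκc : Continuous κ := continuous_nsq.comp (continuous_pi fun j => (hGs.db j).continuous)
  set w : M → ℝ := fun x => κ x * (2 * Real.exp (L x)) * Real.exp (-ρ x) with hw
  have hwc : Continuous w := (hκc.mul (continuous_const.mul
    (Real.continuous_exp.comp hLs.continuous))).mul (Real.continuous_exp.comp hρ.continuous.neg)
  obtain ⟨psi, chi, hpsi, hchi, hpsi0, -, -, hLchi, hint, -⟩ :=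
    H868.exists_weights hμ ρ hρ hcpt hL 0 w hwc
  have hLe : ∀ x (v : Fin (n + 1) → ℂ), nsq v ≤ Levi (fun x => ρ x + chi x) x v := by
    intro x v
    rw [Levi_add hρ hchi]
    have h1 := hL x v
    have h2 := hLchi x v
    have h3 : 0 ≤ 2 * nsq (fun j => dz j (fun y => (psi y : ℂ)) x) * nsq v :=
      mul_nonneg (mul_nonneg (by norm_num) (nsq_nonneg _)) (nsq_nonneg _)
    linarith
  have hK : ∫⁻ x, ENNReal.ofReal (κ x * Real.exp (-(ρ x + chi x))) /
      ENNReal.ofReal (‖h x‖ ^ 2) ∂μ ≤ ∫⁻ x, ENNReal.ofReal (|w x| * Real.exp (psi x - chi x)) ∂μ := by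
    refine lintegral_mono fun x => ?_
    by_cases hx : s x < 1 / 2
    · have h1 : κ x = 0 := by
        simp only [hκ]
        have : (fun j => db j G x) = 0 := by funext j; exact hdb x (Or.inl hx) j
        rw [this]
        simp [nsq]
      rw [h1]
      simp
    · push Not at hx
      have hE := Real.exp_pos (L x)
      have hhp : 0 < ‖h x‖ ^ 2 := by
        by_contra hc
        have h0 : ‖h x‖ ^ 2 = 0 := le_antisymm (not_lt.1 hc) (by positivity)
        have : s x = 0 := by simp only [hs]; rw [h0, zero_mul]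
        linarith
      have h1 : (‖h x‖ ^ 2)⁻¹ ≤ 2 * Real.exp (L x) := by
        rw [inv_eq_one_div, div_le_iff₀ hhp]
        have : s x = ‖h x‖ ^ 2 * Real.exp (L x) := rfl
        nlinarith
      rw [div_eq_mul_inv, ← ENNReal.ofReal_inv_of_pos hhp, ← ENNReal.ofReal_mul (by
        have := hκ0 x; positivity)]
      apply ENNReal.ofReal_le_ofReal
      have h2 : 0 ≤ w x := by
        have := hκ0 x
        simp only [hw]; positivity
      rw [abs_of_nonneg h2]
      have h3 : Real.exp (-(ρ x + chi x)) = Real.exp (-ρ x) * Real.exp (-chi x) := by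
        rw [← Real.exp_add]; congr 1; ring
      have h4 : Real.exp (-chi x) ≤ Real.exp (psi x - chi x) :=
        Real.exp_le_exp.2 (by have := hpsi0 x; linarith)
      have h5 := hκ0 x
      calc κ x * Real.exp (-(ρ x + chi x)) * (‖h x‖ ^ 2)⁻¹
          ≤ κ x * Real.exp (-(ρ x + chi x)) * (2 * Real.exp (L x)) := by gcongr
        _ = w x * Real.exp (-chi x) := by rw [h3]; simp only [hw]; ring
        _ ≤ w x * Real.exp (psi x - chi x) := by gcongr
  obtain ⟨F, hF, hFb⟩ := engU hμ hρ hcpt hL (ψ := fun x => ρ x + chi x) (hρ.add hchi)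
    (fun x v => (nsq_nonneg v).trans (hLe x v)) hGs (κ := κ)
    (fun x v => by
      calc ‖∑ j, db j G x * conj (v j)‖ ^ 2 ≤ nsq (fun j => db j G x) * nsq (fun j => conj (v j)) :=
            norm_sum_mul_sq_le _ _
        _ = κ x * nsq v := by rw [nsq_conj]
        _ ≤ κ x * Levi (fun x => ρ x + chi x) x v :=
            mul_le_mul_of_nonneg_left (hLe x v) (hκ0 x)) (lpsh_normSq hhol) hK
  refine ⟨F, hF, fun y => ?_⟩
  have hFs := (hol_of _ hF).sm.continuous
  have hgc : Continuous fun x => ‖F x - G x‖ ^ 2 * Real.exp (-(ρ x + chi x)) :=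
    ((hFs.sub hGs.continuous).norm.pow 2).mul
      (Real.continuous_exp.comp (hρ.continuous.add hchi.continuous).neg)
  have hy0 : h (ι y) = 0 := ell_ι y
  have h1 := eq_zero_of_int hμ hhol hgc (K := 2 * ∫⁻ x, ENNReal.ofReal (|w x| *
    Real.exp (psi x - chi x)) ∂μ) (ENNReal.mul_ne_top (by simp) hint.ne) hFb hy0
  have h2 : ‖F (ι y) - G (ι y)‖ ^ 2 ≤ 0 := by
    by_contra hc
    push Not at hc
    have := mul_pos hc (Real.exp_pos (-(ρ (ι y) + chi (ι y))))
    linarith
  have h3 : F (ι y) - G (ι y) = 0 := by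
    rw [← norm_eq_zero]
    exact pow_eq_zero_iff (two_ne_zero) |>.1 (le_antisymm h2 (by positivity))
  have h4 : G (ι y) = f y := by
    simp only [hG, hs]
    rw [hy0, norm_zero, zero_pow two_ne_zero, zero_mul, ct_one (by norm_num), fx_ι]
    simp
  rw [← h4]
  exact sub_eq_zero.1 h3

end ext

end Crest.Agent.R273.OTX_34
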