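import Crest.Agent.R273.PsiA_844
import Crest.Agent.R266.Osgood
import Crest.Agent.R271.H3_51

/-!
# Row 273, leaf PSI (helper844), part B

`exists_psh_near` : a continuous function `P` which is approximated at every point by
`limsup (1/k) log |u_k|²`, `u_k` holomorphic, is within bounded distance of a psh function.
-/

set_option autoImplicit false
set_option linter.unusedSectionVars false

open MeasureTheory Set Metric Filter Topology
open scoped ENNReal ContDiff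

noncomputable section

namespace Crest.Agent.R273.Reg_844

open Crest.Agent.R275.FL606 Crest.Agent.R271.Ho51
open Crest.Agent.R271.W792 (lev)

variable {n : ℕ} {M : Type*} [TopologicalSpace M] [RDom n M]

/-- the two notions of holomorphic functions -/
lemma hol_W {f : M → ℂ} (hf : Hol f) : Crest.Agent.R271.W792.Hol f where
  sm := fun x => by
    have h1 := hf (ch x) (isCh_ch x)
    have h2 : ContDiffOn ℝ (⊤ : ℕ∞) (f ∘ (ch x).symm) (ch x).target :=
      ((Crest.Agent.R266.SCV.contDiffOn_omega_of_differentiableOn (ch x).open_target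
        h1).restrict_scalars ℝ).of_le le_top
    exact h2.contDiffAt ((ch x).open_target.mem_nhds ((isCh_ch x).cp_mem (mem_ch x)))
  cl := fun x w => by
    have h1 : DifferentiableAt ℂ (f ∘ (ch x).symm) (cp x) :=
      (hf (ch x) (isCh_ch x)).differentiableAt
        ((ch x).open_target.mem_nhds ((isCh_ch x).cp_mem (mem_ch x)))
    have h2 : D f x = (fderiv ℂ (f ∘ (ch x).symm) (cp x)).restrictScalars ℝ :=
      h1.fderiv_restrictScalars ℝ
    rw [h2]
    simp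

/-- `log (|u|² + δ)` is psh -/
lemma psh_log {u : M → ℂ} (hu : Hol u) {δ : ℝ} (hδ : 0 < δ) :
    PSH (fun x => Real.log (‖u x‖ ^ 2 + δ)) := by
  have hp : ∀ x, 0 < Crest.Agent.R271.W792.nS (fun _ : Unit => u) x + δ := fun x => by
    have : 0 ≤ Crest.Agent.R271.W792.nS (fun _ : Unit => u) x :=
      Finset.sum_nonneg fun _ _ => by positivity
    linarith
  have h1 : PSH (Crest.Agent.R271.W792.lg (fun _ : Unit => u) δ) :=
    PSH.of_smooth (Crest.Agent.R271.W792.sm_lg (fun _ => (hol_W hu).sm) hp)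
      (fun x w => Crest.Agent.R271.W792.lev_lg_nonneg (fun _ => hol_W hu) hδ.le hp x w)
  have h2 : Crest.Agent.R271.W792.lg (fun _ : Unit => u) δ =
      fun x => Real.log (‖u x‖ ^ 2 + δ) := by
    funext x
    simp [Crest.Agent.R271.W792.lg, Crest.Agent.R271.W792.nS]
  rwa [h2] at h1

/-- `(1/k) log (|u|² + e^{-kT})` -/
def Fk (u : ℕ → M → ℂ) (T : ℝ) (k : ℕ) (x : M) : ℝ :=
  (1 / (k : ℝ)) * Real.log (‖u k x‖ ^ 2 + Real.exp (-(k * T)))

lemma psh_Fk {u : ℕ → M → ℂ} (hu : ∀ k, Hol (u k)) (T : ℝ) (k : ℕ) : PSH (Fk u T k) :=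
  (psh_log (hu k) (Real.exp_pos _)).const_mul (by positivity)

lemma le_Fk {u : ℕ → M → ℂ} {T : ℝ} {k : ℕ} (hk : 1 ≤ k) {x : M} {c : ℝ}
    (h : Real.exp (k * c) ≤ ‖u k x‖ ^ 2) : c ≤ Fk u T k x := by
  have hk0 : (0 : ℝ) < k := by exact_mod_cast hk
  have h1 : k * c ≤ Real.log (‖u k x‖ ^ 2 + Real.exp (-(k * T))) := by
    rw [Real.le_log_iff_exp_le (by positivity)]
    exact h.trans (by linarith [Real.exp_pos (-(k * T))])
  unfold Fk
  rw [div_mul_eq_mul_div, one_mul, le_div_iff₀ hk0]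
  linarith

lemma neg_le_Fk {u : ℕ → M → ℂ} {T : ℝ} {k : ℕ} (hk : 1 ≤ k) (x : M) : -T ≤ Fk u T k x := by
  have hk0 : (0 : ℝ) < k := by exact_mod_cast hk
  have h1 : -(k * T) ≤ Real.log (‖u k x‖ ^ 2 + Real.exp (-(k * T))) := by
    rw [Real.le_log_iff_exp_le (by positivity)]
    nlinarith [sq_nonneg ‖u k x‖]
  unfold Fk
  rw [div_mul_eq_mul_div, one_mul, le_div_iff₀ hk0]
  linarith

lemma Fk_le {u : ℕ → M → ℂ} {T : ℝ} {k : ℕ} (hk : 1 ≤ k) {x : M} {c : ℝ} (hc : -T ≤ c)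
    (h : ‖u k x‖ ^ 2 ≤ Real.exp (k * c)) : Fk u T k x ≤ c + Real.log 2 / k := by
  have hk0 : (0 : ℝ) < k := by exact_mod_cast hk
  have h1 : Real.log (‖u k x‖ ^ 2 + Real.exp (-(k * T))) ≤ k * c + Real.log 2 := by
    rw [Real.log_le_iff_le_exp (by positivity), Real.exp_add, Real.exp_log (by norm_num)]
    have : Real.exp (-(k * T)) ≤ Real.exp (k * c) := Real.exp_le_exp.2 (by nlinarith)
    linarith
  unfold Fk
  rw [div_mul_eq_mul_div, one_mul, div_le_iff₀ hk0, add_mul, div_mul_cancel₀ _ hk0.ne']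
  linarith

/-- limit superior of `Fk` -/
def Fl (u : ℕ → M → ℂ) (T : ℝ) (x : M) : ℝ := limsup (fun k => Fk u T (k + 1) x) atTop

section

variable {u : ℕ → M → ℂ} (hb : ∀ x, ∃ K : ℝ, ∀ᶠ y in 𝓝 x, ∀ k : ℕ, 1 ≤ k →
  ‖u k y‖ ^ 2 ≤ Real.exp (k * K))

include hb

lemma Fk_bdd (T : ℝ) (x : M) : ∃ K : ℝ, ∀ᶠ y in 𝓝 x, ∀ k : ℕ, |Fk u T (k + 1) y| ≤ K := by
  obtain ⟨K, hK⟩ := hb x
  refine ⟨|T| + |K| + Real.log 2, hK.mono fun y hy k => ?_⟩
  have h2 : 0 < Real.log 2 := Real.log_pos (by norm_num)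
  have hk : (1 : ℝ) ≤ ((k + 1 : ℕ) : ℝ) := by exact_mod_cast Nat.le_add_left 1 k
  have h3 : ‖u (k + 1) y‖ ^ 2 ≤ Real.exp (((k + 1 : ℕ) : ℝ) * max K (-T)) :=
    (hy (k + 1) (Nat.le_add_left 1 k)).trans
      (Real.exp_le_exp.2 (mul_le_mul_of_nonneg_left (le_max_left _ _) (by linarith)))
  have h4 := Fk_le (T := T) (Nat.le_add_left 1 k) (le_max_right K (-T)) h3
  have h5 := neg_le_Fk (u := u) (T := T) (Nat.le_add_left 1 k) y
  have h6 : Real.log 2 / ((k + 1 : ℕ) : ℝ) ≤ Real.log 2 := div_le_self h2.le hk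
  have h7 : max K (-T) ≤ |K| + |T| := max_le
    ((le_abs_self K).trans (by linarith [abs_nonneg T]))
    ((neg_le_abs T).trans (by linarith [abs_nonneg K]))
  have h8 := le_abs_self T
  have h9 := abs_nonneg K
  rw [abs_le]
  constructor <;> linarith

lemma Fl_lt (T : ℝ) (x : M) (a : ℝ) (h : Fl u T x < a) : ∀ᶠ k in atTop, Fk u T (k + 1) x < a := by
  obtain ⟨K, hK⟩ := Fk_bdd hb T x
  have hK' := hK.self_of_nhds
  exact eventually_lt_of_limsup_lt h (isBoundedUnder_of ⟨K, fun k => (abs_le.1 (hK' k)).2⟩)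

lemma lt_Fl (T : ℝ) (x : M) (a : ℝ) (h : a < Fl u T x) : ∃ᶠ k in atTop, a ≤ Fk u T (k + 1) x := by
  obtain ⟨K, hK⟩ := Fk_bdd hb T x
  have hK' := hK.self_of_nhds
  exact (frequently_lt_of_lt_limsup
    ((isBoundedUnder_of ⟨-K, fun k => (abs_le.1 (hK' k)).1⟩ :
      IsBoundedUnder (· ≥ ·) atTop fun k => Fk u T (k + 1) x).isCoboundedUnder_flip) h).mono
    fun k hk => le_of_lt hk

lemma Fl_le (T : ℝ) (x : M) {a : ℝ} (h : ∀ᶠ k in atTop, Fk u T (k + 1) x ≤ a) : Fl u T x ≤ a := by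
  obtain ⟨K, hK⟩ := Fk_bdd hb T x
  have hK' := hK.self_of_nhds
  exact limsup_le_of_le ((isBoundedUnder_of ⟨-K, fun k => (abs_le.1 (hK' k)).1⟩ :
      IsBoundedUnder (· ≥ ·) atTop fun k => Fk u T (k + 1) x).isCoboundedUnder_flip) h

lemma le_Fl (T : ℝ) (x : M) {a : ℝ} (h : ∃ᶠ k in atTop, a ≤ Fk u T (k + 1) x) : a ≤ Fl u T x := by
  obtain ⟨K, hK⟩ := Fk_bdd hb T x
  have hK' := hK.self_of_nhds
  exact le_limsup_of_frequently_le h (isBoundedUnder_of ⟨K, fun k => (abs_le.1 (hK' k)).2⟩)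

lemma subM_Fl (hu : ∀ k, Hol (u k)) (T : ℝ) : SubM (Fl u T) :=
  subM_limsup (f := fun k => Fk u T (k + 1)) (fun k => psh_Fk hu T (k + 1)) (Fk_bdd hb T)
    (Fl_lt hb T) (lt_Fl hb T)

end

/-- **PSI core.** A continuous function `P` such that for every point `x₀` there are holomorphic
functions `u_k` with `limsup (1/k) log |u_k|² ≤ P + C` everywhere and
`limsup (1/k) log |u_k(x₀)|² ≥ P(x₀) - C` is within distance `C` of a psh function. -/
theorem exists_psh_near {P : M → ℝ} (hP : Continuous P) {C : ℝ}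
    (h : ∀ x₀ : M, ∃ u : ℕ → M → ℂ, (∀ k, Hol (u k)) ∧
      (∀ x, ∃ K : ℝ, ∀ᶠ y in 𝓝 x, ∀ k : ℕ, 1 ≤ k → ‖u k y‖ ^ 2 ≤ Real.exp (k * K)) ∧
      (∀ x, ∀ c : ℝ, P x + C < c → ∀ᶠ k : ℕ in atTop, ‖u k x‖ ^ 2 ≤ Real.exp (k * c)) ∧
      (∀ c : ℝ, c < P x₀ - C → ∃ᶠ k : ℕ in atTop, Real.exp (k * c) ≤ ‖u k x₀‖ ^ 2)) :
    ∃ Ψ : M → ℝ, PSH Ψ ∧ ∀ x, P x - C ≤ Ψ x ∧ Ψ x ≤ P x + C := by
  choose u hu hb hup hlo using h
  set A : M → Set ℝ := fun x => {c | ∃ i, ∃ᶠ k : ℕ in atTop, Real.exp (k * c) ≤ ‖u i k x‖ ^ 2}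
    with hA
  set S : M → ℝ := fun x => sSup (A x) with hS
  have hAlo : ∀ x c, c < P x - C → c ∈ A x := fun x c hc => ⟨x, hlo x c hc⟩
  have hAhi : ∀ x, ∀ c ∈ A x, c ≤ P x + C := by
    rintro x c ⟨i, hi⟩
    by_contra hcon
    rw [not_le] at hcon
    obtain ⟨c', hc', hc''⟩ := exists_between hcon
    obtain ⟨k, hk1, hk2, hk3⟩ := (hi.and_eventually
      ((hup i x c' hc').and (eventually_ge_atTop 1))).exists
    have hk0 : (0 : ℝ) < k := by exact_mod_cast hk3
    have h1 := Real.exp_le_exp.1 (hk1.trans hk2)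
    nlinarith
  have hAne : ∀ x, (A x).Nonempty := fun x => ⟨P x - C - 1, hAlo x _ (by linarith)⟩
  have hAbd : ∀ x, BddAbove (A x) := fun x => ⟨P x + C, fun c hc => hAhi x c hc⟩
  have hSlo : ∀ x, P x - C ≤ S x := by
    intro x
    apply le_of_forall_lt
    intro c hc
    obtain ⟨c', hc', hc''⟩ := exists_between hc
    exact hc'.trans_le (le_csSup (hAbd x) (hAlo x c' hc''))
  have hShi : ∀ x, S x ≤ P x + C := fun x => csSup_le (hAne x) (hAhi x)
  have hSb : LocB S := by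
    intro x
    refine ⟨|P x| + |C| + 1, ?_⟩
    have h1 : ∀ᶠ y in 𝓝 x, |P y - P x| < 1 := by
      have := Metric.continuousAt_iff'.1 (hP.continuousAt (x := x)) 1 one_pos
      simpa [Real.dist_eq] using this
    filter_upwards [h1] with y hy
    have h2 := hSlo y
    have h3 := hShi y
    have h4 := abs_lt.1 hy
    have h5 := le_abs_self (P x)
    have h6 := neg_abs_le (P x)
    have h7 := le_abs_self C
    rw [abs_le]
    constructor <;> linarith
  refine ⟨ush S, ?_, fun x => ⟨(hSlo x).trans (hSb.le_ush x), ?_⟩⟩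
  · refine psh_of_family (g := fun i T => Fl (u i) T) (fun i T => subM_Fl (hb i) (hu i) T) hSb
      ?_ ?_
    · intro i T x
      apply le_of_forall_gt
      intro c hc
      obtain ⟨c', hc', hc''⟩ := exists_between hc
      obtain ⟨c1, hc1, hc1'⟩ := exists_between hc''
      have hnot : c' ∉ A x := fun hmem =>
        absurd (le_csSup (hAbd x) hmem) (not_le.2 (lt_of_le_of_lt (le_max_left _ _) hc'))
      have hev : ∀ᶠ k : ℕ in atTop, ‖u i k x‖ ^ 2 ≤ Real.exp (k * c') := by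
        by_contra hcon
        apply hnot
        refine ⟨i, ?_⟩
        intro hcon2
        apply hcon
        filter_upwards [hcon2] with k hk
        exact (not_le.1 hk).le
      have hlog : ∀ᶠ k : ℕ in atTop, c' + Real.log 2 / ((k : ℕ) : ℝ) ≤ c1 := by
        have h1 : Tendsto (fun k : ℕ => Real.log 2 / (k : ℝ)) atTop (𝓝 0) :=
          tendsto_const_div_atTop_nhds_zero_nat _
        filter_upwards [h1.eventually (gt_mem_nhds (by linarith : (0 : ℝ) < c1 - c'))] with k hk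
        linarith
      refine lt_of_le_of_lt (Fl_le (hb i) T x ?_) hc1'
      have h2 := (tendsto_add_atTop_nat 1).eventually (hev.and hlog)
      filter_upwards [h2] with k hk
      exact (Fk_le (Nat.le_add_left 1 k) ((le_max_right (S x) (-T)).trans hc'.le) hk.1).trans hk.2
    · intro x c hc T
      obtain ⟨c', ⟨i, hi⟩, hc'⟩ := exists_lt_of_lt_csSup (hAne x) hc
      refine ⟨i, hc'.trans_le (le_Fl (hb i) T x ?_)⟩
      have h1 : ∃ᶠ k : ℕ in atTop, Real.exp (((k + 1 : ℕ) : ℝ) * c') ≤ ‖u i (k + 1) x‖ ^ 2 := by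
        rw [frequently_atTop] at hi ⊢
        intro a
        obtain ⟨b, hb1, hb2⟩ := hi (a + 1)
        refine ⟨b - 1, by omega, ?_⟩
        rwa [Nat.sub_add_cancel (by omega)]
      exact h1.mono fun k hk => le_Fk (Nat.le_add_left 1 k) hk
  · exact ush_le_of_le (g := fun x => P x + C) ((hP.add continuous_const).upperSemicontinuous)
      hShi x

end Crest.Agent.R273.Reg_844
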