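import Crest.Agent.R273.TLl_201
import Crest.Agent.R273.Mass_5
import Crest.Agent.R273.TVolB_332
import Crest.Agent.R273.ExpI3_772

/-!
# R273 (S0416), T-LEMMA (helper201): final theorem

`tl : YauStmt → ... → TLStmt h D (kah H hH)`.
-/

set_option autoImplicit false
set_option linter.unusedSectionVars false

open Set Filter Topology Complex MeasureTheory
open scoped ContDiff Matrix ComplexConjugate ComplexOrder ENNReal

namespace Crest.Agent.R273.TLtop_201

open Crest.Agent.R275 Crest.Agent.R275.Geo Crest.Agent.R275.Core144 Crest.Agent.R275.EDR890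
open Crest.Agent.R275.GC293
open Crest.Agent.R273.Defs_333 Crest.Agent.R273.Hess_333 Crest.Agent.R273.HessB_333
open Crest.Agent.R273.HM_333 Crest.Agent.R273.Kah_333 Crest.Agent.R273.Vol_333
open Crest.Agent.R273.Vm_333 Crest.Agent.R273.YauDefs_635 Crest.Agent.R273.YauCh_635
open Crest.Agent.R273.Green_5 Crest.Agent.R273.FIa0_597 Crest.Agent.R273.FIb0_597
open Crest.Agent.R273.FIc0_597 Crest.Agent.R273.FId0_597
open Crest.Agent.R273.TLd_201 Crest.Agent.R273.TLb_201 Crest.Agent.R273.TLs_201
open Crest.Agent.R273.TLl_201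

noncomputable section

variable {n : ℕ} {M : Type} [TopologicalSpace M] {A : Atl n M} {L L' : LB A}

/-- exponential integrability in the form of `TLd_201` -/
theorem exp_holds [T2Space M] [CompactSpace M] [ConnectedSpace M] [Finite A.ι]
    [MeasurableSpace M] [BorelSpace M] (h : HM (KB A)⁻¹) (H : HM L) : ExpStmt h H := by
  obtain ⟨η, C, hη, hC, hE⟩ := ExpI3_772.exp_psh h H
  refine ⟨η, hη, C, fun v hv hpsd hle h0 => ?_⟩
  have hP : ExpI3_772.PSHle H v := by
    refine ⟨hv, fun i z hz w => ?_, hle, h0⟩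
    have hx := (A.e i).map_target hz
    have h1 := hpsd i _ hx
    have e1 : cur H i ((A.e i).symm z) = hess (H.wt i) z := cur_read H i hz
    have e2 : hsf A v i ((A.e i).symm z) = hess (fun z => v ((A.e i).symm z)) z := hsf_read v i hz
    have h3 : (hess (pot H v i) z).PosSemidef := by
      have h4 : hess (pot H v i) z = cur H i ((A.e i).symm z) + hsf A v i ((A.e i).symm z) := by
        rw [e1, e2]
        exact hess_add (wt_contDiffAt H i hz) (sm_contDiffAt hv i hz)
      rw [h4]
      exact h1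
    exact lev_nonneg_of_posSemidef (YauMax_635.pot_contDiffAt H hv i hz) h3 w
  obtain ⟨hi, hb⟩ := hE v hP
  rw [← ofReal_integral_eq_lintegral_ofReal hi (Eventually.of_forall fun x => (Real.exp_pos _).le)]
  exact ENNReal.ofReal_le_ofReal hb

/-- the case `ν = 0` -/
theorem tl_zero [T2Space M] [CompactSpace M] [Finite A.ι] [MeasurableSpace M] [BorelSpace M]
    {h : HM (KB A)⁻¹} (hs : h.Semipos) (D : TD A) (K : Kah A)
    (hrk : ∀ i, ∀ x ∈ (A.e i).source, (cur h i x).rank ≤ 0) (hF : FIc h D 0) :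
    TLStmt h D K := by
  have := Fintype.ofFinite A.ι
  have := isFinite_vm h
  have h0 : ∀ i, ∀ x ∈ (A.e i).source, ∀ v : Fin n → ℂ, cur h i x *ᵥ v = 0 := by
    intro i x hx v
    have h1 : Module.finrank ℂ (LinearMap.range (cur h i x).mulVecLin) = 0 :=
      Nat.le_zero.1 (hrk i x hx)
    have h2 : LinearMap.range (cur h i x).mulVecLin = ⊥ := Submodule.finrank_eq_zero.1 h1
    have h3 : (cur h i x).mulVecLin v ∈ LinearMap.range (cur h i x).mulVecLin := ⟨v, rfl⟩
    rw [h2] at h3
    simpa using h3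
  have hbe : ∀ x ∈ D.U, ∀ i, x ∈ (A.e i).source → D.be i x = 0 := by
    intro x hU i hx
    have h1 : ∀ v, D.be i x *ᵥ v = 0 := fun v => hF x hU i hx (Nat.le_zero.1 (hrk i x hx)) v
      (h0 i x hx v)
    ext a b
    have h2 := congrFun (h1 (Pi.single b 1)) a
    simpa using h2
  have hB : ∀ t : Tst D, t.B h D.be = 0 := by
    intro t
    unfold Tst.B
    rw [← integral_zero M ℝ (μ := vm h)]
    refine integral_congr_ae (Eventually.of_forall fun x => ?_)
    simp only
    by_cases hx : x ∈ t.K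
    · rw [hbe x (t.KU hx).2 t.i (t.KU hx).1, Matrix.zero_mul, Matrix.trace_zero, Complex.zero_re]
    · rw [t.zero x hx, Matrix.mul_zero, Matrix.trace_zero, Complex.zero_re]
  refine ⟨1, 1, fun _ => 0, one_pos, one_pos, measurable_const, fun _ => le_rfl,
    MemLp.zero', ?_, fun m ε hε T => ?_⟩
  · simp only [mul_zero, neg_zero, Real.exp_zero]
    exact integrable_const _
  · have hpsd : ∀ i, ∀ x ∈ (A.e i).source,
        (cur h i x + (1 / ((m : ℂ) + 1)) • K.g i x + hsf A (fun _ => (0 : ℝ)) i x).PosSemidef := by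
      intro i x hx
      rw [hsf_const, add_zero]
      refine (cur_posSemidef hs i hx).add ((K.pos i x hx).posSemidef.smul ?_)
      have h1 : (0 : ℝ) ≤ 1 / ((m : ℝ) + 1) := by positivity
      have h2 : (1 / ((m : ℂ) + 1)) = ((1 / ((m : ℝ) + 1) : ℝ) : ℂ) := by push_cast; rfl
      rw [h2]
      exact Complex.zero_le_real.2 h1
    refine ⟨fun _ => 0, sm_const 0, fun _ => le_rfl, hpsd, ?_, fun t _ => ?_⟩
    · simpa using hε.le
    · rw [hB t, mul_zero]
      exact B_nonneg h t hpsd

/-- **T-LEMMA** -/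
theorem tl [T2Space M] [CompactSpace M] [ConnectedSpace M] [Finite A.ι]
    [MeasurableSpace M] [BorelSpace M] (hY : YauStmt) (hG : GoodA A) (P : Part A)
    {H : HM L'} (hH : H.Pos) {h : HM (KB A)⁻¹} (hs : h.Semipos) (D : TD A) {ν : ℕ}
    (hrk : ∀ i, ∀ x ∈ (A.e i).source, (cur h i x).rank ≤ ν)
    (hex : ∃ i, ∃ x ∈ (A.e i).source, ν ≤ (cur h i x).rank) (hF : FIc h D ν) :
    TLStmt h D (kah H hH) := by
  have := Fintype.ofFinite A.ι
  rcases Nat.eq_zero_or_pos ν with rfl | hν
  · exact tl_zero hs D _ hrk hF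
  · exact tl_of hY hG P hH hs (Mass_5.mass_holds P h D) hν
      (TVolB_332.volStmt P h hs D hν hrk hF _) (TVolB_332.volLow h hs hex _)
      (exp_holds h (mul h H))

end

end Crest.Agent.R273.TLtop_201
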