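import Crest.Agent.R273.AppB_834
import Crest.Agent.R273.AppC_834
import Crest.Agent.R273.AsmA_73
import Crest.Agent.R273.TLtop_201

/-!
# R273 (S0416), leaf A-APP, part D (helper834): the T-lemma for the partial families of `YD`

* `wrC_yd`  : the sections `t, s l` of `YD` satisfy the first integral condition on `M`
* `tdY Y p r : TD A` : the data of the sections `t ^ D * p_j(y)`, `j ≤ r`
  `tdY_fic`, `tdY_U`, `tdY_be` (`be = ∂∂̄ P_r` on `S.U`, `P_r = Pf (evp Y.y p) r`)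
* `app` : one `u` for all partial families of `p` and `p'`
-/

set_option autoImplicit false
set_option linter.unusedSectionVars false

open Set Filter Topology Complex MeasureTheory
open scoped ContDiff Matrix ComplexConjugate ComplexOrder ENNReal

namespace Crest.Agent.R273.AppD_834

open Crest.Agent.R275 Crest.Agent.R275.Geo Crest.Agent.R275.Core144 Crest.Agent.R275.EDR890
open Crest.Agent.R275.GC293
open Crest.Agent.R273.Defs_333 Crest.Agent.R273.HM_333 Crest.Agent.R273.Kah_333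
open Crest.Agent.R273.Hess_333 Crest.Agent.R273.HessB_333
open Crest.Agent.R273.AppA_834 Crest.Agent.R273.AppB_834 Crest.Agent.R273.AppC_834
open Crest.Agent.R273.SteinA_794 Crest.Agent.R273.SteinC_794
open Crest.Agent.R273.SteinD_794 (df_mul df_congr dense_nz)
open Crest.Agent.R273.TLd_201 Crest.Agent.R273.AsmA_73
open Crest.Agent.R273.Vm_333 (vm)
open Crest.Agent.R273.YauDefs_635 (YauStmt)
open Crest.Agent.R273.Pen_93 (Bf Pf fam)
open Crest.Agent.R271.Ho51 (Hol)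

noncomputable section

variable {n : ℕ} {M : Type} [TopologicalSpace M] {A : Atl n M} {L : LB A}
  {h : HM (KB A)⁻¹} {hL : HM L}

/-- `t, s_0, s_1, ...` -/
def qf (Y : YD h L hL) : Fin (Y.N + 1) → A.ι → M → ℂ := Fin.cons Y.t Y.s

@[simp] theorem qf_zero (Y : YD h L hL) : qf Y 0 = Y.t := rfl
@[simp] theorem qf_succ (Y : YD h L hL) (l : Fin Y.N) : qf Y l.succ = Y.s l := rfl

theorem qf_hs (Y : YD h L hL) (o : Fin (Y.N + 1)) : IsHS Y.By univ (qf Y o) := by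
  refine Fin.cases ?_ (fun l => ?_) o
  · exact Y.ht
  · exact Y.hs l

/-- the sections are first integrals -/
theorem wrC_yd [ConnectedSpace M] (hs : h.Semipos) (Y : YD h L hL) : WrC h Y.ν (qf Y) := by
  have hd : Dense Y.S.U := by
    rw [Y.U_eq]
    exact dense_nz Y.hd Y.d0
  refine wrC_of_dense hs Y.rk_le (qf_hs Y) hd fun i x hx hxU hr v hv o o' => ?_
  have hv' : cur h i x *ᵥ (star v) = 0 := (ker_iff hx v).1 hv
  set a : ℂ := dv A v i x (Y.t i) with ha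
  -- `D_v s_l = y_l D_v t`
  have key : ∀ o : Fin (Y.N + 1), ∃ c : ℂ, qf Y o i x = c * Y.t i x ∧
      dv A v i x (qf Y o i) = c * a := by
    intro o
    refine Fin.cases ⟨1, ?_, ?_⟩ (fun l => ⟨ext0 (Y.y l) x, ?_, ?_⟩) o
    · simp
    · simp [ha]
    · have h1 := Y.rel l i ⟨x, hxU⟩ hx
      have h2 := ext0_val (Y.y l) (⟨x, hxU⟩ : Mo Y.S)
      rw [qf_succ]
      change Y.s l i x = ext0 (Y.y l) x * Y.t i x
      rw [show ext0 (Y.y l) x = Y.y l ⟨x, hxU⟩ from h2]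
      exact h1
    · rw [qf_succ, dv_eq]
      have hf : HolAt A i Y.S.U (ext0 (Y.y l)) := holAt_ext0 (Y.hy l) i
      have hg : HolAt A i Y.S.U (Y.t i) := (Y.ht.hol i).mono (subset_univ _)
      have hev : Y.s l i =ᶠ[𝓝 x] fun y => ext0 (Y.y l) y * Y.t i y := by
        filter_upwards [Y.S.isOpen.mem_nhds hxU, (A.e i).open_source.mem_nhds hx] with y hyU hyi
        have h1 := Y.rel l i ⟨y, hyU⟩ hyi
        have h2 := ext0_val (Y.y l) (⟨y, hyU⟩ : Mo Y.S)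
        rw [show ext0 (Y.y l) y = Y.y l ⟨y, hyU⟩ from h2]
        exact h1
      rw [df_congr hx hev, df_mul Y.S.isOpen hf hg hx hxU, add_apply, smul_apply, smul_apply,
        ha, dv_eq]
      have h3 : df A i (ext0 (Y.y l)) x (WithLp.toLp 2 v) = 0 :=
        Y.fi l i ⟨x, hxU⟩ hx hr v hv'
      rw [h3, smul_zero, add_zero]
      rfl
  obtain ⟨c, h1, h2⟩ := key o
  obtain ⟨c', h3, h4⟩ := key o'
  rw [h1, h2, h3, h4]
  ring

/-- powers of semipositive metrics -/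
theorem semipos_pow {B : LB A} {hB : HM B} (hs : hB.Semipos) (D : ℕ) : (pow hB D).Semipos := by
  refine semipos_of_cur fun i x hx => ?_
  rw [cur_pow hB D i hx]
  exact (cur_posSemidef hs i hx).smul (by exact_mod_cast Nat.zero_le D)

/-- the degree of the partial family -/
def dgr' {N : ℕ} (p : ℕ → MvPolynomial (Fin N) ℂ) (r : ℕ) : ℕ :=
  1 + ∑ j ∈ Finset.range (r + 1), (p j).totalDegree

theorem le_dgr' {N : ℕ} (p : ℕ → MvPolynomial (Fin N) ℂ) (r : ℕ) (j : Fin (r + 1)) :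
    (p j.val).totalDegree ≤ dgr' p r := by
  unfold dgr'
  have h1 := Finset.single_le_sum (f := fun j => (p j).totalDegree) (fun _ _ => Nat.zero_le _)
    (Finset.mem_range.2 j.isLt)
  omega

theorem dgr'_pos {N : ℕ} (p : ℕ → MvPolynomial (Fin N) ℂ) (r : ℕ) : 0 < dgr' p r := by
  unfold dgr'; omega

/-- the sections of the partial family -/
def CY (Y : YD h L hL) (p : ℕ → MvPolynomial (Fin Y.N) ℂ) (r : ℕ) (j : Fin (r + 1)) :
    A.ι → M → ℂ := homS (qf Y) (dgr' p r) (p j.val)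

theorem CY_hs (Y : YD h L hL) (p : ℕ → MvPolynomial (Fin Y.N) ℂ) (r : ℕ) (j : Fin (r + 1)) :
    IsHS (Y.By ^ dgr' p r) univ (CY Y p r j) :=
  homS_hs (qf_hs Y) (dgr'_pos p r) (le_dgr' p r j)

/-- the data of the partial family -/
def tdY (Y : YD h L hL) (p : ℕ → MvPolynomial (Fin Y.N) ℂ) (r : ℕ) : TD A :=
  td (pow Y.hBy (dgr' p r)) (semipos_pow Y.semi _) (CY Y p r) (CY_hs Y p r)

theorem tdY_fic [ConnectedSpace M] (hs : h.Semipos) (Y : YD h L hL)
    (p : ℕ → MvPolynomial (Fin Y.N) ℂ) (r : ℕ) : FIc h (tdY Y p r) Y.ν :=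
  fic_of_ev (ev_hom (qf_hs Y) (wrC_yd hs Y) (dgr'_pos p r) (le_dgr' p r))

theorem CY_eq (Y : YD h L hL) (p : ℕ → MvPolynomial (Fin Y.N) ℂ) (r : ℕ) (j : Fin (r + 1))
    (x : Mo Y.S) {i : A.ι} (hx : x.val ∈ (A.e i).source) :
    CY Y p r j i x.val = Y.t i x.val ^ dgr' p r * evp Y.y p j.val x :=
  homS_eq (le_dgr' p r j) fun l => by
    rw [qf_succ, qf_zero]
    exact Y.rel l i x hx

theorem tdY_U (Y : YD h L hL) (p : ℕ → MvPolynomial (Fin Y.N) ℂ) (r : ℕ) {x : Mo Y.S}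
    (h0 : evp Y.y p 0 x ≠ 0) : x.val ∈ (tdY Y p r).U := by
  obtain ⟨i, hi⟩ := A.cover x.val
  refine (mem_U hi).2 ⟨0, ?_⟩
  rw [CY_eq Y p r 0 x hi]
  exact mul_ne_zero (pow_ne_zero _ (Y.t0 i _ hi x.prop)) h0

theorem Pf_eq (Y : YD h L hL) (p : ℕ → MvPolynomial (Fin Y.N) ℂ) (r : ℕ) (x : Mo Y.S) :
    Pf (evp Y.y p) r x = Real.log (∑ j : Fin (r + 1), ‖ext0 (evp Y.y p j.val) x.val‖ ^ 2) := by
  simp only [ext0_val]
  rfl

theorem hol_evp (Y : YD h L hL) (p : ℕ → MvPolynomial (Fin Y.N) ℂ) (j : ℕ) :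
    Hol (evp Y.y p j) := by
  intro e he
  have h1 : ∀ q : MvPolynomial (Fin Y.N) ℂ, DifferentiableOn ℂ
      ((fun x => MvPolynomial.eval (fun l => Y.y l x) q) ∘ e.symm) e.target := by
    intro q
    induction q using MvPolynomial.induction_on with
    | C a =>
      refine (differentiableOn_const a).congr fun z _ => ?_
      simp
    | add p q hp hq =>
      refine (hp.add hq).congr fun z _ => ?_
      simp
    | mul_X p l hp =>
      refine (hp.mul (Y.hy l e he)).congr fun z _ => ?_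
      simp
  exact h1 (p j)

/-- **`be = ∂∂̄ P_r`** on the domain -/
theorem tdY_be (Y : YD h L hL) (p : ℕ → MvPolynomial (Fin Y.N) ℂ) (r : ℕ) {f : M → ℝ}
    (hf : ∀ x : Mo Y.S, f x.val = Pf (evp Y.y p) r x) {x : Mo Y.S}
    (h0 : evp Y.y p 0 x ≠ 0) {i : A.ι} (hx : x.val ∈ (A.e i).source) :
    (tdY Y p r).be i x.val = hsf A f i x.val := by
  have hU := tdY_U Y p r h0
  have hσ : HolAt A i Y.S.U (fun y => Y.t i y ^ dgr' p r) :=
    ((Y.ht.hol i).mono (subset_univ _)).pow _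
  have h1 := be_frame (hp := semipos_pow Y.semi (dgr' p r)) (hC := CY_hs Y p r) hx hU
    Y.S.isOpen x.prop hσ (pow_ne_zero _ (Y.t0 i _ hx x.prop))
    (f := fun j => ext0 (evp Y.y p j.val)) fun y hyU hyi j => by
      have h2 := CY_eq Y p r j (⟨y, hyU⟩ : Mo Y.S) hyi
      have h3 := ext0_val (evp Y.y p j.val) (⟨y, hyU⟩ : Mo Y.S)
      rw [show ext0 (evp Y.y p j.val) y = evp Y.y p j.val ⟨y, hyU⟩ from h3]
      exact h2
  have h2 : (tdY Y p r).be i x.val =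
      hsf A (fun y => Real.log (∑ j : Fin (r + 1), ‖ext0 (evp Y.y p j.val) y‖ ^ 2)) i x.val := h1
  rw [h2]
  unfold hsf
  refine hess_congr ?_
  filter_upwards [(Y.S.isOpen_dom i).mem_nhds (Y.S.mem_dom hx x.prop)] with z hz
  have hzU : (A.e i).symm z ∈ Y.S.U := hz.2
  set x' : Mo Y.S := ⟨(A.e i).symm z, hzU⟩ with hx'
  have h3 : f ((A.e i).symm z) =
      Real.log (∑ j : Fin (r + 1), ‖ext0 (evp Y.y p j.val) ((A.e i).symm z)‖ ^ 2) :=
    (hf x').trans (Pf_eq Y p r x')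
  exact h3.symm

section

variable [T2Space M] [CompactSpace M] [ConnectedSpace M] [Finite A.ι]
  [MeasurableSpace M] [BorelSpace M]

/-- **A-APP**: one `u` for all partial families of `p` and `p'` -/
theorem app (hY : YauStmt) (hG : GoodA A) (P : Part A) {L' : LB A} {H : HM L'} (hH : H.Pos)
    (hs : h.Semipos) (Y : YD h L hL) :
    ∃ (δ η : ℝ) (u : M → ℝ), 0 < δ ∧ 0 < η ∧ η ≤ 1 ∧ Measurable u ∧ (∀ x, u x ≤ 0) ∧
      MemLp u 2 (vm h) ∧ Integrable (fun x => Real.exp (-(η * u x))) (vm h) ∧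
      TL0 h (kah H hH) η u ∧
      (∀ r ≤ Y.m, TLu h (tdY Y Y.p r) (kah H hH) δ η u ∧ Y.S.U ⊆ (tdY Y Y.p r).U ∧
        ∀ f : M → ℝ, (∀ x : Mo Y.S, f x.val = Pf (evp Y.y Y.p) r x) →
          ∀ (x : Mo Y.S) (i : A.ι), x.val ∈ (A.e i).source →
            (tdY Y Y.p r).be i x.val = hsf A f i x.val) ∧
      (∀ r ≤ Y.m', TLu h (tdY Y Y.p' r) (kah H hH) δ η u ∧ Y.S.U ⊆ (tdY Y Y.p' r).U ∧
        ∀ f : M → ℝ, (∀ x : Mo Y.S, f x.val = Pf (evp Y.y Y.p') r x) →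
          ∀ (x : Mo Y.S) (i : A.ι), x.val ∈ (A.e i).source →
            (tdY Y Y.p' r).be i x.val = hsf A f i x.val) := by
  have := Fintype.ofFinite A.ι
  have hTL : ∀ D : TD A, FIc h D Y.ν → TLStmt h D (kah H hH) := fun D hF =>
    TLtop_201.tl hY hG P hH hs D Y.rk_le Y.rk_eq hF
  obtain ⟨δ, η, u, hδ, h0, hr⟩ := tlu_fam hs
    (Sum.elim (fun r : Fin (Y.m + 1) => tdY Y Y.p r) (fun r : Fin (Y.m' + 1) => tdY Y Y.p' r))
    (K := kah H hH) (by
      rintro (r | r)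
      · exact hTL _ (tdY_fic hs Y Y.p r)
      · exact hTL _ (tdY_fic hs Y Y.p' r))
  have hη : 0 < min η 1 := lt_min h0.1 one_pos
  have h0' := h0.mono hη (min_le_left η 1)
  obtain ⟨a1, a2, a3, a4, a5, -⟩ := h0'
  refine ⟨δ, min η 1, u, hδ, hη, min_le_right _ _, a2, a3, a4, a5,
    h0.mono hη (min_le_left η 1), fun r hr' => ⟨?_, ?_, ?_⟩, fun r hr' => ⟨?_, ?_, ?_⟩⟩
  · exact (hr (Sum.inl ⟨r, Nat.lt_succ_of_le hr'⟩)).mono hδ le_rfl hη (min_le_left _ _)
  · intro x hx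
    exact tdY_U Y Y.p r (x := ⟨x, hx⟩) (Y.c0 _)
  · intro f hf x i hx
    exact tdY_be Y Y.p r hf (Y.c0 x) hx
  · exact (hr (Sum.inr ⟨r, Nat.lt_succ_of_le hr'⟩)).mono hδ le_rfl hη (min_le_left _ _)
  · intro x hx
    exact tdY_U Y Y.p' r (x := ⟨x, hx⟩) (Y.c0' _)
  · intro f hf x i hx
    exact tdY_be Y Y.p' r hf (Y.c0' x) hx

end

end

end Crest.Agent.R273.AppD_834
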