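import Crest.Agent.R273.AppD_834
import Crest.Agent.R273.AsmD_73
import Crest.Agent.R273.YauFin_635

/-!
# R273 (S0416), leaf A-APP, part E (helper834): `App Y` and Half 1 of Part A, unconditional

* `app_yd`  : `App Y` for every `Y : YD h L hL`
* `half1`   : `HasSecOfYD A h`
* `partA_of_yd` : Part A from `ExistsYD`
-/

set_option autoImplicit false
set_option linter.unusedSectionVars false

open Set Filter Topology Complex MeasureTheory
open scoped ContDiff Matrix ENNReal

namespace Crest.Agent.R273.AppE_834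

open Crest.Agent.R275.Geo Crest.Agent.R275.Core144 Crest.Agent.R275.GC293
open Crest.Agent.R273.Defs_333 Crest.Agent.R273.Kah_333
open Crest.Agent.R273.AppB_834 Crest.Agent.R273.AppD_834
open Crest.Agent.R273.AsmA_73 Crest.Agent.R273.T4C_223
open Crest.Agent.R273.Vm_333 (vm)

noncomputable section

variable {n : ℕ} {M : Type} [TopologicalSpace M] [T2Space M] [CompactSpace M] [ConnectedSpace M]
  {A : Atl n M} [Finite A.ι] {L : LB A} {h : HM (KB A)⁻¹} {hL : HM L}

/-- **the T-lemma for all partial families, with one `u`** -/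
theorem app_yd [MeasurableSpace M] [BorelSpace M] (hG : GoodA A) (P : Part A) (Pr : ProjD A)
    (hs : h.Semipos) (Y : YD h L hL) : App Y := by
  obtain ⟨δ, η, u, h1, h2, -, h3, h4, h5, h6, -, h7, h8⟩ :=
    app YauFin_635.yau hG P (FS_333.fs_pos Pr) hs Y
  refine ⟨kah (FS_333.fs Pr) (FS_333.fs_pos Pr), δ, η, u, h1, h2, h3, h4, h5, h6,
    fun r hr => ?_, fun r hr => ?_⟩
  · obtain ⟨a, b, c⟩ := h7 (r + 1) hr
    obtain ⟨-, -, -, -, -, -, a'⟩ := a
    exact ⟨_, a', b, fun i x hx => c _ (fun x => xr_val _ x) x i hx⟩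
  · obtain ⟨a, b, c⟩ := h8 (r + 1) hr
    obtain ⟨-, -, -, -, -, -, a'⟩ := a
    exact ⟨_, a', b, fun i x hx => c _ (fun x => xr_val _ x) x i hx⟩

/-- **Half 1 of Part A** -/
theorem half1 (hG : GoodA A) (P : Nonempty (Part A)) (Pr : ProjD A) (hs : h.Semipos) :
    HasSecOfYD A h := by
  obtain ⟨P⟩ := P
  borelize M
  exact half1_of hG P Pr hs fun L hL _ Y => app_yd hG P Pr hs Y

end

/-- **Part A** from Half 2 -/
theorem partA_of_yd
    (H2 : ∀ (n : ℕ) (M : Type) [TopologicalSpace M] [T2Space M] [CompactSpace M]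
      [ConnectedSpace M] (A : Atl n M) [Finite A.ι], GoodA A → Nonempty (Part A) → ProjD A →
      ∀ h : HM (KB A)⁻¹, h.Semipos → ExistsYD A h) :
    Crest.Agent.R273.PartA_61.PartA :=
  partA_of (fun _ _ _ _ _ _ _ _ hG hP Pr _ hs => half1 hG hP Pr hs) H2

end Crest.Agent.R273.AppE_834
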