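import Crest.Agent.R273.AsmY_73
import Crest.Agent.R273.YDx6_945
import Crest.Agent.R273.AppE_834
import Crest.Agent.R273.TR0_769

/-!
# R273 (S0416), Part A: final assembly (helper73)

* `R4Stmt`    : (R4) for all choices `X : HD P L` (helper769)
* `existsYD`  : Half 2, from `F1Stmt` and `R4Stmt`
* `partA`     : Part A, from `F1Stmt` and `R4Stmt`
-/

set_option autoImplicit false
set_option linter.unusedSectionVars false

open Set Filter Topology Complex MeasureTheory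
open scoped ContDiff Matrix ENNReal NNReal

namespace Crest.Agent.R273.AsmZ_73

open Crest.Agent.R275.Geo Crest.Agent.R275.Core144 Crest.Agent.R275.GC293
open Crest.Agent.R273.SteinA_794 Crest.Agent.R273.SteinC_794 Crest.Agent.R273.SteinB_794
open Crest.Agent.R273.SteinE_794
open Crest.Agent.R273.Defs_333 (ProjD HM HM.wt HM.Semipos HM.Pos HasSec)
open Crest.Agent.R273.Kah_333 (cur Kah kah)
open Crest.Agent.R273.FS_333 (lb fs fs_pos)
open Crest.Agent.R273.FF769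
open Crest.Agent.R273.Cram_747 (TS)
open Crest.Agent.R273.Fock_243 (FI)
open Crest.Agent.R273.TD3_733 (D2)
open Crest.Agent.R273.Chow_313
open Crest.Agent.R273.YDx5_945 Crest.Agent.R273.YDx6_945 Crest.Agent.R273.AsmY_73
open Crest.Agent.R273.AsmA_73 (YD ExistsYD)

noncomputable section

section

variable {n : ℕ} {M : Type} [TopologicalSpace M] {A : Atl n M} {P : ProjD A} {L : LB A}
  [T2Space M] [CompactSpace M] [Finite A.ι] [ConnectedSpace M]

/-- (R4), squared form of #2227 -/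
def R4sq (X : HD P L) (hL : HM L) : Prop :=
  ∃ g1 : Reg (lb P ^ X.D.m) X.D.t X.D.ht, g1 ≠ 0 ∧ ∀ x : nz X.D.t, g1.1 x ≠ 0 →
    ∃ b : ℝ, ∀ x' : nz X.D.t, (∀ l, X.y l x'.1 = X.y l x.1) → g1.1 x' ≠ 0 →
      ‖X.lam x'.1‖ ^ 2 * Real.exp (-(X.j0 * wtS hL X.σ x'.1)) ≤ b

theorem Lam_sq (X : HD P L) (hL : HM L) (x : M) :
    Lam X hL x ^ 2 = ‖X.lam x‖ ^ 2 * Real.exp (-(X.j0 * wtS hL X.σ x)) := by
  unfold Lam
  rw [mul_pow, ← Real.exp_nat_mul]
  congr 2
  push_cast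
  ring

theorem Lam_nonneg (X : HD P L) (hL : HM L) (x : M) : 0 ≤ Lam X hL x :=
  mul_nonneg (norm_nonneg _) (Real.exp_pos _).le

theorem r4_iff {X : HD P L} {hL : HM L} : R4 X hL ↔ R4sq X hL := by
  constructor
  · rintro ⟨g, hg, h⟩
    refine ⟨g, hg, fun x hx => ?_⟩
    obtain ⟨b, hb⟩ := h x hx
    refine ⟨b ^ 2, fun x' hy hx' => ?_⟩
    rw [← Lam_sq]
    exact pow_le_pow_left₀ (Lam_nonneg X hL _) (hb x' hx' hy) 2
  · rintro ⟨g, hg, h⟩
    refine ⟨g, hg, fun x hx => ?_⟩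
    obtain ⟨b, hb⟩ := h x hx
    refine ⟨Real.sqrt b, fun x' hx' hy => ?_⟩
    refine Real.le_sqrt_of_sq_le ?_
    rw [Lam_sq]
    exact hb x' hy hx'

end

/-- (R4) for all choices -/
def R4Stmt : Prop :=
  ∀ (n : ℕ) (M : Type) [TopologicalSpace M] [T2Space M] [CompactSpace M] [ConnectedSpace M]
    (A : Atl n M) [Finite A.ι], GoodA A → Part A → D2 A → ∀ (P : ProjD A) (L : LB A) (hL : HM L)
    (X : HD P L), R4sq X hL

section

variable {n : ℕ} {M : Type} [TopologicalSpace M] [T2Space M] [CompactSpace M] [ConnectedSpace M]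
  {A : Atl n M} [Finite A.ι]

/-- **Half 2** -/
theorem existsYD (hF1 : F1Stmt) (hR4 : R4Stmt) (hG : GoodA A) (hP : Nonempty (Part A))
    (P : ProjD A) {h : HM (KB A)⁻¹} (hs : h.Semipos) : ExistsYD A h := by
  obtain ⟨PA⟩ := hP
  have hD : D2 A := Crest.Agent.R273.D13_505.d2 PA (kah (fs P) (fs_pos P))
  intro T t ht q hinf
  set L : LB A := (KB A)⁻¹ * T with hL
  have hc : ∀ i, ∀ x ∈ (A.e i).source, cur (Crest.Agent.R273.HM_333.mul h t) i x = cur h i x :=
    fun i x hx => by rw [Crest.Agent.R273.Kah_333.cur_mul h t i hx, ht i x hx, add_zero]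
  obtain ⟨r, hr, K, hK, w, hw, hp⟩ := Crest.Agent.R273.Cram_747.exists_family (L := L) (q := q)
    (fun k => Crest.Agent.R273.NV_578.NV (L ^ k) h q) (fun k => inf_le_left) hinf
  have ts : ∀ k ∈ K, TS (Fin r) (L ^ k) (w k) := fun k hk => (hw k hk).1
  have ne : ∀ k ∈ K, w k ≠ 0 := fun k hk => (hw k hk).2.1
  obtain ⟨a, ha⟩ := hK.nonempty
  by_cases hFF : FF (ts a ha) (ne a ha) = ⊥
  · exact Or.inl (hasSec_of_bot (preconn_target hG) hK ts ne hp ha hFF)
  · obtain ⟨X⟩ := exists_HD hF1 PA hD P hK ts ne hp ha hFF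
    exact Or.inr (yd_of Crest.Agent.R273.YauFin_635.yau hG PA hD (fs_pos P) hs hc X
      (r4_iff.2 (hR4 n M A hG PA hD P L _ X)))

end

/-- **Part A** -/
theorem partA (hF1 : F1Stmt) (hR4 : R4Stmt) : Crest.Agent.R273.PartA_61.PartA :=
  Crest.Agent.R273.AppE_834.partA_of_yd fun _ _ _ _ _ _ _ _ hG hP P _ hs =>
    existsYD hF1 hR4 hG hP P hs

end

end Crest.Agent.R273.AsmZ_73
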