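import Crest.Agent.R182.GromovMain

/-!
# Row 273, leaf VPC (helper501)

An infinite finitely generated group of polynomial growth has a finite index subgroup with a
surjection onto `ℤ`.  This is a wrapper around `Crest.Agent.R182.GromovFinal.onto_int`, in the
shapes used by the growth argument of row 273:

* `onto_int_of_len`     : any length function `l` with `PolyLen l C d`;
* `onto_int_of_word`    : word balls of a finite generating set;
* `onto_int_of_ball`    : products of at most `k` elements of a finite symmetric generating set;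
* `onto_int_of_growth`  : `Nat`-valued length function with a REAL polynomial bound on balls.
-/

set_option autoImplicit false

namespace Crest.Agent.R273.VPC_501

open Crest.GroupTheory Crest.Agent.R182.Gromov Crest.Agent.R182.GromovFinal
  Crest.Agent.R182.GromovMain

universe u

theorem onto_int_of_len {G : Type u} [Group G] [Infinite G] (hfg : Group.FG G) {l : G → ℕ}
    {C d : ℕ} (hl : PolyLen l C d) :
    ∃ H : Subgroup G, H.FiniteIndex ∧ ∃ φ : H →* Multiplicative ℤ, Function.Surjective φ :=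
  onto_int harmonicRep compactPart G hfg l C d hl

theorem onto_int_of_word {G : Type u} [Group G] [Infinite G] (S : Finset G)
    (hS : Subgroup.closure (S : Set G) = ⊤) (C d : ℕ)
    (h : ∀ n : ℕ, 1 ≤ n → {g : G | wordLength (S : Set G) g ≤ n}.ncard ≤ C * n ^ d) :
    ∃ H : Subgroup G, H.FiniteIndex ∧ ∃ φ : H →* Multiplicative ℤ, Function.Surjective φ :=
  onto_int_of_len ⟨⟨S, hS⟩⟩ (polyLen_wordLength hS S.finite_toSet h)

/-- a length function with polynomially growing balls, real exponent and constant. -/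
theorem onto_int_of_growth {G : Type u} [Group G] [Infinite G] (hfg : Group.FG G) (l : G → ℕ)
    (one : l 1 = 0) (mul : ∀ g h : G, l (g * h) ≤ l g + l h) (inv : ∀ g : G, l g⁻¹ = l g)
    (fin : ∀ n : ℕ, {g : G | l g ≤ n}.Finite) (C d : ℝ)
    (card : ∀ n : ℕ, 1 ≤ n → ({g : G | l g ≤ n}.ncard : ℝ) ≤ C * (n : ℝ) ^ d) :
    ∃ H : Subgroup G, H.FiniteIndex ∧ ∃ φ : H →* Multiplicative ℤ, Function.Surjective φ := by
  obtain ⟨C', hC'⟩ := exists_nat_ge |C|
  obtain ⟨d', hd'⟩ := exists_nat_ge |d|
  refine onto_int_of_len hfg (l := l) (C := C') (d := d') ⟨one, mul, inv, fin, fun n => ?_⟩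
  have h1 : ({g : G | l g ≤ n}.ncard : ℝ) ≤ C * ((n + 1 : ℕ) : ℝ) ^ d := by
    refine le_trans ?_ (card (n + 1) (by omega))
    exact_mod_cast Set.ncard_le_ncard (fun g (hg : l g ≤ n) => (show l g ≤ n + 1 by omega))
      (fin (n + 1))
  have h0 : (1 : ℝ) ≤ ((n + 1 : ℕ) : ℝ) := by exact_mod_cast Nat.le_add_left 1 n
  have h2 : ((n + 1 : ℕ) : ℝ) ^ d ≤ ((n + 1 : ℕ) : ℝ) ^ (d' : ℝ) :=
    Real.rpow_le_rpow_of_exponent_le h0 ((le_abs_self d).trans hd')
  have h3 : C * ((n + 1 : ℕ) : ℝ) ^ d ≤ (C' : ℝ) * ((n + 1 : ℕ) : ℝ) ^ (d' : ℝ) :=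
    mul_le_mul ((le_abs_self C).trans hC') h2 (Real.rpow_nonneg (by positivity) _)
      (Nat.cast_nonneg _)
  rw [Real.rpow_natCast] at h3
  have h4 := h1.trans h3
  exact_mod_cast h4

open Pointwise in
/-- growth of the powers of a finite symmetric generating set containing `1`. -/
theorem onto_int_of_ball {G : Type u} [Group G] [Infinite G] [DecidableEq G] (S : Finset G)
    (h1S : (1 : G) ∈ S) (hinv : S⁻¹ = S) (hS : Subgroup.closure (S : Set G) = ⊤) (C d : ℕ)
    (h : ∀ n : ℕ, (S ^ n).card ≤ C * (n + 1) ^ d) :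
    ∃ H : Subgroup G, H.FiniteIndex ∧ ∃ φ : H →* Multiplicative ℤ, Function.Surjective φ := by
  refine onto_int_of_word S hS (C * 2 ^ d) d fun n hn => ?_
  have hsub : {g : G | wordLength (S : Set G) g ≤ n} ⊆ ((S ^ n : Finset G) : Set G) := by
    intro g hg
    obtain ⟨L, hL1, hL2, hL3⟩ := wordLength_spec hS g
    have hL4 : ∀ x ∈ L, x ∈ S := by
      intro x hx
      rcases hL2 x hx with h | h
      · exact_mod_cast h
      · have : x⁻¹ ∈ S := by exact_mod_cast h
        rw [← hinv]
        exact Finset.mem_inv.2 ⟨x⁻¹, this, inv_inv x⟩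
    have hL5 : L.prod ∈ S ^ L.length := by
      clear hL1 hL2 hL3
      induction L with
      | nil => simp
      | cons a L ih =>
        rw [List.prod_cons, List.length_cons, pow_succ']
        exact Finset.mul_mem_mul (hL4 a (by simp)) (ih fun x hx => hL4 x (by simp [hx]))
    have hle : L.length ≤ n := by rw [hL1]; exact hg
    rw [← hL3]
    exact_mod_cast Finset.pow_subset_pow_right h1S hle hL5
  calc {g : G | wordLength (S : Set G) g ≤ n}.ncard
      ≤ ((S ^ n : Finset G) : Set G).ncard := Set.ncard_le_ncard hsub (Finset.finite_toSet _)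
    _ = (S ^ n).card := Set.ncard_coe_finset _
    _ ≤ C * (n + 1) ^ d := h n
    _ ≤ C * (2 * n) ^ d := Nat.mul_le_mul_left _ (Nat.pow_le_pow_left (by omega) _)
    _ = C * 2 ^ d * n ^ d := by rw [mul_pow, mul_assoc]

end Crest.Agent.R273.VPC_501
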