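import Crest.Agent.R273.Growth_289
import Crest.Agent.R273.VPC_501

/-!
# R273 (S0416), Part C (helper289): `Ric ≥ 0`, infinite group ⟹ finite index subgroup onto `ℤ`

Composition of Bishop–Gromov growth (`Growth_289`) and Gromov's theorem (`VPC_501`).
-/

set_option autoImplicit false
noncomputable section
open Set Filter Topology MeasureTheory Metric
open scoped ContDiff Manifold
open Bundle Crest.GeometryTopology.CoordMetric Crest.GeometryTopology.ChartCurvature
  Crest.GeometryTopology.PointedLimit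

namespace Crest.Agent.R273.GrowthZ_289

universe u v

/-- **C-PI, group part.** An infinite finitely generated group acting isometrically, freely,
properly discontinuously and cocompactly on a connected Riemannian manifold with `Ric ≥ 0` has a
finite index subgroup which surjects onto `ℤ`. -/
theorem onto_int_of_ricci {m : ℕ} {N : Type u} [MetricSpace N] [ConnectedSpace N]
    [ChartedSpace (EuclideanSpace ℝ (Fin m)) N]
    [IsManifold 𝓘(ℝ, EuclideanSpace ℝ (Fin m)) ∞ N]
    [RiemannianBundle (fun x : N => TangentSpace 𝓘(ℝ, EuclideanSpace ℝ (Fin m)) x)]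
    [IsContMDiffRiemannianBundle 𝓘(ℝ, EuclideanSpace ℝ (Fin m)) ∞ (EuclideanSpace ℝ (Fin m))
      (fun x : N => TangentSpace 𝓘(ℝ, EuclideanSpace ℝ (Fin m)) x)]
    [IsRiemannianManifold 𝓘(ℝ, EuclideanSpace ℝ (Fin m)) N]
    {Γ : Type v} [Group Γ] [Infinite Γ] [MulAction Γ N]
    (hric : HasRicciLowerBound m N 0)
    (hiso : ∀ (g : Γ) (x y : N), dist (g • x) (g • y) = dist x y)
    {K : Set N} (hK : IsCompact K) (hcov : ∀ x : N, ∃ g : Γ, g • x ∈ K)
    (x0 : N) {U : Set N} (hU : U ∈ 𝓝 x0) (hdisc : ∀ g : Γ, g ≠ 1 → g • x0 ∉ U)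
    (S : Finset Γ) (hS : Subgroup.closure (S : Set Γ) = ⊤) :
    ∃ H : Subgroup Γ, H.FiniteIndex ∧ ∃ φ : H →* Multiplicative ℤ, Function.Surjective φ := by
  let _ : MeasurableSpace N := borel N
  have : BorelSpace N := ⟨rfl⟩
  obtain ⟨C, hC⟩ := Growth_289.growth_wordLength hric hiso hK hcov x0 hU hdisc S hS
  exact VPC_501.onto_int_of_word S hS C m fun n hn => (hC n hn).2

end Crest.Agent.R273.GrowthZ_289
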