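import Crest.Agent.R273.RMan4_798
import Crest.Agent.R273.GrowthZ_289
import Crest.Agent.R273.PiEndH_836

/-!
# R273 (S0416), C-PI (helper798): `Ric ≥ 0` and infinite fundamental group give a finite étale cover
with `H¹(𝓞) ≠ 0`

* `onto_int` : `K : Kah A` with semipositive Ricci form on a compact connected `M`, `D : MonD A G`
  with `D.cov G` connected, `G` infinite and finitely generated ⟹ a finite index subgroup of `G`
  surjects onto `ℤ`.
* `exists_cover` : the conclusion for the universal cover.
-/

set_option autoImplicit false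
set_option linter.unusedSectionVars false

open Set Filter Topology Complex
open scoped ContDiff Matrix ComplexConjugate Manifold ComplexOrder

namespace Crest.Agent.R273.CPI_798

open Crest.Agent.R275.Geo Crest.Agent.R275.Core144 Crest.Agent.R275.GC293
open Crest.Agent.R275.SerG398 Crest.Agent.R275.Dg199
open Crest.Agent.R273.Defs_333 Crest.Agent.R273.Kah_333 Crest.Agent.R273.Vol_333
open Crest.Agent.R273.RMan_798 Crest.Agent.R273.RMan4_798 Crest.Agent.R273.UCov_914
open Crest.Agent.R273.PiEnd_836 Crest.Agent.R273.PiEndG_836 Crest.Agent.R273.LamN127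

noncomputable section

variable {n : ℕ} {M : Type} [TopologicalSpace M] {A : Atl n M}

theorem dist_deck [T2Space M] {G : Type} [Group G] (D : MonD A G) [ConnectedSpace (D.cov G)]
    (K : Kah A) (g : G) (x y : (ofKah (pullKah D G K)).M) : dist (g • x) (g • y) = dist x y := by
  have hle : ∀ (g : G) (x y : (ofKah (pullKah D G K)).M), dist (g • x) (g • y) ≤ dist x y := by
    intro g x y
    have h1 := chIso_deck D K g
    have h2 : Continuous (fun e : (ofKah (pullKah D G K)).M => g • e) :=
      continuous_const_smul (T := D.cov G) g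
    exact h1.dist_le h2 x y
  refine le_antisymm (hle g x y) ?_
  have := hle g⁻¹ (g • x) (g • y)
  rwa [inv_smul_smul, inv_smul_smul] at this

/-- **onto `ℤ`** -/
theorem onto_int [T2Space M] [CompactSpace M] [Finite A.ι] {G : Type} [Group G] [Infinite G]
    (D : MonD A G) [ConnectedSpace (D.cov G)] (K : Kah A) (hK : (volK K).Semipos)
    (S : Finset G) (hS : Subgroup.closure (S : Set G) = ⊤) :
    ∃ H : Subgroup G, H.FiniteIndex ∧ ∃ φ : H →* Multiplicative ℤ, Function.Surjective φ := by
  obtain ⟨C, hC, hcov⟩ := D.exists_fund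
  obtain ⟨x0⟩ := (inferInstance : Nonempty (D.cov G))
  obtain ⟨i, hi⟩ := A.cover (D.pr x0)
  refine Crest.Agent.R273.GrowthZ_289.onto_int_of_ricci (m := 2 * n)
    (N := (ofKah (pullKah D G K)).M) (hasRicci _ (volK_pull_semipos D G hK))
    (dist_deck D K) (K := C) hC hcov x0 (U := D.sheet i (D.co i x0))
    ((D.isOpen_sheet i _).mem_nhds ⟨hi, rfl⟩) ?_ S hS
  intro g hg hmem
  have h1 : D.co i (g • x0) = D.co i x0 := hmem.2
  rw [D.co_deck] at h1
  exact hg (by simpa using h1)

/-- **C-PI.** -/
theorem exists_cover [T2Space M] [CompactSpace M] [ConnectedSpace M] [PathConnectedSpace M]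
    [Finite A.ι] (hA : GoodA A) (P : Part A) (K : Kah A) (hK : (volK K).Semipos) (x0 : M)
    [Infinite (FundamentalGroup M x0)] :
    ∃ H : Subgroup (FundamentalGroup M x0), H.FiniteIndex ∧
      hB (BN (1 : LB ((uD hA x0).atl (FundamentalGroup M x0 ⧸ H)))) 1 ≠ 0 := by
  have hcon : PathConnectedSpace ((uD hA x0).cov (FundamentalGroup M x0)) := pathConnected hA x0
  obtain ⟨S, hS⟩ := fg hA x0
  obtain ⟨H, hH, φ, hφ⟩ := onto_int (uD hA x0) K hK S hS
  refine ⟨H, hH, ?_⟩
  have hτ : φ ≠ 1 := by
    rintro rfl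
    obtain ⟨h, hh⟩ := hφ (Multiplicative.ofAdd 1)
    exact one_ne_zero (α := ℤ) (Multiplicative.ofAdd.injective hh).symm
  have hfin : Finite (FundamentalGroup M x0 ⧸ H) := Subgroup.finite_quotient_of_finiteIndex
  have hcon2 : PathConnectedSpace ((uD hA x0).cov (FundamentalGroup M x0 ⧸ H)) :=
    pathConnected hA x0
  exact Crest.Agent.R273.PiEndH_836.hB_ne_zero (hcoc (uD hA x0) H φ)
    ((uD hA x0).pullPart (F := FundamentalGroup M x0 ⧸ H) P) (not_cob (uD hA x0) H φ hτ)

end

end Crest.Agent.R273.CPI_798
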