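import Crest.Agent.R273.NF_127
import Crest.Agent.R273.AlbK_645

/-!
# R273 (S0416), Part B (helper127): the normal form, SUSOF discharged

`susOfStmt` (645's `susOf`) and `nf_of'` : `DualStmt → NFStmt`.
-/

set_option autoImplicit false
set_option linter.unusedSectionVars false

open Set Filter Topology Multiplicative Function

namespace Crest.Agent.R273.Max127

open Crest.Agent.R273.Alb645

theorem susOfStmt : SusOfStmt := by
  intro g d M _ _ _ A _ G _ D _ S hA e0 K bs hbs hp B hv hr
  exact ⟨susOf D S hA e0 B hv hr K hp bs hbs, fun _ _ => rfl⟩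

/-- **NF** from DUALK -/
theorem nf_of' (hDS : DualStmt) : AsmB_534.NFStmt := nf_of hDS susOfStmt

end Crest.Agent.R273.Max127
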