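import Crest.Agent.R273.DegOne_376
import Crest.Agent.R273.HodZ_376
import Crest.Agent.R273.HFlow9_376
import Crest.Agent.R273.HolF_578
import Crest.Agent.R273.AlbH_645
import Crest.Agent.R273.NFb_127

/-!
# R273 (S0416), Part B (helper127): DUALK

On a compact connected `(M, K)` with `Ric ≥ 0` every closed holomorphic 1-form is `⟨·, V⟩` with `V`
parallel (376); hence `H1 A` is finite dimensional and has a dual basis of parallel fields.
-/

set_option autoImplicit false
set_option linter.unusedSectionVars false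

open Set Filter Topology Complex Metric Function
open scoped ComplexConjugate Matrix ComplexOrder

namespace Crest.Agent.R273.Max127

open Crest.Agent.R275.Geo Crest.Agent.R275.Core144 Crest.Agent.R275.GC293
open Crest.Agent.R273.Defs_333 Crest.Agent.R273.Kah_333 Crest.Agent.R273.Vol_333
open Crest.Agent.R273.HFlow3_376 Crest.Agent.R273.HFlow5_376 Crest.Agent.R273.HFlow7_376
open Crest.Agent.R273.NoHVF_376 Crest.Agent.R273.Alb645 Crest.Agent.R273.HolF_578

noncomputable section

variable {n : ℕ} {M : Type} [TopologicalSpace M] {A : Atl n M}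

/-- a closed holomorphic form takes a constant value on a holomorphic field -/
theorem pair_const [CompactSpace M] [ConnectedSpace M] {b : A.ι → M → (Cn n →L[ℂ] ℂ)}
    (hb : b ∈ H1 A) (V : HVF A) :
    ∃ c : ℂ, ∀ i, ∀ x ∈ (A.e i).source, b i x (V.X i x) = c := by
  classical
  let ch : M → A.ι := fun x => (A.cover x).choose
  have hch : ∀ x, x ∈ (A.e (ch x)).source := fun x => (A.cover x).choose_spec
  let f : M → ℂ := fun x => b (ch x) x (V.X (ch x) x)
  have hfs : ∀ i, ∀ x ∈ (A.e i).source, f x = b i x (V.X i x) := by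
    intro i x hx
    change b (ch x) x (V.X (ch x) x) = _
    rw [hb.2.2.1 i (ch x) x ⟨hx, hch x⟩, V.tr i (ch x) x ⟨hx, hch x⟩]
    rfl
  have hf : ∀ i, HolAt A i univ f := by
    intro i
    have h1 : DifferentiableOn ℂ (fun z => b i ((A.e i).symm z) (V.X i ((A.e i).symm z)))
        (A.e i).target := (hb.1 i).clm_apply (V.hol i)
    refine (h1.mono inter_subset_left).congr fun z hz => ?_
    exact hfs i _ ((A.e i).map_target hz.1)
  obtain ⟨x0⟩ := (inferInstance : Nonempty M)
  exact ⟨f x0, fun i x hx => by rw [← hfs i x hx]; exact hol_const hf x x0⟩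

/-- the constant value -/
def pv [CompactSpace M] [ConnectedSpace M] (b : H1 A) (V : HVF A) : ℂ :=
  (pair_const b.2 V).choose

theorem pv_eq [CompactSpace M] [ConnectedSpace M] (b : H1 A) (V : HVF A) {i : A.ι} {x : M}
    (hx : x ∈ (A.e i).source) : (b : A.ι → M → (Cn n →L[ℂ] ℂ)) i x (V.X i x) = pv b V :=
  (pair_const b.2 V).choose_spec i x hx

theorem pv_sum [CompactSpace M] [ConnectedSpace M] {κ : Type*} (s : Finset κ) (c : κ → ℂ)
    (b : κ → H1 A) (V : HVF A) : pv (∑ k ∈ s, c k • b k) V = ∑ k ∈ s, c k * pv (b k) V := by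
  obtain ⟨x⟩ := (inferInstance : Nonempty M)
  obtain ⟨i, hx⟩ := A.cover x
  rw [← pv_eq _ V hx, Submodule.coe_sum]
  simp only [Finset.sum_apply, Submodule.coe_smul, Pi.smul_apply]
  rw [sum_apply]
  refine Finset.sum_congr rfl fun k _ => ?_
  rw [smul_apply, pv_eq (b k) V hx, smul_eq_mul]

section main

variable [T2Space M] [CompactSpace M] [ConnectedSpace M] [Finite A.ι] (P : Part A) (K : Kah A)
  (hK : (volK K).Semipos)

include P hK in
/-- a closed holomorphic form which vanishes on its own field is zero -/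
theorem eq_zero_of_pv {b : H1 A} {F : HVF A} (_hF : Par K F)
    (hb : lowF K F = (b : A.ι → M → (Cn n →L[ℂ] ℂ))) (h0 : pv b F = 0) : b = 0 := by
  apply Subtype.ext
  funext i x
  by_cases hx : x ∈ (A.e i).source
  · have h1 := pv_eq b F hx
    rw [h0, ← hb, lowF_hf hx] at h1
    have h2 : F.X i x = 0 := by
      by_contra hne
      exact (hf_pos K hx hne).ne' h1
    ext v
    rw [← hb, lowF_hf hx, h2, hf_eq]
    simp
  · exact b.2.2.1 i x hx

include P hK in
theorem eq_zero_of_pt {b : H1 A} {i : A.ι} {x : M} (hx : x ∈ (A.e i).source)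
    (h0 : (b : A.ι → M → (Cn n →L[ℂ] ℂ)) i x = 0) : b = 0 := by
  obtain ⟨F, hF, hb⟩ := DegOne_376.exists_par P K hK b.2
  refine eq_zero_of_pv P K hK hF hb ?_
  rw [← pv_eq b F hx, h0]
  rfl

include P hK in
/-- **the dual basis** -/
theorem exists_dual : ∃ (g : ℕ) (S : DualD A g),
    (∃ bs : Module.Basis (Fin g) ℂ (H1 A), ∀ k, bs k = S.b k) ∧ ∀ k, Par K (S.V k) := by
  have hfd : FiniteDimensional ℂ (Om A 1) :=
    ParG_880.om_fin P K (fun i x hx => cur_posSemidef hK i hx) 1
  let bs : Module.Basis (Fin (Module.finrank ℂ (Om A 1))) ℂ (H1 A) :=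
    (Module.finBasis ℂ (Om A 1)).map (DegOne_376.omH1 P K hK).symm
  have h1 : ∀ b : H1 A, ∃ V : HVF A, Par K V ∧ lowF K V = b.1 :=
    fun b => DegOne_376.exists_par P K hK b.2
  choose W hWp hWl using h1
  -- symmetry of the pairing
  have hsym : ∀ b b' : H1 A, pv b (W b') = conj (pv b' (W b)) := by
    intro b b'
    obtain ⟨x⟩ := (inferInstance : Nonempty M)
    obtain ⟨i, hx⟩ := A.cover x
    rw [← pv_eq b (W b') hx, ← pv_eq b' (W b) hx, ← hWl b, ← hWl b', lowF_hf hx, lowF_hf hx,
      hf_conj K hx]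
  let T : Matrix (Fin (Module.finrank ℂ (Om A 1))) (Fin (Module.finrank ℂ (Om A 1))) ℂ :=
    Matrix.of fun l j => pv (bs l) (W (bs j))
  have hT : IsUnit T.det := by
    rw [isUnit_iff_ne_zero]
    intro hdet
    obtain ⟨c, hc, hcT⟩ := Matrix.exists_vecMul_eq_zero_iff.2 hdet
    apply hc
    have h2 : ∀ j, pv (∑ l, c l • bs l) (W (bs j)) = 0 := by
      intro j
      rw [pv_sum]
      exact congrFun hcT j
    set f : H1 A := ∑ l, c l • bs l with hf
    have h3 : ∀ j, pv (bs j) (W f) = 0 := by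
      intro j
      rw [hsym, h2, map_zero]
    have h4 : pv f (W f) = 0 := by
      rw [hf, pv_sum]
      rw [← hf]
      exact Finset.sum_eq_zero fun l _ => by rw [h3, mul_zero]
    have h5 : f = 0 := eq_zero_of_pv P K hK (hWp f) (hWl f) h4
    have h6 := bs.repr_sum_self c
    rw [← hf, h5, map_zero] at h6
    exact h6.symm
  -- the fields
  have hTT : T.conjTranspose = T := by
    ext l j
    exact (hsym _ _).symm
  let E := T⁻¹
  let V : Fin (Module.finrank ℂ (Om A 1)) → HVF A := fun k => W (∑ l, E k l • bs l)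
  have hV : ∀ j k, pv (bs j) (V k) = if j = k then 1 else 0 := by
    intro j k
    change pv (bs j) (W (∑ l, E k l • bs l)) = _
    rw [hsym, pv_sum]
    have h2 : ∑ l, E k l * pv (bs l) (W (bs j)) = (E * T) k j := rfl
    rw [h2, Matrix.nonsing_inv_mul T hT, Matrix.one_apply]
    by_cases hjk : j = k
    · rw [if_pos hjk, if_pos hjk.symm, map_one]
    · rw [if_neg hjk, if_neg fun h => hjk h.symm, map_zero]
  refine ⟨Module.finrank ℂ (Om A 1), ⟨V, bs, fun k l => HFlow9_376.Par.comm (hWp _) (hWp _), ?_⟩,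
    ⟨bs, fun _ => rfl⟩, fun k => hWp _⟩
  intro k l i x hx
  rw [pv_eq (bs k) (V l) hx]
  exact hV k l

end main

/-- **DUALK** -/
theorem dual_stmt : DualStmt := by
  intro n M _ _ _ _ A _ P K hK
  exact ⟨HodZ_376.hodgeZ P K hK, exists_dual P K hK⟩

/-- **NF**, unconditional -/
theorem nf : AsmB_534.NFStmt := nf_of' dual_stmt

end

end Crest.Agent.R273.Max127
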