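import Crest.Agent.R273.MaxF_127
import Crest.Agent.R273.DualK_376
import Crest.Agent.R273.HodZ_376

/-!
# R273 (S0416), Part B (helper376): `DualStmt` of helper127 holds
-/

set_option autoImplicit false
set_option linter.unusedSectionVars false

namespace Crest.Agent.R273.DualS_376

open Crest.Agent.R275.Geo Crest.Agent.R275.Core144 Crest.Agent.R275.GC293
open Crest.Agent.R273.Defs_333 Crest.Agent.R273.Kah_333 Crest.Agent.R273.Vol_333
open Crest.Agent.R273.Alb645

/-- the dual data, on one manifold -/
theorem dual_at {n : ℕ} {M : Type} [TopologicalSpace M] [T2Space M] [CompactSpace M]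
    [ConnectedSpace M] {A : Atl n M} [Finite A.ι] (P : Part A) (K : Kah A)
    (hK : (volK K).Semipos) : Max127.DualAt A P K := by
  obtain ⟨g, bs, S, h1, h2⟩ := DualK_376.exists_dual' P K hK
  exact ⟨HodZ_376.hodgeZ P K hK, g, S, ⟨bs, h1⟩, h2⟩

/-- **DualStmt** -/
theorem dual_stmt : Max127.DualStmt := by
  intro n M _ _ _ _ A _ P K hK
  exact dual_at P K hK

end Crest.Agent.R273.DualS_376
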