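import Crest.Agent.R161.Green3_722
import Crest.Agent.R275.FLSubA_884

/-!
# R273 (S0416), Part A, EXPINT, one variable (helper772).

`exp_one`: there are `η > 0` and `C` such that `∫_{ball 0 (1/8)} exp (-η v) ≤ C` for every smooth
`v : ℂ → ℝ` which is `≤ 0` and subharmonic on the closed unit disc and satisfies `-1 ≤ v 0`.
-/

set_option autoImplicit false
set_option linter.unusedSectionVars false

open MeasureTheory Set Metric Filter Topology Laplacian
open scoped ContDiff

namespace Crest.Agent.R273.ExpI1_772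

open Crest.Agent.R161.Green722

noncomputable section

/-! ### sub-mean value inequality on discs -/

theorem lap_fderiv (u : ℂ → ℝ) (z : ℂ) : (Δ u) z
    = fderiv ℝ (fderiv ℝ u) z 1 1 + fderiv ℝ (fderiv ℝ u) z Complex.I Complex.I := by
  rw [InnerProductSpace.laplacian_eq_iteratedFDeriv_complexPlane]
  simp [iteratedFDeriv_two_apply]

theorem lap_rot (u : ℂ → ℝ) (z v : ℂ) :
    fderiv ℝ (fderiv ℝ u) z v v + fderiv ℝ (fderiv ℝ u) z (Complex.I * v) (Complex.I * v)
      = ‖v‖ ^ 2 * (Δ u) z := by
  rw [lap_fderiv]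
  have hn : ‖v‖ ^ 2 = v.re ^ 2 + v.im ^ 2 := by
    rw [← Complex.normSq_eq_norm_sq, Complex.normSq_apply]
    ring
  have hdec : v = v.re • (1 : ℂ) + v.im • Complex.I := by
    apply Complex.ext <;> simp
  have hdec' : Complex.I * v = (-v.im) • (1 : ℂ) + v.re • Complex.I := by
    apply Complex.ext <;> simp
  rw [hn, hdec']
  set a := v.re
  set b := v.im
  rw [hdec]
  simp only [map_add, map_smul, _root_.add_apply, _root_.smul_apply, smul_eq_mul]
  ring

/-- the disc `w ↦ z + w v` -/
theorem fderiv2_disc {u : ℂ → ℝ} {z v : ℂ} {w : ℂ} (hu : ContDiffAt ℝ 2 u (z + w * v))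
    (a : ℂ) :
    fderiv ℝ (fderiv ℝ (fun w : ℂ => u (z + w * v))) w a a
      = fderiv ℝ (fderiv ℝ u) (z + w * v) (a * v) (a * v) := by
  let L : ℂ →L[ℝ] ℂ := (ContinuousLinearMap.smulRight (1 : ℂ →L[ℂ] ℂ) v).restrictScalars ℝ
  have hL : ∀ w : ℂ, L w = w * v := fun w => by simp [L]
  have hLd : ∀ w : ℂ, HasFDerivAt (fun w : ℂ => z + w * v) L w := by
    intro w
    have h : HasFDerivAt (fun w : ℂ => z + L w) L w := L.hasFDerivAt.const_add z
    refine h.congr_of_eventuallyEq (Eventually.of_forall fun w' => ?_)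
    simp only [hL]
  have htend : Tendsto (fun w : ℂ => z + w * v) (𝓝 w) (𝓝 (z + w * v)) :=
    (hLd w).continuousAt.tendsto
  have h1 : ∀ᶠ y in 𝓝 (z + w * v), DifferentiableAt ℝ u y := by
    filter_upwards [hu.eventually (by simp)] with y hy
    exact hy.differentiableAt (by norm_num)
  have h2 : DifferentiableAt ℝ (fderiv ℝ u) (z + w * v) :=
    (hu.fderiv_right (m := 1) (by norm_num)).differentiableAt (by norm_num)
  have e1 : fderiv ℝ (fun w : ℂ => u (z + w * v)) =ᶠ[𝓝 w]
      fun w => (fderiv ℝ u (z + w * v)).comp L := by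
    filter_upwards [htend.eventually h1] with w' hw'
    exact (hw'.hasFDerivAt.comp w' (hLd w')).fderiv
  rw [e1.fderiv_eq]
  have h3 : HasFDerivAt (fun w : ℂ => fderiv ℝ u (z + w * v))
      ((fderiv ℝ (fderiv ℝ u) (z + w * v)).comp L) w := h2.hasFDerivAt.comp w (hLd w)
  have h4 := h3.clm_comp (hasFDerivAt_const L w)
  rw [h4.fderiv]
  simp [hL]

theorem le_circle {u : ℂ → ℝ} {z : ℂ} {R : ℝ} (hu : ContDiff ℝ 2 u)
    (hlev : ∀ x ∈ closedBall z R, 0 ≤ (Δ u) x) {v : ℂ} (hv : ‖v‖ ≤ R) :
    u z ≤ Real.circleAverage (fun w : ℂ => u (z + w * v)) 0 1 := by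
  have hin : ∀ w ∈ closedBall (0 : ℂ) 1, z + w * v ∈ closedBall z R := by
    intro w hw
    rw [mem_closedBall_zero_iff] at hw
    rw [mem_closedBall, dist_eq_norm, add_sub_cancel_left, norm_mul]
    calc ‖w‖ * ‖v‖ ≤ 1 * ‖v‖ := mul_le_mul_of_nonneg_right hw (norm_nonneg _)
      _ ≤ R := by rwa [one_mul]
  have h1 : ContDiff ℝ 2 (fun w : ℂ => u (z + w * v)) := hu.comp (by fun_prop)
  have := Crest.Agent.R275.FL884.le_circleAverage_of_contDiff h1 (c := 0) (by
    intro w hw
    rw [fderiv2_disc hu.contDiffAt, fderiv2_disc hu.contDiffAt, one_mul, lap_rot]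
    have := mul_nonneg (sq_nonneg ‖v‖) (hlev _ (hin w hw))
    linarith)
  simpa using this

theorem setIntegral_rot {c : ℂ} (hc : ‖c‖ = 1) (R : ℝ) (g : ℂ → ℝ) :
    ∫ v in ball (0 : ℂ) R, g (c * v) = ∫ v in ball (0 : ℂ) R, g v := by
  have hc1 : c ∈ Submonoid.unitSphere ℂ := mem_sphere_zero_iff_norm.2 hc
  have hmp : MeasurePreserving (fun v : ℂ => c * v) :=
    (rotation (⟨c, hc1⟩ : Circle)).measurePreserving
  have hc0 : c ≠ 0 := by
    rintro rfl
    simp at hc
  have hemb : MeasurableEmbedding (fun v : ℂ => c * v) :=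
    (Homeomorph.mulLeft₀ c hc0).measurableEmbedding
  have h1 := hmp.setIntegral_preimage_emb hemb g (ball 0 R)
  have h2 : (fun v : ℂ => c * v) ⁻¹' ball 0 R = ball 0 R := by
    ext v
    simp [hc]
  rw [h2] at h1
  exact h1

/-- **sub-mean value inequality on a disc** -/
theorem submean {u : ℂ → ℝ} {z : ℂ} {R : ℝ} (hu : ContDiff ℝ 2 u)
    (hlev : ∀ x ∈ closedBall z R, 0 ≤ (Δ u) x) :
    u z * volume.real (ball z R) ≤ ∫ x in ball z R, u x := by
  have hball : volume.real (ball z R) = volume.real (ball (0 : ℂ) R) := by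
    rw [measureReal_def, measureReal_def, Measure.addHaar_ball_center]
  have hcont : Continuous u := hu.continuous
  have hcc : Continuous (fun p : ℝ × ℂ => z + circleMap 0 1 p.1 * p.2) := by
    have := continuous_circleMap 0 1
    fun_prop
  have hprod : IntegrableOn (fun p : ℝ × ℂ => u (z + circleMap 0 1 p.1 * p.2))
      (Ioc 0 (2 * Real.pi) ×ˢ ball (0 : ℂ) R) ((volume : Measure ℝ).prod volume) := by
    have h2 := (hcont.comp hcc).continuousOn.integrableOn_compact
      (μ := (volume : Measure ℝ).prod (volume : Measure ℂ))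
      ((isCompact_Icc (a := (0 : ℝ)) (b := 2 * Real.pi)).prod (isCompact_closedBall (0 : ℂ) R))
    exact h2.mono_set (prod_mono Ioc_subset_Icc_self ball_subset_closedBall)
  rw [IntegrableOn, ← Measure.prod_restrict] at hprod
  have hswap := integral_integral_swap (f := fun (θ : ℝ) (v : ℂ) => u (z + circleMap 0 1 θ * v))
    (μ := volume.restrict (Ioc 0 (2 * Real.pi))) (ν := volume.restrict (ball (0 : ℂ) R)) hprod
  have hrot : ∀ θ : ℝ, ∫ v in ball (0 : ℂ) R, u (z + circleMap 0 1 θ * v)
      = ∫ x in ball z R, u x := by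
    intro θ
    rw [setIntegral_rot (c := circleMap 0 1 θ) (by simp) R (fun v => u (z + v))]
    have h1 := (measurePreserving_add_left (volume : Measure ℂ) z).setIntegral_preimage_emb
      (measurableEmbedding_addLeft z) u (ball z R)
    rw [← h1]
    congr 2
    ext v
    simp
  have hpi : (0 : ℝ) < 2 * Real.pi := by positivity
  have hL : ∫ θ in Ioc 0 (2 * Real.pi), (∫ v in ball (0 : ℂ) R, u (z + circleMap 0 1 θ * v))
      = 2 * Real.pi * ∫ x in ball z R, u x := by
    simp only [hrot]
    simp [hpi.le]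
  have hca : ∀ v : ℂ, Real.circleAverage (fun w : ℂ => u (z + w * v)) 0 1
      = (2 * Real.pi)⁻¹ * ∫ θ in Ioc 0 (2 * Real.pi), u (z + circleMap 0 1 θ * v) := by
    intro v
    rw [Real.circleAverage_def, intervalIntegral.integral_of_le hpi.le, smul_eq_mul]
  have hint : IntegrableOn (fun v : ℂ => ∫ θ in Ioc 0 (2 * Real.pi), u (z + circleMap 0 1 θ * v))
      (ball (0 : ℂ) R) := hprod.integral_prod_right
  have hfin : volume (ball (0 : ℂ) R) ≠ ⊤ := measure_ball_lt_top.ne
  have hmono : ∫ _v in ball (0 : ℂ) R, u z ≤ ∫ v in ball (0 : ℂ) R,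
      ((2 * Real.pi)⁻¹ * (∫ θ in Ioc 0 (2 * Real.pi), u (z + circleMap 0 1 θ * v))) := by
    refine setIntegral_mono_on (integrableOn_const hfin) (hint.const_mul _)
      measurableSet_ball fun v hv => ?_
    rw [mem_ball_zero_iff] at hv
    have h1 := le_circle hu hlev hv.le
    rwa [hca] at h1
  rw [integral_const_mul, ← hswap, hL, setIntegral_const, smul_eq_mul, ← mul_assoc,
    inv_mul_cancel₀ hpi.ne', one_mul] at hmono
  rw [hball]
  linarith

theorem vol_ball (z : ℂ) {r : ℝ} (hr : 0 ≤ r) : volume.real (ball z r) = Real.pi * r ^ 2 := by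
  rw [measureReal_def, Complex.volume_ball]
  simp [hr, mul_comm]

/-! ### the kernel `exp (-log ‖ζ‖)` on the unit disc -/

/-- the kernel -/
def ker (ζ : ℂ) : ℝ := (ball (0 : ℂ) 1).indicator (fun ζ => Real.exp (-Real.log ‖ζ‖)) ζ

theorem ker_nonneg (ζ : ℂ) : 0 ≤ ker ζ := indicator_nonneg (fun _ _ => (Real.exp_pos _).le) _

theorem integrable_ker : Integrable ker := by
  have h1 : IntegrableOn (fun z : ℂ => Real.exp (-Real.log ‖z‖)) (ball 0 1) := by
    refine (integrableOn_norm_rpow (s := 1) (by norm_num) 1).congr_fun_ae ?_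
    have h2 : ∀ᵐ z : ℂ, z ≠ 0 := by
      rw [ae_iff]; simp
    filter_upwards [ae_restrict_of_ae h2] with z hz
    have hz' : 0 < ‖z‖ := norm_pos_iff.mpr hz
    rw [Real.rpow_neg hz'.le, Real.rpow_one, Real.exp_neg, Real.exp_log hz']
  exact (integrable_indicator_iff isOpen_ball.measurableSet).2 h1

/-- convexity of `exp`, for a measure of mass `≤ 1` -/
theorem jensen {ν : Measure ℂ} {F f : ℂ → ℝ} (hf : ∀ w, 0 ≤ f w) (hfi : Integrable f ν)
    (hFf : Integrable (fun w => F w * f w) ν)
    (hE : Integrable (fun w => Real.exp (F w) * f w) ν) (hm : ∫ w, f w ∂ν ≤ 1) :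
    Real.exp (∫ w, F w * f w ∂ν) ≤ Real.exp 1 + ∫ w, Real.exp (F w) * f w ∂ν := by
  set A := ∫ w, F w * f w ∂ν with hA
  set m := ∫ w, f w ∂ν with hmd
  have hE0 : 0 ≤ ∫ w, Real.exp (F w) * f w ∂ν :=
    integral_nonneg fun w => mul_nonneg (Real.exp_pos _).le (hf w)
  rcases le_or_gt A 1 with h | h
  · have := Real.exp_le_exp.2 h
    linarith
  · have h1 : ∫ w, Real.exp A * ((1 - A) * f w + F w * f w) ∂ν
        ≤ ∫ w, Real.exp (F w) * f w ∂ν := by
      refine integral_mono (((hfi.const_mul _).add hFf).const_mul _) hE fun w => ?_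
      have h2 : Real.exp A * (F w - A + 1) ≤ Real.exp (F w) := by
        have h3 := Real.add_one_le_exp (F w - A)
        have h4 : Real.exp (F w) = Real.exp A * Real.exp (F w - A) := by
          rw [← Real.exp_add]; ring_nf
        rw [h4]
        exact mul_le_mul_of_nonneg_left h3 (Real.exp_pos _).le
      have h5 := mul_le_mul_of_nonneg_right h2 (hf w)
      simp only
      calc Real.exp A * ((1 - A) * f w + F w * f w) = Real.exp A * (F w - A + 1) * f w := by ring
        _ ≤ _ := h5
    rw [integral_const_mul, integral_add (hfi.const_mul _) hFf, integral_const_mul] at h1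
    have h6 : 1 ≤ (1 - A) * m + A := by nlinarith
    have h7 : Real.exp A ≤ Real.exp A * ((1 - A) * m + A) :=
      le_mul_of_one_le_right (Real.exp_pos _).le h6
    have := Real.exp_pos 1
    linarith

/-! ### the one variable estimate -/

theorem contDiff_lap {ψ : ℂ → ℝ} (hψ : ContDiff ℝ ∞ ψ) : ContDiff ℝ ∞ (Δ ψ) := by
  have h0 : ContDiff ℝ ∞ (fderiv ℝ ψ) := (contDiff_infty_iff_fderiv.1 hψ).2
  have h1 : ContDiff ℝ ∞ (fderiv ℝ (fderiv ℝ ψ)) := (contDiff_infty_iff_fderiv.1 h0).2
  have e : (Δ ψ) = fun z => fderiv ℝ (fderiv ℝ ψ) z 1 1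
      + fderiv ℝ (fderiv ℝ ψ) z Complex.I Complex.I := funext fun z => lap_fderiv ψ z
  rw [e]
  exact ((h1.clm_apply contDiff_const).clm_apply contDiff_const).add
    ((h1.clm_apply contDiff_const).clm_apply contDiff_const)

theorem two_le_infty : (2 : WithTop ℕ∞) ≤ ∞ :=
  WithTop.coe_le_coe.2 (le_top : ((2 : ℕ) : ℕ∞) ≤ ⊤)

/-- the cut-off -/
abbrev cut : ℂ → ℝ := chi (1 / 4) (1 / 2)

theorem cut_one {w : ℂ} (hw : ‖w‖ ≤ 1 / 4) : cut w = 1 := chi_one (by norm_num) (by norm_num) hw

theorem cut_zero {w : ℂ} (hw : 1 / 2 ≤ ‖w‖) : cut w = 0 := chi_zero (by norm_num) (by norm_num) hw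

theorem cut_nonneg (w : ℂ) : 0 ≤ cut w := (chi_mem _ _ _).1

theorem contDiff_cut : ContDiff ℝ ∞ cut := contDiff_chi _ _

theorem tsupport_cut : tsupport cut ⊆ closedBall 0 (1 / 2) := by
  refine closure_minimal (fun w hw => ?_) isClosed_closedBall
  rw [mem_closedBall_zero_iff]
  by_contra h
  exact hw (cut_zero (not_le.1 h).le)

theorem hasCompactSupport_cut : HasCompactSupport cut :=
  HasCompactSupport.of_support_subset_isCompact (isCompact_closedBall (0 : ℂ) (1 / 2))
    ((subset_tsupport _).trans tsupport_cut)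

/-- a bound for `|Δ cut|` -/
theorem exists_K : ∃ K : ℝ, 0 < K ∧ ∀ z, |(Δ cut) z| ≤ K := by
  obtain ⟨K, hK⟩ := (hasCompactSupport_lapC hasCompactSupport_cut).exists_bound_of_continuous
    (contDiff_lap contDiff_cut).continuous
  exact ⟨max K 1, by positivity, fun z => (hK z).trans (le_max_left _ _)⟩

/-- **one variable**: uniform exponential integrability -/
theorem exp_one : ∃ η C : ℝ, 0 < η ∧ 0 < C ∧ ∀ v : ℂ → ℝ, ContDiff ℝ ∞ v →
    (∀ z ∈ closedBall (0 : ℂ) 1, 0 ≤ (Δ v) z) → (∀ z ∈ closedBall (0 : ℂ) 1, v z ≤ 0) →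
    -1 ≤ v 0 → ∫ z in ball (0 : ℂ) (1 / 8), Real.exp (-(η * v z)) ≤ C := by
  obtain ⟨K, hK0, hK⟩ := exists_K
  have hpi := Real.pi_pos
  set M : ℝ := K * Real.pi with hM
  have hM0 : 0 < M := by positivity
  set η : ℝ := 2 * Real.pi / M with hη
  have hη0 : 0 < η := by positivity
  set κ : ℝ := ∫ ζ, ker ζ with hκ
  have hκ0 : 0 ≤ κ := integral_nonneg ker_nonneg
  refine ⟨η, Real.exp (64 * η) * (Real.exp 1 * Real.pi + κ), hη0, by positivity,
    fun v hv hlap hle h0 => ?_⟩
  have hv2 : ContDiff ℝ 2 v := hv.of_le two_le_infty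
  have hvc : Continuous v := hv.continuous
  -- the L¹ norm of `v`
  have hL1 : ∫ x in ball (0 : ℂ) 1, -v x ≤ Real.pi := by
    have h1 := submean (z := 0) (R := 1) hv2 hlap
    rw [vol_ball _ zero_le_one, one_pow, mul_one] at h1
    rw [integral_neg]
    nlinarith
  have hint : ∀ (z : ℂ) (r : ℝ), IntegrableOn (fun x => -v x) (ball z r) := fun z r =>
    (hvc.neg.continuousOn.integrableOn_compact (isCompact_closedBall z r)).mono_set
      ball_subset_closedBall
  -- the measure
  set f : ℂ → ℝ := fun w => cut w * (Δ v) w with hf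
  have hfs : ContDiff ℝ ∞ f := contDiff_cut.mul (contDiff_lap hv)
  have hfc : HasCompactSupport f := hasCompactSupport_cut.mul_right
  have hf0 : ∀ w, 0 ≤ f w := by
    intro w
    by_cases hw : ‖w‖ ≤ 1
    · exact mul_nonneg (cut_nonneg w) (hlap w (by simpa using hw))
    · simp only [hf]
      rw [cut_zero (by linarith [not_le.1 hw]), zero_mul]
  have hfz : ∀ w, 1 / 2 ≤ ‖w‖ → f w = 0 := fun w hw => by
    simp only [hf]
    rw [cut_zero hw, zero_mul]
  have hfi : Integrable f := hfs.continuous.integrable_of_hasCompactSupport hfc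
  have hmass : ∫ w, f w ≤ M := by
    have h1 := green_onC isOpen_univ hv2.contDiffOn contDiff_cut hasCompactSupport_cut
      (subset_univ _)
    have h2 : ∫ w, f w = ∫ z, v z * (Δ cut) z := by
      rw [h1]
      exact integral_congr_ae (Eventually.of_forall fun w => mul_comm _ _)
    have h3 : ∫ z, v z * (Δ cut) z = ∫ z in ball (0 : ℂ) 1, v z * (Δ cut) z := by
      refine (setIntegral_eq_integral_of_forall_compl_eq_zero fun z hz => ?_).symm
      have : z ∉ tsupport cut := fun h => by
        have := tsupport_cut h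
        rw [mem_closedBall_zero_iff] at this
        rw [mem_ball_zero_iff] at hz
        linarith
      rw [lapC_eq_zero this, mul_zero]
    have h4 : ∫ z in ball (0 : ℂ) 1, v z * (Δ cut) z ≤ ∫ z in ball (0 : ℂ) 1, K * (-v z) := by
      refine setIntegral_mono_on ?_ ((hint 0 1).const_mul _) measurableSet_ball fun z hz => ?_
      · exact ((hvc.mul (contDiff_lap contDiff_cut).continuous).continuousOn.integrableOn_compact
          (isCompact_closedBall (0 : ℂ) 1)).mono_set ball_subset_closedBall
      · have h5 := hle z (ball_subset_closedBall hz)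
        have h6 := (abs_le.1 (hK z)).1
        nlinarith
    rw [h2, h3]
    refine h4.trans ?_
    rw [integral_const_mul, hM]
    exact mul_le_mul_of_nonneg_left hL1 hK0.le
  -- the potential
  have hlogint : ∀ z, Integrable (fun w => Real.log ‖z - w‖ * f w) := by
    intro z
    obtain ⟨B, hB⟩ := hfc.exists_bound_of_continuous hfs.continuous
    have h1 : IntegrableOn (fun w : ℂ => Real.log ‖z - w‖) (ball 0 1) := by
      have h2 := integrableOn_log (‖z‖ + 1)
      have h3 : (fun w : ℂ => z - w) ⁻¹' ball 0 (‖z‖ + 1) = ball z (‖z‖ + 1) := by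
        ext w
        rw [mem_preimage, mem_ball_zero_iff, mem_ball, dist_comm, dist_eq_norm]
      have h4 := ((Measure.measurePreserving_sub_left (volume : Measure ℂ) z).integrableOn_comp_preimage
        (MeasurableEquiv.subLeft z).measurableEmbedding).2 h2
      rw [h3] at h4
      refine h4.mono_set fun w hw => ?_
      rw [mem_ball_zero_iff] at hw
      rw [mem_ball, dist_eq_norm]
      have := norm_sub_le w z
      linarith
    have h2 : Integrable ((ball (0 : ℂ) 1).indicator fun w : ℂ => Real.log ‖z - w‖) :=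
      (integrable_indicator_iff isOpen_ball.measurableSet).2 h1
    have h3 := h2.bdd_mul (c := B) hfs.continuous.aestronglyMeasurable
      (Eventually.of_forall fun w => hB w)
    refine h3.congr (Eventually.of_forall fun w => ?_)
    simp only [indicator, mem_ball_zero_iff]
    split_ifs with h
    · ring
    · rw [hfz w (by linarith [not_lt.1 h])]
      simp
  set p : ℂ → ℝ := LP f with hp
  have hps : ContDiff ℝ ∞ p := contDiff_LP hfs hfc
  have hpl : ∀ z, (Δ p) z = f z := fun z => lap_LP hfs hfc z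
  have hpneg : ∀ z : ℂ, ‖z‖ ≤ 1 / 2 → p z ≤ 0 := by
    intro z hz
    refine mul_nonpos_of_nonneg_of_nonpos (by positivity) (integral_nonpos fun w => ?_)
    by_cases hw : 1 / 2 ≤ ‖w‖
    · simp [hfz w hw]
    · refine mul_nonpos_of_nonpos_of_nonneg ?_ (hf0 w)
      refine Real.log_nonpos (norm_nonneg _) ?_
      have := norm_sub_le z w
      linarith [not_le.1 hw]
  -- lower bound of the harmonic part
  have hlow : ∀ z ∈ ball (0 : ℂ) (1 / 8), -64 + p z ≤ v z := by
    intro z hz
    rw [mem_ball_zero_iff] at hz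
    have h1 : ContDiff ℝ 2 (fun x => p x - v x) := (hps.sub hv).of_le two_le_infty
    have hsub : closedBall z (1 / 8) ⊆ closedBall (0 : ℂ) (1 / 4) := by
      refine closedBall_subset_closedBall' ?_
      rw [dist_zero_right]
      linarith
    have h2 : ∀ x ∈ closedBall z (1 / 8), 0 ≤ (Δ (fun x => p x - v x)) x := by
      intro x hx
      have hx' := hsub hx
      rw [mem_closedBall_zero_iff] at hx'
      have e : (fun x => p x - v x) = p - v := rfl
      rw [e, ContDiffAt.laplacian_sub (hps.of_le two_le_infty).contDiffAt hv2.contDiffAt, hpl]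
      simp only [hf]
      rw [cut_one hx', one_mul, sub_self]
    have h3 := submean h1 h2
    have h4 : ∫ x in ball z (1 / 8), (p x - v x) ≤ ∫ x in ball z (1 / 8), -v x := by
      refine setIntegral_mono_on ?_ (hint _ _) measurableSet_ball fun x hx => ?_
      · exact (h1.continuous.continuousOn.integrableOn_compact
          (isCompact_closedBall z (1 / 8))).mono_set ball_subset_closedBall
      · have hx' := hsub (ball_subset_closedBall hx)
        rw [mem_closedBall_zero_iff] at hx'
        have := hpneg x (by linarith)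
        linarith
    have h5 : ∫ x in ball z (1 / 8), -v x ≤ ∫ x in ball (0 : ℂ) 1, -v x := by
      refine setIntegral_mono_set (hint _ _) ?_ (LE.le.eventuallyLE ?_)
      · exact (ae_restrict_iff' measurableSet_ball).2 (Eventually.of_forall fun x hx => by
          have := hle x (ball_subset_closedBall hx)
          simp only [Pi.zero_apply]
          linarith)
      · intro x hx
        have := hsub (ball_subset_closedBall hx)
        rw [mem_closedBall_zero_iff] at this
        rw [mem_ball_zero_iff]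
        linarith
    rw [vol_ball _ (by norm_num)] at h3
    have h6 : (p z - v z) * (Real.pi * (1 / 8) ^ 2) ≤ Real.pi := by linarith
    have h7 : (p z - v z) * (1 / 8) ^ 2 ≤ 1 := by
      by_contra hcon
      have := mul_lt_mul_of_pos_right (not_le.1 hcon) hpi
      nlinarith
    nlinarith
  -- Jensen
  have hker : ∀ z ∈ ball (0 : ℂ) (1 / 8), ∀ w, Real.exp (-Real.log ‖z - w‖) * f w
      = ker (z - w) * f w := by
    intro z hz w
    rw [mem_ball_zero_iff] at hz
    by_cases hw : 1 / 2 ≤ ‖w‖
    · simp [hfz w hw]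
    · have : z - w ∈ ball (0 : ℂ) 1 := by
        rw [mem_ball_zero_iff]
        have := norm_sub_le z w
        linarith [not_le.1 hw]
      rw [ker, indicator_of_mem this]
  have hkerint : ∀ z, Integrable (fun w => ker (z - w) * f w) := by
    intro z
    obtain ⟨B, hB⟩ := hfc.exists_bound_of_continuous hfs.continuous
    have h2 : Integrable (fun w => ker (z - w)) := integrable_ker.comp_sub_left z
    have h3 := h2.bdd_mul (c := B) hfs.continuous.aestronglyMeasurable
      (Eventually.of_forall fun w => hB w)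
    exact h3.congr (Eventually.of_forall fun w => mul_comm _ _)
  set g : ℂ → ℝ := fun z => ∫ w, ker (z - w) * f w with hg
  have hg0 : ∀ z, 0 ≤ g z := fun z => integral_nonneg fun w => mul_nonneg (ker_nonneg _) (hf0 w)
  have hconv : g = fun z => (MeasureTheory.convolution f ker
      (ContinuousLinearMap.mul ℝ ℝ) volume) z := by
    funext z
    simp only [hg, MeasureTheory.convolution]
    refine integral_congr_ae (Eventually.of_forall fun w => ?_)
    simp only [ContinuousLinearMap.mul_apply']
    exact mul_comm _ _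
  have hgi : Integrable g := by
    rw [hconv]
    exact hfi.integrable_convolution _ integrable_ker
  have hgI : ∫ z, g z = (∫ w, f w) * κ := by
    rw [hconv]
    exact integral_convolution (ContinuousLinearMap.mul ℝ ℝ) hfi integrable_ker
  have hjen : ∀ z ∈ ball (0 : ℂ) (1 / 8), Real.exp (-(η * p z)) ≤ Real.exp 1 + M⁻¹ * g z := by
    intro z hz
    have h1 := jensen (ν := volume) (F := fun w => -Real.log ‖z - w‖) (f := fun w => M⁻¹ * f w)
      (fun w => mul_nonneg (inv_nonneg.2 hM0.le) (hf0 w)) (hfi.const_mul _)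
      (((hlogint z).const_mul (-M⁻¹)).congr (Eventually.of_forall fun w => by ring))
      (((hkerint z).const_mul M⁻¹).congr (Eventually.of_forall fun w => by
        simp only
        rw [← hker z hz w]
        ring)) (by
        rw [integral_const_mul, inv_mul_le_one₀ hM0]
        exact hmass)
    have e1 : ∫ w, -Real.log ‖z - w‖ * (M⁻¹ * f w) = -(η * p z) := by
      have : ∀ w, -Real.log ‖z - w‖ * (M⁻¹ * f w) = (-M⁻¹) * (Real.log ‖z - w‖ * f w) :=
        fun w => by ring
      simp only [this]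
      rw [integral_const_mul, hp, LP, hη]
      field_simp
    have e2 : ∫ w, Real.exp (-Real.log ‖z - w‖) * (M⁻¹ * f w) = M⁻¹ * g z := by
      have : ∀ w, Real.exp (-Real.log ‖z - w‖) * (M⁻¹ * f w)
          = M⁻¹ * (ker (z - w) * f w) := fun w => by
        rw [← hker z hz w]; ring
      simp only [this]
      rw [integral_const_mul]
    rw [e1, e2] at h1
    exact h1
  -- conclusion
  have hpt : ∀ z ∈ ball (0 : ℂ) (1 / 8), Real.exp (-(η * v z))
      ≤ Real.exp (64 * η) * (Real.exp 1 + M⁻¹ * g z) := by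
    intro z hz
    have h1 := hlow z hz
    calc Real.exp (-(η * v z)) ≤ Real.exp (64 * η + -(η * p z)) := by
          refine Real.exp_le_exp.2 ?_
          nlinarith
      _ = Real.exp (64 * η) * Real.exp (-(η * p z)) := Real.exp_add _ _
      _ ≤ _ := mul_le_mul_of_nonneg_left (hjen z hz) (Real.exp_pos _).le
  have hfin : volume (ball (0 : ℂ) (1 / 8)) ≠ ⊤ := measure_ball_lt_top.ne
  have h1 : ∫ z in ball (0 : ℂ) (1 / 8), Real.exp (-(η * v z))
      ≤ ∫ z in ball (0 : ℂ) (1 / 8), Real.exp (64 * η) * (Real.exp 1 + M⁻¹ * g z) := by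
    refine setIntegral_mono_on ?_ (((integrableOn_const hfin).add
      (hgi.integrableOn.const_mul _)).const_mul _) measurableSet_ball hpt
    exact ((Real.continuous_exp.comp (hvc.const_mul η).neg).continuousOn.integrableOn_compact
      (isCompact_closedBall (0 : ℂ) (1 / 8))).mono_set ball_subset_closedBall
  refine h1.trans ?_
  have hci : Integrable (fun _ : ℂ => Real.exp 1) (volume.restrict (ball (0 : ℂ) (1 / 8))) :=
    integrableOn_const hfin
  rw [integral_const_mul, integral_add hci (hgi.integrableOn.const_mul _), setIntegral_const, smul_eq_mul, vol_ball _ (by norm_num), integral_const_mul]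
  refine mul_le_mul_of_nonneg_left (add_le_add ?_ ?_) (Real.exp_pos _).le
  · have := Real.exp_pos 1
    nlinarith [mul_pos hpi this]
  · have h2 : ∫ z in ball (0 : ℂ) (1 / 8), g z ≤ ∫ z, g z :=
      setIntegral_le_integral hgi (Eventually.of_forall hg0)
    rw [hgI] at h2
    have h3 : M⁻¹ * (∫ z in ball (0 : ℂ) (1 / 8), g z) ≤ M⁻¹ * ((∫ w, f w) * κ) :=
      mul_le_mul_of_nonneg_left h2 (inv_nonneg.2 hM0.le)
    refine h3.trans ?_
    rw [← mul_assoc]
    refine mul_le_of_le_one_left hκ0 ?_
    rw [inv_mul_le_one₀ hM0]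
    exact hmass

end

end Crest.Agent.R273.ExpI1_772
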