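import Crest.Agent.R273.ExpI1_772
import Crest.Agent.R273.C0d_390
import Crest.Agent.R273.Levi_145

/-!
# R273 (S0416), Part A, EXPINT, `n` variables (helper772).

`exp_ball`: `∫_{ball 0 (1/16)} exp (-η v) ≤ C` for smooth `v : Cn n → ℝ`, psh and `≤ 0` on the
closed unit ball with `-1 ≤ v 0`; `exp_ball_gen`: the version for quasi-psh functions on a ball
`closedBall z R` of an open set.
-/

set_option autoImplicit false
set_option linter.unusedSectionVars false

open MeasureTheory Set Metric Filter Topology Laplacian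
open scoped ContDiff Pointwise

namespace Crest.Agent.R273.ExpI2_772

open Crest.Agent.R273.C0d_390 (V lv setIntegral_rot)
open Crest.Agent.R273.ExpI1_772 (exp_one lap_fderiv two_le_infty vol_ball)

noncomputable section

variable {n : ℕ} (μ : Measure (V n)) [μ.IsAddHaarMeasure]

/-- scaling by a complex number of modulus `≤ 1` -/
theorem scale_le {F : V n → ℝ} (hF : Continuous F) (hF0 : ∀ x, 0 ≤ F x) {τ : ℂ}
    (h1 : 1 / 16 ≤ ‖τ‖) (h2 : ‖τ‖ ≤ 1) :
    ∫ x in ball (0 : V n) (1 / 16), F x ∂μ ≤ ∫ x in ball (0 : V n) 1, F (τ • x) ∂μ := by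
  have hτ0 : ‖τ‖ ≠ 0 := by positivity
  have hτ : 0 < ‖τ‖ := by positivity
  set u : ℂ := τ / ‖τ‖ with hu
  have hu1 : ‖u‖ = 1 := by
    rw [hu, norm_div, Complex.norm_real, norm_norm, div_self hτ0]
  have hτu : ∀ x : V n, τ • x = u • (‖τ‖ • x) := by
    intro x
    have hc : (‖τ‖ : ℂ) ≠ 0 := by exact_mod_cast hτ0
    rw [← Complex.coe_smul, smul_smul, hu, div_mul_cancel₀ _ hc]
  have e1 : ∫ x in ball (0 : V n) 1, F (τ • x) ∂μ
      = ∫ x in ball (0 : V n) 1, (fun y => F (u • y)) (‖τ‖ • x) ∂μ := by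
    refine setIntegral_congr_fun measurableSet_ball fun x _ => ?_
    simp only [hτu]
  have hball : ‖τ‖ • ball (0 : V n) 1 = ball (0 : V n) ‖τ‖ := by
    rw [_root_.smul_ball hτ0, smul_zero, norm_norm, mul_one]
  rw [e1, Measure.setIntegral_comp_smul μ (fun y => F (u • y)) _ hτ0, hball,
    setIntegral_rot μ hu1, smul_eq_mul]
  have hint : ∀ r, IntegrableOn F (ball (0 : V n) r) μ := fun r =>
    (hF.continuousOn.integrableOn_compact (isCompact_closedBall 0 r)).mono_set
      ball_subset_closedBall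
  have h3 : ∫ x in ball (0 : V n) (1 / 16), F x ∂μ ≤ ∫ x in ball (0 : V n) ‖τ‖, F x ∂μ :=
    setIntegral_mono_set (hint _) (Eventually.of_forall hF0)
      (LE.le.eventuallyLE (ball_subset_ball h1))
  have h4 : 1 ≤ |(‖τ‖ ^ Module.finrank ℝ (V n))⁻¹| := by
    rw [abs_of_pos (by positivity)]
    exact (one_le_inv₀ (by positivity)).2 (pow_le_one₀ hτ.le h2)
  exact h3.trans (le_mul_of_one_le_left (integral_nonneg hF0) h4)

/-- **`n` variables**: uniform exponential integrability -/
theorem exp_ball : ∃ η C : ℝ, 0 < η ∧ 0 < C ∧ ∀ v : V n → ℝ, ContDiff ℝ ∞ v →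
    (∀ z ∈ closedBall (0 : V n) 1, ∀ w, 0 ≤ lv v z w) →
    (∀ z ∈ closedBall (0 : V n) 1, v z ≤ 0) → -1 ≤ v 0 →
    ∫ z in ball (0 : V n) (1 / 16), Real.exp (-(η * v z)) ∂μ ≤ C := by
  obtain ⟨η, C, hη, hC, H⟩ := exp_one
  have hpi := Real.pi_pos
  set a : ℝ := Real.pi * (1 / 32) ^ 2 with ha
  have ha0 : 0 < a := by positivity
  set m : ℝ := μ.real (ball (0 : V n) 1) with hm
  have hm0 : 0 ≤ m := measureReal_nonneg
  refine ⟨η, a⁻¹ * (C * m) + 1, hη, by positivity, fun v hv hlev hle h0 => ?_⟩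
  have hvc : Continuous v := hv.continuous
  set F : V n → ℝ := fun x => Real.exp (-(η * v x)) with hF
  have hFc : Continuous F := by fun_prop
  have hF0 : ∀ x, 0 ≤ F x := fun x => (Real.exp_pos _).le
  -- the slices
  have hsl : ∀ x ∈ ball (0 : V n) 1, ∫ τ in ball (0 : ℂ) (1 / 8), F (τ • x) ≤ C := by
    intro x hx
    rw [mem_ball_zero_iff] at hx
    have hin : ∀ τ ∈ closedBall (0 : ℂ) 1, τ • x ∈ closedBall (0 : V n) 1 := by
      intro τ hτ
      rw [mem_closedBall_zero_iff] at hτ ⊢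
      rw [norm_smul]
      nlinarith [norm_nonneg τ, norm_nonneg x]
    refine H (fun τ => v (τ • x)) (hv.comp (by fun_prop)) ?_ (fun τ hτ => hle _ (hin τ hτ))
      (by simpa using h0)
    intro τ hτ
    have e := fun a : ℂ => C0d_390.fderiv2_disc (u := v) (z := 0) (v := x) (w := τ)
      (hv.of_le two_le_infty).contDiffAt a
    simp only [zero_add] at e
    rw [lap_fderiv, e, e, one_smul]
    exact hlev _ (hin τ hτ) x
  -- Fubini
  have hcc : Continuous (fun q : V n × ℂ => F (q.2 • q.1)) := hFc.comp (by fun_prop)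
  have hprod : IntegrableOn (fun q : V n × ℂ => F (q.2 • q.1))
      (ball (0 : V n) 1 ×ˢ ball (0 : ℂ) (1 / 8)) (μ.prod volume) :=
    (hcc.continuousOn.integrableOn_compact (μ := μ.prod (volume : Measure ℂ))
      ((isCompact_closedBall (0 : V n) 1).prod (isCompact_closedBall (0 : ℂ) (1 / 8)))).mono_set
      (prod_mono ball_subset_closedBall ball_subset_closedBall)
  rw [IntegrableOn, ← Measure.prod_restrict] at hprod
  have hswap := integral_integral_swap (f := fun (x : V n) (τ : ℂ) => F (τ • x))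
    (μ := μ.restrict (ball (0 : V n) 1)) (ν := volume.restrict (ball (0 : ℂ) (1 / 8))) hprod
  have hfin : μ (ball (0 : V n) 1) ≠ ⊤ := measure_ball_lt_top.ne
  have hL : ∫ x in ball (0 : V n) 1, (∫ τ in ball (0 : ℂ) (1 / 8), F (τ • x)) ∂μ ≤ C * m := by
    have h1 : ∫ x in ball (0 : V n) 1, (∫ τ in ball (0 : ℂ) (1 / 8), F (τ • x)) ∂μ
        ≤ ∫ _x in ball (0 : V n) 1, C ∂μ :=
      setIntegral_mono_on hprod.integral_prod_left (integrableOn_const hfin) measurableSet_ball hsl
    rw [setIntegral_const, smul_eq_mul, mul_comm] at h1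
    exact h1
  set I : ℝ := ∫ x in ball (0 : V n) (1 / 16), F x ∂μ with hI
  have hI0 : 0 ≤ I := integral_nonneg hF0
  have hsub : ball (3 / 32 : ℂ) (1 / 32) ⊆ ball (0 : ℂ) (1 / 8) := by
    refine ball_subset_ball' ?_
    rw [dist_zero_right]
    norm_num
  have hR : a * I ≤ ∫ τ in ball (0 : ℂ) (1 / 8), ∫ x in ball (0 : V n) 1, F (τ • x) ∂μ := by
    have h1 : ∫ _τ in ball (3 / 32 : ℂ) (1 / 32), I
        ≤ ∫ τ in ball (3 / 32 : ℂ) (1 / 32), ∫ x in ball (0 : V n) 1, F (τ • x) ∂μ := by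
      refine setIntegral_mono_on (integrableOn_const measure_ball_lt_top.ne)
        (IntegrableOn.mono_set hprod.integral_prod_right hsub) measurableSet_ball fun τ hτ => ?_
      rw [mem_ball, dist_eq_norm] at hτ
      have h32 : ‖(3 / 32 : ℂ)‖ = 3 / 32 := by norm_num
      refine scale_le μ hFc hF0 ?_ ?_
      · have := norm_sub_norm_le (3 / 32 : ℂ) τ
        rw [norm_sub_rev] at this
        rw [h32] at this
        linarith
      · have := norm_sub_norm_le τ (3 / 32 : ℂ)
        rw [h32] at this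
        linarith
    rw [setIntegral_const, smul_eq_mul, vol_ball _ (by norm_num)] at h1
    refine h1.trans (setIntegral_mono_set hprod.integral_prod_right ?_ (LE.le.eventuallyLE hsub))
    exact Eventually.of_forall fun τ => integral_nonneg fun x => hF0 _
  rw [← hswap] at hR
  have h5 : a * I ≤ C * m := hR.trans hL
  have h6 : I ≤ a⁻¹ * (C * m) := by
    rw [inv_mul_eq_div, le_div_iff₀ ha0, mul_comm]
    exact h5
  linarith

/-! ### quasi-psh functions on a ball of an open set -/

theorem lv_eq (u : V n → ℝ) (z v : V n) : lv u z v = 4 * Levi_145.lev u z v := by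
  unfold lv Levi_145.lev
  ring

theorem lv_congr {u u' : V n → ℝ} {z : V n} (h : u =ᶠ[𝓝 z] u') (v : V n) :
    lv u z v = lv u' z v := by rw [lv_eq, lv_eq, Levi_145.lev_congr h]

theorem lev_sq (z v : V n) : Levi_145.lev (fun x : V n => ‖x‖ ^ 2) z v = ‖v‖ ^ 2 := by
  have e : (fun x : V n => ‖x‖ ^ 2) = Levi_145.sumSq (fun (j : Fin n) (x : V n) => x j) := by
    funext x
    rw [EuclideanSpace.norm_sq_eq]
    rfl
  have hd : ∀ j : Fin n, (fun x : V n => x j) = (EuclideanSpace.proj j : V n →L[ℂ] ℂ) :=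
    fun j => rfl
  have ha : ∀ j : Fin n, AnalyticAt ℂ (fun x : V n => x j) z := fun j => by
    rw [hd]
    exact (EuclideanSpace.proj j : V n →L[ℂ] ℂ).analyticAt z
  rw [e, Levi_145.lev_sumSq ha, EuclideanSpace.norm_sq_eq]
  refine Finset.sum_congr rfl fun j _ => ?_
  rw [hd, ContinuousLinearMap.fderiv]
  rfl

theorem contDiff_sq {k : WithTop ℕ∞} : ContDiff ℝ k (fun x : V n => ‖x‖ ^ 2) :=
  contDiff_norm_sq ℂ

theorem lev_aff {u : V n → ℝ} {z x : V n} {R : ℝ} (hu : ContDiffAt ℝ 2 u (z + R • x)) (w : V n) :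
    Levi_145.lev (fun x => u (z + R • x)) x w = R ^ 2 * Levi_145.lev u (z + R • x) w := by
  have hT : HasFDerivAt (𝕜 := ℂ) (fun x : V n => z + R • x)
      ((R : ℂ) • ContinuousLinearMap.id ℂ (V n)) x := by
    have h := ((hasFDerivAt_id (𝕜 := ℂ) x).const_smul (R : ℂ)).const_add z
    refine h.congr_of_eventuallyEq (Eventually.of_forall fun y => ?_)
    simp
  have hTa : AnalyticAt ℂ (fun x : V n => z + R • x) x := by
    have : (fun x : V n => z + R • x) = fun x : V n => z + (R : ℂ) • x := by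
      funext y; simp
    rw [this]
    fun_prop
  rw [Levi_145.lev_comp hTa hu, hT.fderiv]
  have e : ((R : ℂ) • ContinuousLinearMap.id ℂ (V n)) w = (R : ℂ) • w := rfl
  rw [e, Levi_145.lev_smul hu, Complex.norm_real, Real.norm_eq_abs, sq_abs]

/-- extension of a function which is smooth on a neighbourhood of a closed ball -/
theorem exists_ext {u : V n → ℝ} {U : Set (V n)} (hU : IsOpen U) {z : V n} {R : ℝ} (hR : 0 ≤ R)
    (hsub : closedBall z R ⊆ U) (hu : ContDiffOn ℝ ∞ u U) :
    ∃ u' : V n → ℝ, ContDiff ℝ ∞ u' ∧ ∀ x ∈ closedBall z R, u' =ᶠ[𝓝 x] u := by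
  obtain ⟨δ, hδ, hδU⟩ := (isCompact_closedBall z R).exists_cthickening_subset_open hU hsub
  have hth : closedBall z (R + δ) ⊆ U := by
    rw [cthickening_closedBall hδ.le hR, add_comm] at hδU
    exact hδU
  let χ : ContDiffBump z := ⟨R + δ / 3, R + δ / 2, by positivity, by linarith⟩
  refine ⟨fun x => χ x * u x, ?_, fun x hx => ?_⟩
  · rw [contDiff_iff_contDiffAt]
    intro x
    by_cases hx : x ∈ U
    · exact χ.contDiff.contDiffAt.mul (hu.contDiffAt (hU.mem_nhds hx))
    · have hx' : x ∉ closedBall z (R + δ / 2) := fun h =>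
        hx (hth (closedBall_subset_closedBall (by linarith) h))
      have hev : (fun x => χ x * u x) =ᶠ[𝓝 x] fun _ => 0 := by
        filter_upwards [isClosed_closedBall.isOpen_compl.mem_nhds hx'] with w hw
        have : χ w = 0 := by
          apply χ.zero_of_le_dist
          rw [mem_compl_iff, mem_closedBall] at hw
          push Not at hw
          exact hw.le
        simp [this]
      exact (contDiffAt_const (c := (0 : ℝ))).congr_of_eventuallyEq hev
  · have : closedBall z (R + δ / 3) ∈ 𝓝 x := by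
      refine mem_of_superset (isOpen_ball.mem_nhds ?_) (ball_subset_closedBall (ε := R + δ / 3))
      rw [mem_ball]
      rw [mem_closedBall] at hx
      linarith
    filter_upwards [this] with w hw
    have : χ w = 1 := χ.one_of_mem_closedBall hw
    simp [this]

/-- **quasi-psh functions on a ball**: uniform exponential integrability -/
theorem exp_ball_gen {R Λ c : ℝ} (hR : 0 < R) (hΛ : 0 ≤ Λ) (hc : 0 ≤ c) :
    ∃ η C : ℝ, 0 < η ∧ 0 < C ∧ ∀ (z : V n) (U : Set (V n)) (v : V n → ℝ), IsOpen U →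
    closedBall z R ⊆ U → ContDiffOn ℝ ∞ v U →
    (∀ x ∈ closedBall z R, ∀ w, -(Λ * ‖w‖ ^ 2) ≤ lv v x w) →
    (∀ x ∈ closedBall z R, v x ≤ 0) → -c ≤ v z →
    ∫ x in ball z (R / 16), Real.exp (-(η * v x)) ∂μ ≤ C := by
  obtain ⟨η, C, hη, hC, H⟩ := exp_ball μ (n := n)
  set K : ℝ := c + Λ / 4 * R ^ 2 + 1 with hK
  have hK0 : 0 < K := by positivity
  refine ⟨η / K, R ^ Module.finrank ℝ (V n) * C, by positivity, by positivity,
    fun z U v hU hsub hv hlev hle hz => ?_⟩
  obtain ⟨v1, hv1, hv1e⟩ := exists_ext hU hR.le hsub hv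
  set v2 : V n → ℝ := fun x => K⁻¹ * (v1 (z + R • x) + Λ / 4 * R ^ 2 * (‖x‖ ^ 2 + -1)) with hv2
  have haff : ContDiff ℝ ∞ (fun x : V n => v1 (z + R • x)) := hv1.comp (by fun_prop)
  have hsq : ContDiff ℝ ∞ (fun x : V n => ‖x‖ ^ 2 + -1) := contDiff_sq.add contDiff_const
  have hv2s : ContDiff ℝ ∞ v2 := contDiff_const.mul (haff.add (contDiff_const.mul hsq))
  have hin : ∀ x ∈ closedBall (0 : V n) 1, z + R • x ∈ closedBall z R := by
    intro x hx
    rw [mem_closedBall_zero_iff] at hx
    rw [mem_closedBall, dist_eq_norm, add_sub_cancel_left, norm_smul, Real.norm_eq_abs,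
      abs_of_pos hR]
    nlinarith
  have hval : ∀ x ∈ closedBall (0 : V n) 1, v1 (z + R • x) = v (z + R • x) := fun x hx =>
    (hv1e _ (hin x hx)).eq_of_nhds
  have hK1 : 0 ≤ Λ / 4 * R ^ 2 := by positivity
  have hle2 : ∀ x ∈ closedBall (0 : V n) 1, v2 x ≤ K⁻¹ * v (z + R • x) := by
    intro x hx
    simp only [hv2]
    rw [hval x hx]
    rw [mem_closedBall_zero_iff] at hx
    refine mul_le_mul_of_nonneg_left ?_ (inv_nonneg.2 hK0.le)
    have : ‖x‖ ^ 2 + -1 ≤ 0 := by nlinarith [norm_nonneg x]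
    nlinarith
  have h := H v2 hv2s ?_ ?_ ?_
  · -- change of variables
    have hmono : ∫ x in ball (0 : V n) (1 / 16), Real.exp (-(η / K * v1 (z + R • x))) ∂μ ≤ C := by
      refine (setIntegral_mono_on ?_ ?_ measurableSet_ball fun x hx => ?_).trans h
      · have : Continuous fun x : V n => Real.exp (-(η / K * v1 (z + R • x))) :=
          Real.continuous_exp.comp (haff.continuous.const_mul _).neg
        exact (this.continuousOn.integrableOn_compact (isCompact_closedBall 0 (1 / 16))).mono_set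
          ball_subset_closedBall
      · have : Continuous fun x : V n => Real.exp (-(η * v2 x)) :=
          Real.continuous_exp.comp (hv2s.continuous.const_mul _).neg
        exact (this.continuousOn.integrableOn_compact (isCompact_closedBall 0 (1 / 16))).mono_set
          ball_subset_closedBall
      · have hx1 : x ∈ closedBall (0 : V n) 1 :=
          closedBall_subset_closedBall (by norm_num) (ball_subset_closedBall hx)
        refine Real.exp_le_exp.2 (neg_le_neg ?_)
        have := mul_le_mul_of_nonneg_left (hle2 x hx1) hη.le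
        rw [hval x hx1]
        calc η * v2 x ≤ η * (K⁻¹ * v (z + R • x)) := this
          _ = _ := by ring
    have e1 : ∫ x in ball (0 : V n) (1 / 16), Real.exp (-(η / K * v1 (z + R • x))) ∂μ
        = (R ^ Module.finrank ℝ (V n))⁻¹ *
          ∫ x in ball (0 : V n) (R / 16), Real.exp (-(η / K * v1 (z + x))) ∂μ := by
      have h1 := Measure.setIntegral_comp_smul_of_pos μ
        (fun y : V n => Real.exp (-(η / K * v1 (z + y)))) (ball (0 : V n) (1 / 16)) hR
      rw [_root_.smul_ball hR.ne', smul_zero, Real.norm_eq_abs, abs_of_pos hR,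
        show R * (1 / 16) = R / 16 by ring, smul_eq_mul] at h1
      exact h1
    have e2 : ∫ x in ball (0 : V n) (R / 16), Real.exp (-(η / K * v1 (z + x))) ∂μ
        = ∫ x in ball z (R / 16), Real.exp (-(η / K * v x)) ∂μ := by
      have h1 := (measurePreserving_add_left μ z).setIntegral_preimage_emb
        (measurableEmbedding_addLeft z) (fun x => Real.exp (-(η / K * v1 x))) (ball z (R / 16))
      have h2 : (fun x => z + x) ⁻¹' ball z (R / 16) = ball (0 : V n) (R / 16) := by
        ext x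
        simp
      rw [h2] at h1
      rw [h1]
      refine setIntegral_congr_fun measurableSet_ball fun x hx => ?_
      have hx' : x ∈ closedBall z R :=
        closedBall_subset_closedBall (by linarith) (ball_subset_closedBall hx)
      rw [(hv1e x hx').eq_of_nhds]
    rw [e1, e2, inv_mul_le_iff₀ (by positivity)] at hmono
    exact hmono
  · intro x hx w
    have hx' := hin x hx
    rw [lv_eq]
    have h1 : ContDiffAt ℝ 2 (fun x : V n => v1 (z + R • x)) x :=
      (haff.of_le two_le_infty).contDiffAt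
    have h2 : ContDiffAt ℝ 2 (fun x : V n => ‖x‖ ^ 2 + -1) x :=
      (hsq.of_le two_le_infty).contDiffAt
    have h3 : ContDiffAt ℝ 2 (fun x : V n => Λ / 4 * R ^ 2 * (‖x‖ ^ 2 + -1)) x :=
      contDiffAt_const.mul h2
    have h4 : Levi_145.lev v2 x w = K⁻¹ * (R ^ 2 * Levi_145.lev v (z + R • x) w
        + Λ / 4 * R ^ 2 * ‖w‖ ^ 2) := by
      simp only [hv2]
      rw [Levi_145.lev_const_mul _ (h1.add h3), Levi_145.lev_add h1 h3,
        Levi_145.lev_const_mul _ h2, Levi_145.lev_add (contDiff_sq.contDiffAt) contDiffAt_const,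
        Levi_145.lev_const, lev_sq, add_zero, lev_aff (hv1.of_le two_le_infty).contDiffAt,
        Levi_145.lev_congr (hv1e _ hx')]
    have h5 := hlev _ hx' w
    rw [lv_eq] at h5
    rw [h4]
    have h6 : 0 ≤ R ^ 2 * (4 * Levi_145.lev v (z + R • x) w + Λ * ‖w‖ ^ 2) :=
      mul_nonneg (sq_nonneg R) (by linarith)
    have h7 : 4 * (K⁻¹ * (R ^ 2 * Levi_145.lev v (z + R • x) w + Λ / 4 * R ^ 2 * ‖w‖ ^ 2))
        = K⁻¹ * (R ^ 2 * (4 * Levi_145.lev v (z + R • x) w + Λ * ‖w‖ ^ 2)) := by ring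
    rw [h7]
    exact mul_nonneg (inv_nonneg.2 hK0.le) h6
  · intro x hx
    exact (hle2 x hx).trans (mul_nonpos_of_nonneg_of_nonpos (inv_nonneg.2 hK0.le)
      (hle _ (hin x hx)))
  · have h0 : (0 : V n) ∈ closedBall (0 : V n) 1 := by simp
    have h1 := hval 0 h0
    rw [smul_zero, add_zero] at h1
    simp only [hv2]
    rw [smul_zero, add_zero, h1, norm_zero]
    have h2 : -K ≤ v z + Λ / 4 * R ^ 2 * (0 ^ 2 + -1) := by
      rw [hK]; linarith
    have h3 := mul_le_mul_of_nonneg_left h2 (inv_nonneg.2 hK0.le)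
    rw [mul_neg, inv_mul_cancel₀ hK0.ne'] at h3
    exact h3

end

end Crest.Agent.R273.ExpI2_772
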