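import Crest.Agent.R273.Calc_243
import Crest.Agent.R273.Berezin_505
import Crest.Agent.R275.SerR_398
import Crest.Agent.R275.BrixB_509
import Crest.Agent.R275.Core_144

/-!
# R273 (S0416), Part D, leaf D.3 (helper127)

* `lamN A : FBun A` : the Dolbeault bundle `Λ^{0,*}` for every dimension `n`
  (fibre `Finset (Fin n) → ℂ`, `τ i j = Gam ((conj J i j)ᵀ)`, `α = 0`);
* `pairLamN A : FPair (conj det J) (lamN A) (lamN A)`, `N = n`;
* `pairEN E : DPair (tw (lamN A) E) (tw (lamN A) (KE E))`;
* `BN N : FBun A := tw (lamN A) N.toVB`, `DN N : DPair (BN N) (BN (KB A * N⁻¹))`;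
* `nab_nab_BN`, `BN_exact_iff`, `BN_serre`, `BN_finite`;
* `LamT A : VBun A` : polyvectors `Λ^* T` (all degrees), `g i j = Gam (J j i)`.
-/

set_option autoImplicit false
set_option linter.unusedSectionVars false

open Set Filter Topology Complex
open scoped ContDiff Matrix ComplexConjugate Kronecker

namespace Crest.Agent.R273.LamN127

open Crest.Agent.R275 Crest.Agent.R275.Geo Crest.Agent.R275.Lam2130 Crest.Agent.R275.SerG398
open Crest.Agent.R273.Fock_243 Crest.Agent.R273.Calc_243

noncomputable section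

variable {n : ℕ} {M : Type} [TopologicalSpace M]

/-! ### degrees -/

theorem eW_deg {v : Fin n → ℂ} {S T : FI n} (h : (eW v : Matrix (FI n) (FI n) ℂ) S T ≠ 0) :
    S.card = T.card + 1 := by
  unfold eW Kos798.K at h
  obtain ⟨j, -, hj⟩ := Finset.exists_ne_zero_of_sum_ne_zero h
  by_cases h1 : Kos798.tog S j = T
  · rw [if_pos h1] at hj
    by_cases h2 : j ∈ S
    · rw [← h1, Kos798.tog, if_pos h2, Finset.card_erase_add_one h2]
    · exact absurd (by rw [Kos798.cf, if_neg h2]; simp) hj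
  · exact absurd (if_neg h1) hj

theorem iW_deg {v : Fin n → ℂ} {S T : FI n} (h : (iW v : Matrix (FI n) (FI n) ℂ) S T ≠ 0) :
    T.card = S.card + 1 := by
  refine eW_deg (v := v) ?_
  have h1 : (eW v : Matrix (FI n) (FI n) ℂ) T S = (iW v : Matrix (FI n) (FI n) ℂ) S T := by
    rw [← iW_transpose, Matrix.transpose_apply]
  rwa [h1]

theorem Gam_deg {m : Matrix (Fin n) (Fin n) ℂ} {S T : FI n} (h : Gam m S T ≠ 0) :
    S.card = T.card := by
  by_contra h1
  exact h (Gam_of_ne _ h1)

theorem contDiffOn_Gam {m : Cn n → Matrix (Fin n) (Fin n) ℂ} {U : Set (Cn n)}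
    (hm : ∀ a b, ContDiffOn ℝ ∞ (fun w => m w a b) U) (S T : FI n) :
    ContDiffOn ℝ ∞ (fun w => Gam (m w) S T) U := by
  by_cases h : S.card = T.card
  · have h1 : (fun y => Gam (m y) S T) = fun y =>
        ((m y).submatrix (S.orderEmbOfFin rfl) (T.orderEmbOfFin h.symm)).det := by
      funext y; exact Gam_eq _ _ _
    rw [h1]
    simp only [Matrix.det_apply']
    exact ContDiffOn.sum fun σ _ => contDiffOn_const.mul (contDiffOn_prod fun i _ => hm _ _)
  · have h1 : (fun y => Gam (m y) S T) = fun _ => 0 := by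
      funext y; exact Gam_of_ne _ h
    rw [h1]
    exact contDiffOn_const

/-! ### the Jacobian acting on `(0,1)`-forms -/

/-- the antiholomorphic transition matrix `(conj J)ᵀ` -/
def Jb (A : Atl n M) (i j : A.ι) (x : M) : Matrix (Fin n) (Fin n) ℂ :=
  ((Jm A i j x).map conj)ᵀ

@[simp] theorem Jb_apply (A : Atl n M) (i j : A.ι) (x : M) (a b : Fin n) :
    Jb A i j x a b = conj (A.J i j x b a) := rfl

variable {A : Atl n M}

theorem Jb_self {i : A.ι} {x : M} (hx : x ∈ (A.e i).source) : Jb A i i x = 1 := by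
  unfold Jb
  rw [Jm_self hx, Matrix.map_one _ (map_zero _) (map_one _), Matrix.transpose_one]

theorem Jb_mul {i j k : A.ι} {x : M}
    (hx : x ∈ (A.e i).source ∩ (A.e j).source ∩ (A.e k).source) :
    Jb A i j x * Jb A j k x = Jb A i k x := by
  unfold Jb
  rw [← Matrix.transpose_mul, ← Matrix.map_mul, ← Jm_mul hx]

theorem Jb_mul_inv {i j : A.ι} {x : M} (hx : x ∈ (A.e i).source ∩ (A.e j).source) :
    Jb A i j x * Jb A j i x = 1 := by
  rw [Jb_mul ⟨hx, hx.1⟩, Jb_self hx.1]

theorem det_Jb (i j : A.ι) (x : M) : (Jb A i j x).det = conj (detJ A i j x) := by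
  unfold Jb
  rw [Matrix.det_transpose]
  exact (RingHom.map_det (starRingEnd ℂ) (Jm A i j x)).symm

theorem Jb_smooth (i j : A.ι) (a b : Fin n) :
    ContDiffOn ℝ ∞ (fun z => Jb A i j ((A.e i).symm z) a b) (A.ov i j) :=
  conjCLE.contDiff.comp_contDiffOn (J_smooth i j b a)

theorem db_Jb {i j : A.ι} {x : M} (hx : x ∈ (A.e i).source ∩ (A.e j).source) (a b c : Fin n) :
    A.db i c (fun y => Jb A i j y a b) x = conj (H2 A i j x b a c) := db_conj_J hx b a c

/-- `∑ e_c ∂̄_c Gam (Jb) = 0` -/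
theorem sum_e_db_Gam {i j : A.ι} {x : M} (hx : x ∈ (A.e i).source ∩ (A.e j).source) :
    ∑ c, eW (ep c) * Matrix.of (fun k l => A.db i c (fun y => Gam (Jb A i j y) k l) x) = 0 := by
  have hsm : SmM (A.e i x) (fun w => Jb A i j ((A.e i).symm w)) := fun a b =>
    (Jb_smooth i j a b).contDiffAt ((isOpen_ov i j).mem_nhds (mem_ov hx))
  have key := kahler_e (A := Jb A i j x)
    (fun c => dM I c (fun w => Jb A i j ((A.e i).symm w)) (A.e i x))
    (fun c => dM I c (fun w => Gam (Jb A i j ((A.e i).symm w))) (A.e i x))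
    (fun c b => by
      have h := dM_Gam_eW (s := I) (a := c) hsm b
      rw [(A.e i).left_inv hx.1] at h
      exact h) (fun c S => dM_Gam_vac S)
    (fun c a b => by
      have h1 := db_Jb hx a b c
      have h2 := db_Jb hx c b a
      rw [H2_symm hx] at h2
      exact h1.trans h2.symm)
  exact key

/-! ### the bundle `Λ^{0,*}` -/

/-- the Dolbeault bundle `Λ^{0,*}` of a complex manifold of dimension `n` -/
def lamN (A : Atl n M) : FBun A where
  κ := Finset (Fin n)
  deg := Finset.card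
  e a := eW (ep a)
  io a := iW (ep a)
  e_deg a k l h := eW_deg h
  io_deg a k l h := iW_deg h
  ee a b := eW_anti _ _
  ii a b := iW_anti _ _
  ei a b := by
    rw [add_comm, iW_eW]
    by_cases h : a = b
    · subst h
      simp [Pi.single_apply]
    · simp [Pi.single_apply, h, Ne.symm h]
  τ i j x := Gam (Jb A i j x)
  τ_smooth i j k l := contDiffOn_Gam (fun a b => Jb_smooth i j a b) k l
  τ_deg i j x k l h := Gam_deg h
  τ_self i x hx := by rw [Jb_self hx, Gam_one]
  τ_mul i j k x hx := by rw [← Gam_mul, Jb_mul hx]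
  τ_symb i j x hx b := by
    rw [Gam_eW_ep, eW_eq_sum (fun k => Jb A i j x k b), Finset.sum_mul]
    refine Finset.sum_congr rfl fun a _ => ?_
    rw [Matrix.smul_mul]
    rfl
  α _ _ := 0
  α_smooth _ _ _ := contDiffOn_const
  α_deg _ _ _ _ h := absurd rfl h
  α_tr i j x hx := by
    simp only [zero_mul, add_zero, mul_zero]
    exact sum_e_db_Gam hx

@[simp] theorem lamN_α (i : A.ι) (x : M) : (lamN A).α i x = 0 := rfl
@[simp] theorem lamN_τ (i j : A.ι) (x : M) : (lamN A).τ i j x = Gam (Jb A i j x) := rfl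
@[simp] theorem lamN_e (a : Fin n) : (lamN A).e a = eW (ep a) := rfl
@[simp] theorem lamN_io (a : Fin n) : (lamN A).io a = iW (ep a) := rfl
@[simp] theorem lamN_deg (S : (lamN A).κ) : (lamN A).deg S = Finset.card (α := Fin n) S := rfl

/-! ### duality -/

theorem Gam_univ (m : Matrix (Fin n) (Fin n) ℂ) :
    Gam m Finset.univ Finset.univ = m.det := by
  have hc : (Finset.univ : FI n).card = n := by simp
  rw [Gam_eq m hc hc]
  have h1 : ∀ i, (Finset.univ : FI n).orderEmbOfFin hc i = i := by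
    intro i
    have := Finset.orderEmbOfFin_unique (s := (Finset.univ : FI n)) hc (f := id)
      (fun x => Finset.mem_univ _) strictMono_id
    exact (congrFun this i).symm
  congr 1
  ext a b
  simp [h1]

/-- `Gam(m)ᵀ S Gam(m) = det m • S` -/
theorem Gam_Sb (m : Matrix (Fin n) (Fin n) ℂ) :
    (Gam m)ᵀ * Berezin_505.Sb ℂ n * Gam m = m.det • Berezin_505.Sb ℂ n :=
  Berezin_505.Sb_mult (fun j => Gam_eW m (ep j)) (fun _ _ h => Gam_of_ne m h)
    (by rw [Gam_vac, if_pos rfl]) (Gam_univ m)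

/-- the wedge pairing of `Λ^{0,*}` (with the sign of the parity operator) -/
def pairLamN (A : Atl n M) : FPair (fun i j x => conj (detJ A i j x)) (lamN A) (lamN A) where
  N := n
  S := Berezin_505.Sb ℂ n
  Si := Berezin_505.Sbi ℂ n
  S_Si := Berezin_505.Sb_mul_Sbi
  Si_S := Berezin_505.Sbi_mul_Sb
  degree _ _ h := Berezin_505.Sb_degree h
  mult i j x _ := by
    rw [← det_Jb]
    exact Gam_Sb _
  e_skew a := Berezin_505.Sb_skew _ _
  io_skew a := Berezin_505.Sb_skew _ _
  al i x _ := by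
    show (0 : Matrix (Finset (Fin n)) (Finset (Fin n)) ℂ)ᵀ * Berezin_505.Sb ℂ n
      = Berezin_505.Sb ℂ n * (0 : Matrix (Finset (Fin n)) (Finset (Fin n)) ℂ)
    rw [Matrix.transpose_zero, Matrix.zero_mul, Matrix.mul_zero]

@[simp] theorem pairLamN_N : (pairLamN A).N = n := rfl
@[simp] theorem pairLamN_S : (pairLamN A).S = Berezin_505.Sb ℂ n := rfl
@[simp] theorem pairLamN_Si : (pairLamN A).Si = Berezin_505.Sbi ℂ n := rfl

/-- Serre duality pair, every dimension, `E' = K ⊗ E*` -/
def pairEN (E : VBun A) : DPair (Geo.tw (lamN A) E) (Geo.tw (lamN A) (KE E)) :=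
  ((pairLamN A).tw (pairV E)).congr fun i j x _ => by
    rw [dens_eq, mul_comm]

@[simp] theorem pairEN_N (E : VBun A) : (pairEN E).N = n := rfl

/-! ### line bundles -/

open Core144

/-- forms of type `(0,*)` with values in the line bundle `N` -/
def BN (N : LB A) : FBun A := Geo.tw (lamN A) N.toVB

@[simp] theorem BN_κ (N : LB A) : (BN N).κ = (Finset (Fin n) × Unit) := rfl
@[simp] theorem BN_deg (N : LB A) (k : (BN N).κ) :
    (BN N).deg k = Finset.card (α := Fin n) k.1 := rfl

/-- the pairing `N ⊗ (K ⊗ N⁻¹) → K` -/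
def pairN (N : LB A) : VPair (detJ A) N.toVB (KB A * N⁻¹).toVB where
  S := (1 : Matrix Unit Unit ℂ)
  Si := (1 : Matrix Unit Unit ℂ)
  S_Si := Matrix.one_mul _
  Si_S := Matrix.one_mul _
  mult i j x hx := by
    have h1 : (detJ A i j x) = (KB A).g i j x := (KB_g hx).symm
    have h2 := N.ne_zero i j x
    have h3 : ((Matrix.of fun _ _ => N.g i j x : Matrix Unit Unit ℂ))ᵀ * (1 : Matrix Unit Unit ℂ) *
        (Matrix.of fun _ _ => (KB A).g i j x * (N.g i j x)⁻¹ : Matrix Unit Unit ℂ)
          = detJ A i j x • (1 : Matrix Unit Unit ℂ) := by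
      ext a b
      rw [Matrix.mul_one, Matrix.mul_apply, h1]
      simp only [Finset.univ_unique, Finset.sum_singleton, Matrix.transpose_apply,
        Matrix.of_apply, Matrix.smul_apply, smul_eq_mul]
      rw [Matrix.one_apply, if_pos (Subsingleton.elim _ _)]
      field_simp
    exact h3
  a_skew i b x _ := by
    have h3 : (0 : Matrix Unit Unit ℂ)ᵀ * (1 : Matrix Unit Unit ℂ)
        + (1 : Matrix Unit Unit ℂ) * (0 : Matrix Unit Unit ℂ) = 0 := by simp
    exact h3

/-- Serre duality pair of a line bundle -/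
def DN (N : LB A) : DPair (BN N) (BN (KB A * N⁻¹)) :=
  ((pairLamN A).tw (pairN N)).congr fun i j x _ => by
    rw [dens_eq, mul_comm]

@[simp] theorem DN_N (N : LB A) : (DN N).N = n := rfl

/-- the connection form of `BN` vanishes -/
theorem BN_α (N : LB A) : ∀ i, ∀ x ∈ (A.e i).source, (BN N).α i x = 0 :=
  Brix509.tw_alpha_zero (fun _ _ _ => rfl) fun _ _ _ _ => rfl

/-- `∂̄² = 0` on `Λ^{0,*} ⊗ E` for a holomorphic `E` -/
theorem nab_nab {E : VBun A} (ha : ∀ i a, ∀ x ∈ (A.e i).source, E.a i a x = 0)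
    (u : Sec (Geo.tw (lamN A) E)) : nabL _ (nabL _ u) = 0 :=
  Brix509.nabL_nabL_zero (Brix509.tw_alpha_zero (fun _ _ _ => rfl) ha) u

theorem nab_nab_BN (N : LB A) (u : Sec (BN N)) : nabL (BN N) (nabL (BN N) u) = 0 :=
  Brix509.nabL_nabL_zero (BN_α N) u

/-! ### polyvectors -/

theorem Jr_holo (i j : A.ι) (b a : Fin n) :
    DifferentiableOn ℂ (fun z => A.J j i ((A.e i).symm z) b a) (A.ov i j) := by
  have h := (holAt_J (A := A) j i b a).chg (A.e i).open_source i
  refine DifferentiableOn.mono h fun z hz => ?_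
  exact ⟨hz.1, (A.e i).map_target hz.1, hz.2⟩

theorem diffOn_Gam {m : Cn n → Matrix (Fin n) (Fin n) ℂ} {U : Set (Cn n)}
    (hm : ∀ a b, DifferentiableOn ℂ (fun w => m w a b) U) (S T : FI n) :
    DifferentiableOn ℂ (fun w => Gam (m w) S T) U := by
  by_cases h : S.card = T.card
  · have h1 : (fun y => Gam (m y) S T) = fun y =>
        ((m y).submatrix (S.orderEmbOfFin rfl) (T.orderEmbOfFin h.symm)).det := by
      funext y; exact Gam_eq _ _ _
    rw [h1]
    simp only [Matrix.det_apply']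
    refine DifferentiableOn.fun_sum fun σ _ => DifferentiableOn.const_mul ?_ _
    have key : ∀ s : Finset (Fin S.card), DifferentiableOn ℂ (fun z => ∏ i ∈ s,
        (m z).submatrix (S.orderEmbOfFin rfl) (T.orderEmbOfFin h.symm) (σ i) i) U := by
      intro s
      induction s using Finset.induction_on with
      | empty => simp only [Finset.prod_empty]; exact differentiableOn_const _
      | insert a s ha ih => simp only [Finset.prod_insert ha]; exact (hm _ _).mul ih
    exact key Finset.univ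
  · have h1 : (fun y => Gam (m y) S T) = fun _ => 0 := by
      funext y; exact Gam_of_ne _ h
    rw [h1]
    exact differentiableOn_const _

/-- polyvectors `Λ^* T` (all degrees together); components with respect to `∂/∂z_S` -/
def LamT (A : Atl n M) : VBun A :=
  ofHolo (Finset (Fin n)) (fun i j x => Gam (Lam2130.Jm A j i x))
    (fun i j k l => diffOn_Gam (fun a b => Jr_holo i j a b) k l)
    (fun i x hx => by rw [Jm_self hx, Gam_one])
    (fun i j k x hx => by
      rw [← Gam_mul, ← Jm_mul ⟨⟨hx.2, hx.1.2⟩, hx.1.1⟩])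

@[simp] theorem LamT_g (i j : A.ι) (x : M) : (LamT A).g i j x = Gam (Lam2130.Jm A j i x) := rfl
@[simp] theorem LamT_a (i : A.ι) (b : Fin n) (x : M) : (LamT A).a i b x = 0 := rfl

section compact

variable [CompactSpace M] [T2Space M] [Finite A.ι]

/-- **orthogonality criterion for exactness** -/
theorem BN_exact_iff (P : Part A) (N : LB A) {q : ℕ} {z : Sec (BN N)} (hq : q ≤ n)
    (hz : Geo.pqL (BN N) q z = z) :
    (∃ v, nabL (BN N) v = z) ↔
      ∀ w : Sec (BN (KB A * N⁻¹)), nabL _ w = 0 → Geo.pqL _ (n - q) w = w →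
        Pai323.pr (DN N) P z w = 0 :=
  exact_iff P (DN N) (nab_nab_BN N) (rz P _) (rz P _) hq hz

/-- **Serre duality** -/
theorem BN_serre (P : Part A) (N : LB A) {q : ℕ} (hq : q ≤ n) :
    hB (BN N) q = hB (BN (KB A * N⁻¹)) (n - q) :=
  serre P (DN N) (nab_nab_BN N) (rz P _) (rz P _) hq

theorem BN_finite (P : Part A) (N : LB A) (q : ℕ) : FinS (Zd (BN N) q) (Bd (BN N) q) :=
  finite_HB P (DN N) (nab_nab_BN N) (rz P _) (rz P _) q

end compact

end

end Crest.Agent.R273.LamN127
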