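import Crest.Agent.R182.GromovMilnor

/-!
# R273 (S0416), Part B, leaf MAXQ (helper127), group part A

* `exists_pi` : a finitely generated group has a surjection `π` onto `ℤ^r` such that every element
  of `ker π` has a power in the commutator subgroup;
* `rank_le` : `r ≤ d` if the growth is polynomial of degree `d`;
* `HomR Γ` : the real vector space of homomorphisms `Γ → ℝ`, `finrank_le`;
* `norm_le_one_of_growth` : Milnor's argument for eigenvalues;
* `root_of_unity` : Kronecker for integer matrices;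
* `exists_common` : common eigenvector of commuting matrices.
-/

set_option autoImplicit false

open Multiplicative

namespace Crest.Agent.R273.Max127

open Crest.Agent.R182.Gromov Crest.Agent.R182.GromovMilnor

/-! ### the maximal free abelian quotient -/

section Pi

variable {Γ : Type*} [Group Γ]

/-- maximal free abelian quotient -/
theorem exists_pi (Γ : Type*) [Group Γ] [Group.FG Γ] :
    ∃ (r : ℕ) (π : Γ →* Multiplicative (Fin r → ℤ)), Function.Surjective π ∧
      ∀ x, π x = 1 → ∃ n : ℕ, 0 < n ∧ x ^ n ∈ commutator Γ := by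
  let M := Additive (Abelianization Γ)
  have hfg : Module.Finite ℤ M := by
    have h1 : Group.FG (Abelianization Γ) := Group.fg_of_surjective (f := Abelianization.of)
      (QuotientGroup.mk'_surjective _)
    exact Module.Finite.iff_addGroup_fg.2 (AddGroup.fg_iff_mul_fg.2 h1)
  obtain ⟨n, b⟩ : Σ n : ℕ, Module.Basis (Fin n) ℤ (M ⧸ Submodule.torsion ℤ M) :=
    Module.basisOfFiniteTypeTorsionFree'
  let c : M →+ (Fin n → ℤ) :=
    (b.equivFun.toAddEquiv.toAddMonoidHom).comp
      (Submodule.mkQ (Submodule.torsion ℤ M)).toAddMonoidHom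
  let π : Γ →* Multiplicative (Fin n → ℤ) :=
    (AddMonoidHom.toMultiplicativeRight (α := Abelianization Γ) c).comp Abelianization.of
  have hπ : ∀ x, toAdd (π x) = b.equivFun (Submodule.Quotient.mk
      (Additive.ofMul (Abelianization.of x) : M)) := fun x => rfl
  refine ⟨n, π, ?_, ?_⟩
  · intro v
    obtain ⟨m, hm⟩ := b.equivFun.surjective (toAdd v)
    obtain ⟨m', rfl⟩ := Submodule.Quotient.mk_surjective _ m
    obtain ⟨x, hx⟩ := QuotientGroup.mk'_surjective (commutator Γ) (Additive.toMul m')
    refine ⟨x, ?_⟩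
    apply toAdd.injective
    rw [hπ, ← hm]
    have : (Additive.ofMul (Abelianization.of x) : M) = m' := by
      apply Additive.toMul.injective
      exact hx
    rw [this]
  · intro x hx
    have h1 : b.equivFun (Submodule.Quotient.mk
        (Additive.ofMul (Abelianization.of x) : M)) = 0 := by
      rw [← hπ, hx]; rfl
    have h2 : (Submodule.Quotient.mk (Additive.ofMul (Abelianization.of x) : M) :
        M ⧸ Submodule.torsion ℤ M) = 0 := by
      rwa [LinearEquiv.map_eq_zero_iff] at h1
    rw [Submodule.Quotient.mk_eq_zero] at h2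
    obtain ⟨⟨a, ha⟩, h⟩ := h2
    have ha0 : a ≠ 0 := nonZeroDivisors.ne_zero ha
    have h3 : (Abelianization.of x) ^ a = 1 := h
    have h4 : (Abelianization.of x) ^ a.natAbs = 1 := by
      rcases Int.natAbs_eq a with h | h
      · rw [h, zpow_natCast] at h3; exact h3
      · rw [h, zpow_neg, zpow_natCast, inv_eq_one] at h3; exact h3
    rw [← map_pow] at h4
    exact ⟨a.natAbs, Int.natAbs_pos.2 ha0, (QuotientGroup.eq_one_iff _).1 h4⟩

/-- a homomorphism to a torsion free commutative group kills the kernel of `π` -/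
theorem kill {A : Type*} [CommGroup A] [IsMulTorsionFree A] (f : Γ →* A) {x : Γ} {n : ℕ}
    (hn : 0 < n) (hx : x ^ n ∈ commutator Γ) : f x = 1 := by
  have h1 : f (x ^ n) = 1 := (Abelianization.commutator_subset_ker f) hx
  rw [map_pow] at h1
  exact (pow_eq_one_iff_left hn.ne').1 h1

variable {r : ℕ} {π : Γ →* Multiplicative (Fin r → ℤ)}

/-- coordinates of a homomorphism: `f x = Σ_i π(x)_i f(p_i)` -/
theorem expand {E : Type*} [AddCommGroup E] [IsAddTorsionFree E]
    (hπ : ∀ x, π x = 1 → ∃ n : ℕ, 0 < n ∧ x ^ n ∈ commutator Γ) {p : Fin r → Γ}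
    (hp : ∀ i, toAdd (π (p i)) = Pi.single i 1) (f : Γ →* Multiplicative E) (x : Γ) :
    toAdd (f x) = ∑ i, toAdd (π x) i • toAdd (f (p i)) := by
  classical
  -- the element `y = ∏ p_i^{π(x)_i}` in the abelianisation
  let F : Abelianization Γ →* Multiplicative E := Abelianization.lift f
  let Pi' : Abelianization Γ →* Multiplicative (Fin r → ℤ) := Abelianization.lift π
  let Y : Abelianization Γ := ∏ i, (Abelianization.of (p i)) ^ (toAdd (π x) i)
  obtain ⟨y, hy⟩ := QuotientGroup.mk'_surjective (commutator Γ) Y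
  have hy' : Abelianization.of y = ∏ i, (Abelianization.of (p i)) ^ (toAdd (π x) i) := hy
  have h1 : π y = π x := by
    have h2 : π y = Pi' (Abelianization.of y) := (Abelianization.lift_apply_of π y).symm
    rw [h2, hy', map_prod]
    have h3 : ∀ i, Pi' ((Abelianization.of (p i)) ^ (toAdd (π x) i)) =
        ofAdd (Pi.single i (toAdd (π x) i)) := by
      intro i
      rw [map_zpow]
      have h4 : Pi' (Abelianization.of (p i)) = π (p i) := Abelianization.lift_apply_of π _
      rw [h4]
      apply toAdd.injective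
      rw [toAdd_zpow, hp i, toAdd_ofAdd]
      ext j
      simp [Pi.single_apply]
    rw [Finset.prod_congr rfl fun i _ => h3 i]
    apply toAdd.injective
    rw [toAdd_prod]
    ext j
    simp [Finset.sum_apply, Pi.single_apply]
  have h5 : f y = f x := by
    have h6 : π (x * y⁻¹) = 1 := by rw [map_mul, map_inv, h1, mul_inv_cancel]
    obtain ⟨n, hn, hmem⟩ := hπ _ h6
    have h7 : f (x * y⁻¹) = 1 := kill f hn hmem
    rw [map_mul, map_inv, mul_inv_eq_one] at h7
    exact h7.symm
  have h8 : f y = F (Abelianization.of y) := (Abelianization.lift_apply_of f y).symm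
  rw [← h5, h8, hy', map_prod, toAdd_prod]
  refine Finset.sum_congr rfl fun i _ => ?_
  rw [map_zpow, toAdd_zpow]
  have h9 : F (Abelianization.of (p i)) = f (p i) := Abelianization.lift_apply_of f _
  rw [h9]

theorem exists_basis (hs : Function.Surjective π) :
    ∃ p : Fin r → Γ, ∀ i, toAdd (π (p i)) = Pi.single i 1 := by
  choose p hp using fun i : Fin r => hs (ofAdd (Pi.single i 1))
  exact ⟨p, fun i => by rw [hp i]; rfl⟩

/-! ### growth bound -/

theorem pow_le_imp (C L d r : ℕ) (h : ∀ k : ℕ, (k + 1) ^ r ≤ C * (k * L + 1) ^ d) : r ≤ d := by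
  by_contra hlt
  push Not at hlt
  have h1 : ∀ k : ℕ, (k + 1) ≤ C * (L + 1) ^ d := by
    intro k
    have h2 := h k
    have h3 : k * L + 1 ≤ (k + 1) * (L + 1) := by nlinarith
    have h4 : (k * L + 1) ^ d ≤ ((k + 1) * (L + 1)) ^ d := Nat.pow_le_pow_left h3 d
    have h5 : (k + 1) ^ (d + 1) ≤ (k + 1) ^ r := Nat.pow_le_pow_right (by omega) hlt
    have h6 : (k + 1) ^ (d + 1) ≤ C * ((k + 1) * (L + 1)) ^ d :=
      h5.trans (h2.trans (Nat.mul_le_mul_left C h4))
    rw [mul_pow, pow_succ] at h6
    have h7 : (k + 1) ^ d * (k + 1) ≤ (k + 1) ^ d * (C * (L + 1) ^ d) := by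
      calc (k + 1) ^ d * (k + 1) ≤ C * ((k + 1) ^ d * (L + 1) ^ d) := h6
        _ = (k + 1) ^ d * (C * (L + 1) ^ d) := by ring
    exact Nat.le_of_mul_le_mul_left h7 (by positivity)
  have := h1 (C * (L + 1) ^ d)
  omega

theorem rank_le {l : Γ → ℕ} {C d : ℕ} (hl : PolyLen l C d) (hs : Function.Surjective π) :
    r ≤ d := by
  classical
  obtain ⟨p, hp⟩ := exists_basis hs
  let w : (Fin r → ℕ) → Γ := fun a => (List.ofFn fun i => p i ^ a i).prod
  set L := ∑ i, l (p i) with hL
  refine pow_le_imp C L d r fun k => ?_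
  have hlen : ∀ a : Fin r → ℕ, (∀ i, a i ≤ k) → l (w a) ≤ k * L := by
    intro a ha
    refine (hl.list_prod _).trans ?_
    rw [List.map_ofFn, List.sum_ofFn, hL, Finset.mul_sum]
    refine Finset.sum_le_sum fun i _ => ?_
    exact (hl.pow _ _).trans (Nat.mul_le_mul_right _ (ha i))
  have hinj : Function.Injective w := by
    intro a b hab
    have key : ∀ a : Fin r → ℕ, toAdd (π (w a)) = fun j => (a j : ℤ) := by
      intro a
      have h1 : π (w a) = (List.ofFn fun i => π (p i) ^ a i).prod := by
        change π ((List.ofFn fun i => p i ^ a i).prod) = _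
        rw [map_list_prod, List.map_ofFn]
        congr 1
        congr 1
        funext i
        exact map_pow _ _ _
      rw [h1, List.prod_ofFn, toAdd_prod]
      ext j
      rw [Finset.sum_apply, Finset.sum_eq_single j]
      · rw [toAdd_pow, hp]; simp
      · intro i _ hij
        rw [toAdd_pow, hp]; simp [hij.symm]
      · simp
    have h2 := key a
    rw [hab, key b] at h2
    funext j
    have := congrFun h2 j
    exact_mod_cast this.symm
  let S : Finset (Fin r → ℕ) := Fintype.piFinset fun _ => Finset.range (k + 1)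
  have hS : S.card = (k + 1) ^ r := by simp [S]
  have h3 : ((w '' (S : Set (Fin r → ℕ))).ncard) = (k + 1) ^ r := by
    rw [Set.ncard_image_of_injective _ hinj, Set.ncard_coe_finset, hS]
  have h4 : (w '' (S : Set (Fin r → ℕ))) ⊆ {g : Γ | l g ≤ k * L} := by
    rintro _ ⟨a, ha, rfl⟩
    refine hlen a fun i => ?_
    have := Fintype.mem_piFinset.1 ha i
    rw [Finset.mem_range] at this
    omega
  have h5 := Set.ncard_le_ncard h4 (hl.fin _)
  rw [h3] at h5
  exact h5.trans (hl.card _)

end Pi

/-! ### real homomorphisms -/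

section HomR

/-- the real vector space of homomorphisms `Γ → ℝ` -/
def HomR (Γ : Type*) [Group Γ] : Submodule ℝ (Γ → ℝ) where
  carrier := {f | ∀ x y, f (x * y) = f x + f y}
  add_mem' := by
    intro f g hf hg x y
    simp only [Pi.add_apply]
    rw [hf, hg]; ring
  zero_mem' := by intro x y; simp
  smul_mem' := by
    intro c f hf x y
    simp only [Pi.smul_apply, smul_eq_mul]
    rw [hf]; ring

variable {Γ : Type*} [Group Γ]

theorem mem_HomR {f : Γ → ℝ} : f ∈ HomR Γ ↔ ∀ x y, f (x * y) = f x + f y := Iff.rfl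

/-- as a homomorphism -/
def toH (f : HomR Γ) : Γ →* Multiplicative ℝ where
  toFun x := ofAdd ((f : Γ → ℝ) x)
  map_one' := by
    have h := f.2 1 1
    have h1 : (f : Γ → ℝ) 1 = 0 := by
      rw [mul_one] at h; linarith
    rw [h1]; rfl
  map_mul' x y := by rw [f.2 x y]; rfl

@[simp] theorem toAdd_toH (f : HomR Γ) (x : Γ) : toAdd (toH f x) = (f : Γ → ℝ) x := rfl

/-- from a homomorphism -/
def ofH (f : Γ →* Multiplicative ℝ) : HomR Γ :=
  ⟨fun x => toAdd (f x), fun x y => by
    change toAdd (f (x * y)) = _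
    rw [map_mul]; rfl⟩

@[simp] theorem ofH_apply (f : Γ →* Multiplicative ℝ) (x : Γ) :
    (ofH f : Γ → ℝ) x = toAdd (f x) := rfl

theorem HomR.one (f : HomR Γ) : (f : Γ → ℝ) 1 = 0 := by
  have := toAdd_toH f 1
  rw [map_one] at this
  exact this.symm

theorem HomR.pow (f : HomR Γ) (x : Γ) (n : ℕ) : (f : Γ → ℝ) (x ^ n) = n * (f : Γ → ℝ) x := by
  have := toAdd_toH f (x ^ n)
  rw [map_pow, toAdd_pow, toAdd_toH, nsmul_eq_mul] at this
  exact this.symm

variable {r : ℕ} {π : Γ →* Multiplicative (Fin r → ℤ)}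

/-- evaluation on the generators -/
def evp (p : Fin r → Γ) : HomR Γ →ₗ[ℝ] (Fin r → ℝ) where
  toFun f i := (f : Γ → ℝ) (p i)
  map_add' _ _ := rfl
  map_smul' _ _ := rfl

theorem evp_injective (hπ : ∀ x, π x = 1 → ∃ n : ℕ, 0 < n ∧ x ^ n ∈ commutator Γ) {p : Fin r → Γ}
    (hp : ∀ i, toAdd (π (p i)) = Pi.single i 1) : Function.Injective (evp p) := by
  intro f g hfg
  apply Subtype.ext
  funext x
  have h1 := expand hπ hp (toH f) x
  have h2 := expand hπ hp (toH g) x
  rw [toAdd_toH] at h1 h2
  rw [h1, h2]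
  refine Finset.sum_congr rfl fun i _ => ?_
  rw [toAdd_toH, toAdd_toH]
  have := congrFun hfg i
  change (f : Γ → ℝ) (p i) = (g : Γ → ℝ) (p i) at this
  rw [this]

instance [Group.FG Γ] : FiniteDimensional ℝ (HomR Γ) := by
  obtain ⟨r, π, hs, hπ⟩ := exists_pi Γ
  obtain ⟨p, hp⟩ := exists_basis hs
  exact FiniteDimensional.of_injective (evp p) (evp_injective hπ hp)

theorem finrank_le [Group.FG Γ] {l : Γ → ℕ} {C d : ℕ} (hl : PolyLen l C d) :
    Module.finrank ℝ (HomR Γ) ≤ d := by
  obtain ⟨r, π, hs, hπ⟩ := exists_pi Γ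
  obtain ⟨p, hp⟩ := exists_basis hs
  have h1 := LinearMap.finrank_le_finrank_of_injective (f := evp p) (evp_injective hπ hp)
  rw [Module.finrank_fin_fun] at h1
  exact h1.trans (rank_le hl hs)

end HomR

end Crest.Agent.R273.Max127
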