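import Crest.Agent.R273.MaxA_127

/-!
# R273 (S0416), Part B, leaf MAXQ (helper127), group part B

* `norm_le_one` : Milnor's growth argument for eigenvalues of conjugation;
* `kronecker` : integer matrices all of whose eigenvalues have modulus at most one;
* `exists_common` : common eigenvector of a commuting family;
* `exists_inv` : `P'` normal, finitely generated, `Γ/P'` commutative, growth polynomial, `P'` has a
  nontrivial homomorphism to `ℝ` ⇒ some finite index `Δ ≥ P'` fixes a nontrivial homomorphism;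
* `exists_ext` : extension of homomorphisms to `ℝ`.
-/

set_option autoImplicit false

open Multiplicative

namespace Crest.Agent.R273.Max127

open Crest.Agent.R182.Gromov Crest.Agent.R182.GromovMilnor

/-! ### Milnor's argument -/

section Milnor

variable {Γ : Type*} [Group Γ]

theorem geom_lt {a : ℝ} (ha : 2 ≤ a) (m : ℕ) : ∑ i ∈ Finset.range m, a ^ i < a ^ m := by
  induction m with
  | zero => simp
  | succ m ih =>
    rw [Finset.sum_range_succ, pow_succ]
    have : 0 < a ^ m := by positivity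
    nlinarith

variable (P : Subgroup Γ) (F : Γ → ℂ) (t e : Γ) (α : ℂ)

/-- an additive function on `P`, with `F (t x t⁻¹) = α F x` -/
structure Twist : Prop where
  add : ∀ x ∈ P, ∀ y ∈ P, F (x * y) = F x + F y
  mem : ∀ x ∈ P, t * x * t⁻¹ ∈ P
  tw : ∀ x ∈ P, F (t * x * t⁻¹) = α * F x
  he : e ∈ P
  ne : F e ≠ 0

variable {P F t e α}

theorem Twist.one (h : Twist P F t e α) : F 1 = 0 := by
  have := h.add 1 P.one_mem 1 P.one_mem
  rw [mul_one] at this
  simpa using this

theorem Twist.cj (h : Twist P F t e α) (j : ℕ) : cj t e j ∈ P ∧ F (cj t e j) = α ^ j * F e := by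
  induction j with
  | zero => simp [R182.GromovMilnor.cj, h.he]
  | succ j ih =>
    have h1 : R182.GromovMilnor.cj t e (j + 1) = t * R182.GromovMilnor.cj t e j * t⁻¹ := by
      unfold R182.GromovMilnor.cj; rw [pow_succ']; group
    rw [h1]
    refine ⟨h.mem _ ih.1, ?_⟩
    rw [h.tw _ ih.1, ih.2, pow_succ]; ring

theorem Twist.W_sub (h : Twist P F t e α) (m : ℕ) : ∀ w ∈ W t e m, w ∈ P := by
  induction m with
  | zero =>
    intro w hw
    rw [W, Set.mem_singleton_iff] at hw
    rw [hw]; exact P.one_mem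
  | succ m ih =>
    rintro w (hw | ⟨v, hv, rfl⟩)
    · exact ih w hw
    · exact P.mul_mem (ih v hv) (h.cj m).1

theorem Twist.dist (h : Twist P F t e α) (m : ℕ) : ∀ w ∈ W t e m, ∀ v ∈ W t e m,
    ‖F w - F v‖ ≤ (∑ i ∈ Finset.range m, ‖α‖ ^ i) * ‖F e‖ := by
  induction m with
  | zero =>
    intro w hw v hv
    rw [W, Set.mem_singleton_iff] at hw hv
    rw [hw, hv]; simp
  | succ m ih =>
    have hc : ‖F (R182.GromovMilnor.cj t e m)‖ = ‖α‖ ^ m * ‖F e‖ := by
      rw [(h.cj m).2, norm_mul, norm_pow]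
    have hadd : ∀ w ∈ W t e m, F (w * R182.GromovMilnor.cj t e m) = F w + F (R182.GromovMilnor.cj t e m) :=
      fun w hw => h.add _ (h.W_sub m w hw) _ (h.cj m).1
    have h0 : 0 ≤ ‖α‖ ^ m * ‖F e‖ := by positivity
    rw [Finset.sum_range_succ, add_mul]
    rintro w (hw | ⟨w, hw, rfl⟩) v (hv | ⟨v, hv, rfl⟩)
    · have := ih w hw v hv; linarith
    · rw [hadd v hv]
      have h1 := ih w hw v hv
      have h2 : F w - (F v + F (R182.GromovMilnor.cj t e m)) =
        (F w - F v) - F (R182.GromovMilnor.cj t e m) := by ring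
      rw [h2]
      have h3 := norm_sub_le (F w - F v) (F (R182.GromovMilnor.cj t e m))
      rw [hc] at h3
      linarith
    · rw [hadd w hw]
      have h1 := ih w hw v hv
      have h2 : (F w + F (R182.GromovMilnor.cj t e m)) - F v =
        (F w - F v) + F (R182.GromovMilnor.cj t e m) := by ring
      rw [h2]
      have h3 := norm_add_le (F w - F v) (F (R182.GromovMilnor.cj t e m))
      rw [hc] at h3
      linarith
    · rw [hadd w hw, hadd v hv]
      have h1 := ih w hw v hv
      have h2 : (F w + F (R182.GromovMilnor.cj t e m)) - (F v + F (R182.GromovMilnor.cj t e m)) =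
        (F w - F v) := by ring
      rw [h2]
      linarith

theorem Twist.card (h : Twist P F t e α) (hα : 2 ≤ ‖α‖) (m : ℕ) :
    (W t e m).ncard = 2 ^ m := by
  induction m with
  | zero => simp [W]
  | succ m ih =>
    rw [W, Set.ncard_union_eq ?_ (W_finite t e m) ((W_finite t e m).image _),
      Set.ncard_image_of_injective _ (mul_left_injective _), ih, pow_succ]
    · ring
    · rw [Set.disjoint_left]
      rintro x hx ⟨w, hw, rfl⟩
      have h1 := h.dist m _ hx w hw
      have h2 : F (w * R182.GromovMilnor.cj t e m) = F w + F (R182.GromovMilnor.cj t e m) :=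
        h.add _ (h.W_sub m w hw) _ (h.cj m).1
      have h3 : F (w * R182.GromovMilnor.cj t e m) - F w = F (R182.GromovMilnor.cj t e m) := by
        rw [h2]; ring
      change ‖F (w * R182.GromovMilnor.cj t e m) - F w‖ ≤ _ at h1
      rw [h3, (h.cj m).2, norm_mul, norm_pow] at h1
      have h4 : 0 < ‖F e‖ := norm_pos_iff.2 h.ne
      have h5 := le_of_mul_le_mul_right h1 h4
      have h6 := geom_lt hα m
      linarith

theorem Twist.lt_two (h : Twist P F t e α) {l : Γ → ℕ} {C d : ℕ} (hl : PolyLen l C d) :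
    ‖α‖ < 2 := by
  by_contra hα
  push Not at hα
  obtain ⟨m, hm⟩ := exists_lt_two_pow C (l e + l t) d
  have h1 := h.card hα m
  have h2 : (W t e m).ncard ≤ {g : Γ | l g ≤ m * (l e + l t)}.ncard := by
    refine Set.ncard_le_ncard_of_injOn (fun w => w * t ^ m) ?_ ?_ (hl.fin _)
    · intro w hw
      exact W_len hl t e m w hw
    · intro a _ b _ hab
      exact mul_right_cancel hab
  have h3 := hl.card (m * (l e + l t))
  omega

theorem Twist.pow (h : Twist P F t e α) (k : ℕ) : Twist P F (t ^ k) e (α ^ k) := by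
  have key : ∀ k : ℕ, ∀ x ∈ P, t ^ k * x * (t ^ k)⁻¹ ∈ P ∧
      F (t ^ k * x * (t ^ k)⁻¹) = α ^ k * F x := by
    intro k
    induction k with
    | zero => intro x hx; simp [hx]
    | succ k ih =>
      intro x hx
      have h1 : t ^ (k + 1) * x * (t ^ (k + 1))⁻¹ = t * (t ^ k * x * (t ^ k)⁻¹) * t⁻¹ := by
        rw [pow_succ']; group
      rw [h1]
      have h2 := ih x hx
      refine ⟨h.mem _ h2.1, ?_⟩
      rw [h.tw _ h2.1, h2.2, pow_succ]; ring
  exact ⟨h.add, fun x hx => (key k x hx).1, fun x hx => (key k x hx).2, h.he, h.ne⟩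

/-- **Milnor's argument**: the eigenvalues of conjugation have modulus at most one -/
theorem Twist.norm_le_one (h : Twist P F t e α) {l : Γ → ℕ} {C d : ℕ} (hl : PolyLen l C d) :
    ‖α‖ ≤ 1 := by
  by_contra hα
  push Not at hα
  obtain ⟨k, hk⟩ := pow_unbounded_of_one_lt 2 hα
  have h1 := (h.pow k).lt_two hl
  rw [norm_pow] at h1
  linarith

end Milnor

/-! ### Kronecker -/

section Kron

open Polynomial

/-- a monic integer polynomial with all complex roots of modulus at most one: the nonzero roots are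
roots of unity -/
theorem root_of_unity {p : ℤ[X]} (hp : p.Monic)
    (h : ∀ z : ℂ, (p.map (Int.castRingHom ℂ)).IsRoot z → ‖z‖ ≤ 1) {z : ℂ} (hz0 : z ≠ 0)
    (hz : (p.map (Int.castRingHom ℂ)).IsRoot z) : ∃ n : ℕ, 0 < n ∧ z ^ n = 1 := by
  have hpm : (p.map (Int.castRingHom ℂ)).Monic := hp.map _
  have hm : (p.map (Int.castRingHom ℂ)).mahlerMeasure = 1 := by
    rw [mahlerMeasure_eq_leadingCoeff_mul_prod_roots, hpm.leadingCoeff, norm_one, one_mul]
    apply Multiset.prod_eq_one
    intro x hx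
    rw [Multiset.mem_map] at hx
    obtain ⟨a, ha, rfl⟩ := hx
    exact max_eq_left (h a ((mem_roots hpm.ne_zero).1 ha))
  refine pow_eq_one_of_mahlerMeasure_eq_one hm hz0 ?_
  rw [mem_aroots]
  refine ⟨hp.ne_zero, ?_⟩
  rw [IsRoot.def, eval_map] at hz
  rw [aeval_def]
  exact hz

/-- eigenvectors of an integer matrix, acting on columns over `ℂ` -/
theorem kronecker {r : ℕ} (A : Matrix (Fin r) (Fin r) ℤ)
    (h : ∀ (v : Fin r → ℂ) (β : ℂ), v ≠ 0 → (A.map (Int.castRingHom ℂ)).mulVec v = β • v →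
      ‖β‖ ≤ 1) {v : Fin r → ℂ} {β : ℂ} (hv : v ≠ 0) (hβ : β ≠ 0)
    (hA : (A.map (Int.castRingHom ℂ)).mulVec v = β • v) : ∃ n : ℕ, 0 < n ∧ β ^ n = 1 := by
  have hroot : ∀ z : ℂ, (A.charpoly.map (Int.castRingHom ℂ)).IsRoot z ↔
      ∃ v : Fin r → ℂ, v ≠ 0 ∧ (A.map (Int.castRingHom ℂ)).mulVec v = z • v := by
    intro z
    rw [← Matrix.charpoly_map, IsRoot.def, Matrix.eval_charpoly,
      ← Matrix.exists_mulVec_eq_zero_iff]
    refine exists_congr fun v => and_congr_right fun _ => ?_
    rw [Matrix.sub_mulVec, sub_eq_zero, eq_comm]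
    have : (Matrix.scalar (Fin r) z).mulVec v = z • v := by
      rw [Matrix.scalar_apply, Matrix.diagonal_const_mulVec]
    rw [this]
  refine root_of_unity A.charpoly_monic ?_ hβ ((hroot β).2 ⟨v, hv, hA⟩)
  intro z hz
  obtain ⟨w, hw, hw'⟩ := (hroot z).1 hz
  exact h w z hw hw'

end Kron

/-! ### common eigenvectors -/

section Common

variable {V : Type*} [AddCommGroup V] [Module ℂ V] [FiniteDimensional ℂ V]

theorem exists_common_aux {ι : Type*} (T : ι → V →ₗ[ℂ] V) (hT : ∀ i j v, T i (T j v) = T j (T i v))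
    (n : ℕ) : ∀ W : Submodule ℂ V, Module.finrank ℂ W = n → W ≠ ⊥ →
      (∀ i, ∀ w ∈ W, T i w ∈ W) → ∃ v ∈ W, v ≠ 0 ∧ ∀ i, ∃ c : ℂ, T i v = c • v := by
  induction n using Nat.strong_induction_on with
  | _ n ih =>
    intro W hWn hW hinv
    by_cases hsc : ∀ i, ∃ c : ℂ, ∀ w ∈ W, T i w = c • w
    · obtain ⟨v, hv, hv0⟩ := (Submodule.ne_bot_iff W).1 hW
      exact ⟨v, hv, hv0, fun i => by
        obtain ⟨c, hc⟩ := hsc i
        exact ⟨c, hc v hv⟩⟩
    · push Not at hsc
      obtain ⟨i, hi⟩ := hsc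
      have : Nontrivial W := Submodule.nontrivial_iff_ne_bot.2 hW
      let R : Module.End ℂ W := (T i).restrict (hinv i)
      obtain ⟨μ, hμ⟩ := Module.End.exists_eigenvalue R
      obtain ⟨w0, hw0⟩ := hμ.exists_hasEigenvector
      let W' : Submodule ℂ V := W ⊓ LinearMap.ker (T i - μ • LinearMap.id)
      have hmem : ∀ v, v ∈ W' ↔ v ∈ W ∧ T i v = μ • v := by
        intro v
        rw [Submodule.mem_inf, LinearMap.mem_ker]
        simp [sub_eq_zero]
      have hlt : W' < W := by
        refine lt_of_le_of_ne inf_le_left fun heq => ?_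
        obtain ⟨w, hw, hne⟩ := hi μ
        apply hne
        have : w ∈ W' := heq.symm ▸ hw
        exact ((hmem w).1 this).2
      have hW' : W' ≠ ⊥ := by
        rw [Submodule.ne_bot_iff]
        refine ⟨w0, (hmem _).2 ⟨w0.2, ?_⟩, ?_⟩
        · have := hw0.apply_eq_smul
          exact congrArg Subtype.val this
        · intro h0
          exact hw0.2 (Subtype.ext h0)
      have hinv' : ∀ j, ∀ w ∈ W', T j w ∈ W' := by
        intro j w hw
        rw [hmem] at hw ⊢
        refine ⟨hinv j w hw.1, ?_⟩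
        rw [hT, hw.2, map_smul]
      obtain ⟨v, hv, hv0, hv1⟩ := ih _ (hWn ▸ Submodule.finrank_lt_finrank_of_lt hlt) W' rfl hW'
        hinv'
      exact ⟨v, ((hmem v).1 hv).1, hv0, hv1⟩

/-- common eigenvector of a commuting family -/
theorem exists_common [Nontrivial V] {ι : Type*} (T : ι → V →ₗ[ℂ] V)
    (hT : ∀ i j v, T i (T j v) = T j (T i v)) :
    ∃ v : V, v ≠ 0 ∧ ∀ i, ∃ c : ℂ, T i v = c • v := by
  obtain ⟨v, -, h1, h2⟩ := exists_common_aux T hT _ ⊤ rfl
    (by rw [Ne, eq_comm]; exact bot_ne_top) (fun _ _ _ => trivial)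
  exact ⟨v, h1, h2⟩

end Common

end Crest.Agent.R273.Max127
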