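import Crest.Agent.R273.MaxB_127
import Crest.Agent.R273.Quasi_127

/-!
# R273 (S0416), Part B, leaf MAXQ (helper127), group part C

* `exists_inv` : `P` normal and finitely generated in `Γ`, `Γ/P` commutative, polynomial growth,
  `P` has a nontrivial homomorphism to `ℝ` ⇒ some finite index `Δ ≥ P` fixes a nontrivial one;
* `exists_ext` : extension of homomorphisms to `ℝ`.
-/

set_option autoImplicit false
set_option linter.unusedSectionVars false

open Multiplicative

namespace Crest.Agent.R273.Max127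

open Crest.Agent.R182.Gromov Crest.Agent.R182.GromovMilnor Crest.Agent.R273.Quasi127

section Inv

variable {Γ : Type*} [Group Γ] (P : Subgroup Γ) [hP : P.Normal]

/-- conjugation on `P` -/
def cg (g : Γ) : P →* P where
  toFun x := ⟨g * x * g⁻¹, hP.conj_mem x x.2 g⟩
  map_one' := Subtype.ext (by simp)
  map_mul' x y := Subtype.ext (by
    change g * (x * y : Γ) * g⁻¹ = (g * x * g⁻¹) * (g * y * g⁻¹)
    group)

theorem cg_apply (g : Γ) (x : P) : cg P g x = ⟨g * x * g⁻¹, hP.conj_mem x x.2 g⟩ := rfl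

theorem cg_mul (g h : Γ) (x : P) : cg P (g * h) x = cg P g (cg P h x) := by
  apply Subtype.ext
  change g * h * (x : Γ) * (g * h)⁻¹ = g * (h * x * h⁻¹) * g⁻¹
  group

theorem cg_one (x : P) : cg P 1 x = x := by
  apply Subtype.ext
  change 1 * (x : Γ) * (1 : Γ)⁻¹ = x
  group

variable {P} {r : ℕ} (π : P →* Multiplicative (Fin r → ℤ)) (p : Fin r → P)

/-- the integer matrix of conjugation -/
def AM (g : Γ) : Matrix (Fin r) (Fin r) ℤ := fun i j => toAdd (π (cg P g (p j))) i

theorem AM_mulVec (hπ : ∀ x, π x = 1 → ∃ n : ℕ, 0 < n ∧ x ^ n ∈ commutator P)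
    (hp : ∀ i, toAdd (π (p i)) = Pi.single i 1) (g : Γ) (x : P) :
    toAdd (π (cg P g x)) = (AM π p g).mulVec (toAdd (π x)) := by
  have h := expand hπ hp (π.comp (cg P g)) x
  have h2 : toAdd (π (cg P g x)) = ∑ i, toAdd (π x) i • toAdd (π (cg P g (p i))) := h
  rw [h2]
  ext i
  rw [Finset.sum_apply, Matrix.mulVec, dotProduct]
  refine Finset.sum_congr rfl fun j _ => ?_
  rw [Pi.smul_apply, smul_eq_mul, mul_comm]
  rfl

theorem AM_mul (hπ : ∀ x, π x = 1 → ∃ n : ℕ, 0 < n ∧ x ^ n ∈ commutator P)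
    (hp : ∀ i, toAdd (π (p i)) = Pi.single i 1) (g h : Γ) :
    AM π p (g * h) = AM π p g * AM π p h := by
  ext i j
  change toAdd (π (cg P (g * h) (p j))) i = _
  rw [cg_mul, AM_mulVec π p hπ hp, Matrix.mul_apply, Matrix.mulVec, dotProduct]
  rfl

theorem AM_of_mem (hp : ∀ i, toAdd (π (p i)) = Pi.single i 1) {q : Γ} (hq : q ∈ P) :
    AM π p q = 1 := by
  ext i j
  change toAdd (π (cg P q (p j))) i = _
  have h1 : cg P q (p j) = ⟨q, hq⟩ * p j * (⟨q, hq⟩ : P)⁻¹ := rfl
  rw [h1, π.map_mul, π.map_mul, π.map_inv, mul_comm (π ⟨q, hq⟩), mul_inv_cancel_right, hp,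
    Matrix.one_apply, Pi.single_apply]

/-- transposed matrix over `ℂ` -/
def TM (g : Γ) : Matrix (Fin r) (Fin r) ℂ :=
  ((AM π p g).transpose).map (Int.castRingHom ℂ)

theorem TM_mul (hπ : ∀ x, π x = 1 → ∃ n : ℕ, 0 < n ∧ x ^ n ∈ commutator P)
    (hp : ∀ i, toAdd (π (p i)) = Pi.single i 1) (g h : Γ) :
    TM π p (g * h) = TM π p h * TM π p g := by
  unfold TM
  rw [AM_mul π p hπ hp, Matrix.transpose_mul, Matrix.map_mul]

theorem TM_of_mem (hp : ∀ i, toAdd (π (p i)) = Pi.single i 1) {q : Γ} (hq : q ∈ P) :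
    TM π p q = 1 := by
  unfold TM
  rw [AM_of_mem π p hp hq, Matrix.transpose_one, Matrix.map_one _ (map_zero _) (map_one _)]

theorem TM_comm (hπ : ∀ x, π x = 1 → ∃ n : ℕ, 0 < n ∧ x ^ n ∈ commutator P)
    (hp : ∀ i, toAdd (π (p i)) = Pi.single i 1) {g h : Γ} (hc : g * h * g⁻¹ * h⁻¹ ∈ P) :
    TM π p g * TM π p h = TM π p h * TM π p g := by
  have h1 : g * h = (g * h * g⁻¹ * h⁻¹) * (h * g) := by group
  have h2 : TM π p (g * h) = TM π p (h * g) := by
    rw [h1, TM_mul π p hπ hp, TM_of_mem π p hp hc, mul_one]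
  rw [TM_mul π p hπ hp, TM_mul π p hπ hp] at h2
  exact h2.symm

/-- the homomorphism to `ℂ` attached to a vector, extended by zero -/
noncomputable def Fv (v : Fin r → ℂ) (g : Γ) : ℂ :=
  open Classical in if h : g ∈ P then ∑ i, v i * (toAdd (π ⟨g, h⟩) i : ℂ) else 0

theorem Fv_of_mem (v : Fin r → ℂ) {g : Γ} (h : g ∈ P) :
    Fv π v g = ∑ i, v i * (toAdd (π ⟨g, h⟩) i : ℂ) := dif_pos h

theorem TM_mulVec (v : Fin r → ℂ) (g : Γ) (j : Fin r) :
    (TM π p g).mulVec v j = ∑ i, (AM π p g i j : ℂ) * v i := rfl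

/-- `F_v (g x g⁻¹) = F_{T v} x` -/
theorem Fv_conj (hπ : ∀ x, π x = 1 → ∃ n : ℕ, 0 < n ∧ x ^ n ∈ commutator P)
    (hp : ∀ i, toAdd (π (p i)) = Pi.single i 1) (v : Fin r → ℂ) (g : Γ) {x : Γ} (hx : x ∈ P) :
    Fv π v (g * x * g⁻¹) = Fv π ((TM π p g).mulVec v) x := by
  rw [Fv_of_mem π v (hP.conj_mem x hx g), Fv_of_mem π _ hx]
  have h1 : toAdd (π ⟨g * x * g⁻¹, hP.conj_mem x hx g⟩) =
      (AM π p g).mulVec (toAdd (π ⟨x, hx⟩)) := AM_mulVec π p hπ hp g ⟨x, hx⟩
  rw [h1]
  have h2 : ∀ i, (((AM π p g).mulVec (toAdd (π ⟨x, hx⟩)) i : ℤ) : ℂ) =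
      ∑ j, (AM π p g i j : ℂ) * (toAdd (π ⟨x, hx⟩) j : ℂ) := by
    intro i
    rw [Matrix.mulVec, dotProduct]
    push_cast
    rfl
  simp_rw [h2, TM_mulVec, Finset.mul_sum, Finset.sum_mul]
  rw [Finset.sum_comm]
  refine Finset.sum_congr rfl fun j _ => Finset.sum_congr rfl fun i _ => ?_
  ring

theorem twist (hπ : ∀ x, π x = 1 → ∃ n : ℕ, 0 < n ∧ x ^ n ∈ commutator P)
    (hp : ∀ i, toAdd (π (p i)) = Pi.single i 1) {v : Fin r → ℂ} {g : Γ} {β : ℂ}
    (hv : (TM π p g).mulVec v = β • v) {i : Fin r} (hi : v i ≠ 0) :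
    Twist P (Fv π v) g (p i) β where
  add x hx y hy := by
    rw [Fv_of_mem π v hx, Fv_of_mem π v hy, Fv_of_mem π v (P.mul_mem hx hy),
      ← Finset.sum_add_distrib]
    refine Finset.sum_congr rfl fun i _ => ?_
    have h1 : (⟨x * y, P.mul_mem hx hy⟩ : P) = ⟨x, hx⟩ * ⟨y, hy⟩ := rfl
    rw [h1, π.map_mul, toAdd_mul, Pi.add_apply]
    push_cast
    ring
  mem x hx := hP.conj_mem x hx g
  tw x hx := by
    rw [Fv_conj π p hπ hp v g hx, hv, Fv_of_mem π _ hx, Fv_of_mem π _ hx, Finset.mul_sum]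
    refine Finset.sum_congr rfl fun i _ => ?_
    rw [Pi.smul_apply, smul_eq_mul]; ring
  he := (p i).2
  ne := by
    rw [Fv_of_mem π v (p i).2]
    have h1 : (⟨(p i : Γ), (p i).2⟩ : P) = p i := rfl
    rw [h1, hp i, Finset.sum_eq_single i]
    · simpa using hi
    · intro j _ hj; simp [hj]
    · simp

end Inv

/-- **invariant homomorphism**: polynomial growth, `Γ/P` commutative, `P` finitely generated with a
nontrivial homomorphism to `ℝ` -/
theorem exists_inv {Γ : Type*} [Group Γ] [Group.FG Γ] (P : Subgroup Γ) [hP : P.Normal]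
    [Group.FG P] {l : Γ → ℕ} {C d : ℕ} (hl : PolyLen l C d)
    (hcom : ∀ g h : Γ, g * h * g⁻¹ * h⁻¹ ∈ P) (φ0 : P →* Multiplicative ℝ) (hφ0 : φ0 ≠ 1) :
    ∃ Δ : Subgroup Γ, Δ.FiniteIndex ∧ P ≤ Δ ∧ ∃ φ : P →* Multiplicative ℝ, φ ≠ 1 ∧
      ∀ g ∈ Δ, ∀ x : P, φ ⟨g * x * g⁻¹, hP.conj_mem x x.2 g⟩ = φ x := by
  obtain ⟨r, π, hs, hπ⟩ := exists_pi P
  obtain ⟨p, hp⟩ := exists_basis hs
  -- `r` is positive
  have hr : Nonempty (Fin r) := by
    by_contra hne
    rw [not_nonempty_iff] at hne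
    apply hφ0
    ext x
    have := expand hπ hp φ0 x
    rw [Finset.univ_eq_empty, Finset.sum_empty] at this
    exact congrArg ofAdd this
  let T : Γ → (Fin r → ℂ) →ₗ[ℂ] (Fin r → ℂ) := fun g => (TM π p g).mulVecLin
  have hT : ∀ g h v, T g (T h v) = T h (T g v) := by
    intro g h v
    change (TM π p g).mulVec ((TM π p h).mulVec v) = (TM π p h).mulVec ((TM π p g).mulVec v)
    rw [Matrix.mulVec_mulVec, Matrix.mulVec_mulVec, TM_comm π p hπ hp (hcom g h)]
  obtain ⟨v, hv0, hv⟩ := exists_common T hT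
  choose χ hχ using hv
  have hχ' : ∀ g, (TM π p g).mulVec v = χ g • v := hχ
  obtain ⟨i0, hi0⟩ : ∃ i, v i ≠ 0 := by
    by_contra h
    push Not at h
    exact hv0 (funext h)
  have hinj : ∀ a b : ℂ, a • v = b • v → a = b := by
    intro a b hab
    have := congrFun hab i0
    simp only [Pi.smul_apply, smul_eq_mul] at this
    exact mul_right_cancel₀ hi0 this
  have hχone : ∀ q ∈ P, χ q = 1 := by
    intro q hq
    apply hinj
    rw [← hχ', TM_of_mem π p hp hq, Matrix.one_mulVec, one_smul]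
  have hχmul : ∀ g h, χ (g * h) = χ g * χ h := by
    intro g h
    apply hinj
    rw [← hχ', TM_mul π p hπ hp, ← Matrix.mulVec_mulVec, hχ', Matrix.mulVec_smul, hχ', smul_smul]
  let X : Γ →* ℂ :=
    { toFun := χ
      map_one' := hχone 1 P.one_mem
      map_mul' := hχmul }
  -- roots of unity
  have hroot : ∀ g, ∃ n : ℕ, 0 < n ∧ χ g ^ n = 1 := by
    intro g
    have hg0 : χ g ≠ 0 := by
      intro h0
      have : χ (g * g⁻¹) = χ g * χ g⁻¹ := hχmul _ _
      rw [mul_inv_cancel, hχone 1 P.one_mem, h0, zero_mul] at this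
      exact one_ne_zero this
    refine kronecker ((AM π p g).transpose) ?_ hv0 hg0 (hχ' g)
    intro w β hw hβ
    obtain ⟨i, hi⟩ : ∃ i, w i ≠ 0 := by
      by_contra h
      push Not at h
      exact hw (funext h)
    exact (twist π p hπ hp (v := w) (g := g) (β := β) hβ hi).norm_le_one hl
  -- finite index kernel
  let X' : Γ →* ℂˣ := X.toHomUnits
  have hX' : ∀ g, ((X' g : ℂˣ) : ℂ) = χ g := fun g => rfl
  have hfin : Finite X'.range := by
    have : Group.FG X'.range := Group.fg_of_surjective (X'.rangeRestrict_surjective)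
    apply CommGroup.finite_of_fg_isMulTorsion
    rintro ⟨_, g, rfl⟩
    rw [isOfFinOrder_iff_pow_eq_one]
    obtain ⟨n, hn, hn'⟩ := hroot g
    refine ⟨n, hn, Subtype.ext (Units.ext ?_)⟩
    exact hn'
  have hfi : X'.ker.FiniteIndex := by
    have : Finite (Γ ⧸ X'.ker) :=
      Finite.of_equiv _ (QuotientGroup.quotientKerEquivRange X').symm.toEquiv
    exact Subgroup.finiteIndex_of_finite_quotient
  have hker : ∀ g, g ∈ X'.ker ↔ χ g = 1 := by
    intro g
    rw [MonoidHom.mem_ker, Units.ext_iff, hX', Units.val_one]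
  -- the real vector
  have key : ∀ w : Fin r → ℝ, w ≠ 0 →
      (∀ g ∈ X'.ker, ∀ j, ∑ i, (AM π p g i j : ℝ) * w i = w j) →
      ∃ φ : P →* Multiplicative ℝ, φ ≠ 1 ∧
      ∀ g ∈ X'.ker, ∀ x : P, φ ⟨g * x * g⁻¹, hP.conj_mem x x.2 g⟩ = φ x := by
    intro w hw hfix
    let φ : P →* Multiplicative ℝ :=
      { toFun := fun x => ofAdd (∑ i, w i * (toAdd (π x) i : ℝ))
        map_one' := by
          rw [map_one]; simp
        map_mul' := by
          intro x y
          rw [map_mul, ← ofAdd_add, ← Finset.sum_add_distrib]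
          congr 1
          refine Finset.sum_congr rfl fun i _ => ?_
          rw [toAdd_mul, Pi.add_apply]; push_cast; ring }
    refine ⟨φ, ?_, ?_⟩
    · intro h1
      apply hw
      funext i
      have h2 : toAdd (φ (p i)) = 0 := by rw [h1]; rfl
      have h3 : toAdd (φ (p i)) = ∑ j, w j * (toAdd (π (p i)) j : ℝ) := rfl
      rw [h3, hp i, Finset.sum_eq_single i] at h2
      · simpa using h2
      · intro j _ hj; simp [hj]
      · simp
    · intro g hg x
      change ofAdd (∑ i, w i * (toAdd (π (cg P g x)) i : ℝ)) = ofAdd (∑ i, w i * (toAdd (π x) i : ℝ))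
      congr 1
      rw [AM_mulVec π p hπ hp]
      have h2 : ∀ i, (((AM π p g).mulVec (toAdd (π x)) i : ℤ) : ℝ) =
          ∑ j, (AM π p g i j : ℝ) * (toAdd (π x) j : ℝ) := by
        intro i
        rw [Matrix.mulVec, dotProduct]
        push_cast
        rfl
      simp_rw [h2, Finset.mul_sum]
      rw [Finset.sum_comm]
      refine Finset.sum_congr rfl fun j _ => ?_
      rw [← hfix g hg j, Finset.sum_mul]
      refine Finset.sum_congr rfl fun i _ => ?_
      ring
  have hfixc : ∀ g ∈ X'.ker, ∀ j, ∑ i, (AM π p g i j : ℂ) * v i = v j := by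
    intro g hg j
    rw [← TM_mulVec π p v g j, hχ', (hker g).1 hg, one_smul]
  refine ⟨X'.ker, hfi, fun q hq => (hker q).2 (hχone q hq), ?_⟩
  by_cases hre : (fun i => (v i).re) = 0
  · refine key (fun i => (v i).im) ?_ ?_
    · intro him
      apply hi0
      exact Complex.ext (congrFun hre i0) (congrFun him i0)
    · intro g hg j
      have := congrArg Complex.im (hfixc g hg j)
      rw [Complex.im_sum] at this
      rw [← this]
      refine Finset.sum_congr rfl fun i _ => ?_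
      simp [Complex.mul_im]
  · refine key (fun i => (v i).re) hre ?_
    intro g hg j
    have := congrArg Complex.re (hfixc g hg j)
    rw [Complex.re_sum] at this
    rw [← this]
    refine Finset.sum_congr rfl fun i _ => ?_
    simp [Complex.mul_re]

/-! ### extension -/

/-- a homomorphism from a subgroup of a commutative group to `ℝ` extends -/
theorem exists_ext_comm {A : Type*} [CommGroup A] (B : Subgroup A) (φ : B →* Multiplicative ℝ) :
    ∃ ψ : A →* Multiplicative ℝ, ∀ b : B, ψ b = φ b := by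
  have hB : Module.Baer ℤ ℝ := Module.Baer.of_divisible ℝ
  let f : Additive B →+ Additive A := MonoidHom.toAdditive B.subtype
  have hf : Function.Injective f := B.subtype_injective
  let g : Additive B →+ ℝ := MonoidHom.toAdditiveLeft φ
  obtain ⟨h, hh⟩ := hB.extension_property_addMonoidHom f hf g
  refine ⟨AddMonoidHom.toMultiplicativeRight h, fun b => ?_⟩
  have := DFunLike.congr_fun hh (Additive.ofMul b)
  exact congrArg ofAdd this

/-- a homomorphism `φ : P → ℝ`, `P` containing the commutators and `φ` trivial on them, extends -/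
theorem exists_ext {Δ : Type*} [Group Δ] (P : Subgroup Δ) (φ : P →* Multiplicative ℝ)
    (hφ : ∀ x : P, (x : Δ) ∈ commutator Δ → φ x = 1) :
    ∃ ψ : Δ →* Multiplicative ℝ, ∀ x : P, ψ x = φ x := by
  let f : P →* Abelianization Δ := Abelianization.of.comp P.subtype
  have hker : f.rangeRestrict.ker ≤ φ.ker := by
    intro x hx
    rw [MonoidHom.mem_ker] at hx ⊢
    apply hφ
    have : f x = 1 := congrArg Subtype.val hx
    exact (QuotientGroup.eq_one_iff _).1 this
  let φ' : f.range →* Multiplicative ℝ :=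
    (f.rangeRestrict).liftOfSurjective f.rangeRestrict_surjective ⟨φ, hker⟩
  have hφ' : ∀ x, φ' (f.rangeRestrict x) = φ x := fun x =>
    MonoidHom.liftOfRightInverse_comp_apply _ _ _ ⟨φ, hker⟩ x
  obtain ⟨ψ, hψ⟩ := exists_ext_comm f.range φ'
  refine ⟨ψ.comp Abelianization.of, fun x => ?_⟩
  have h1 := hψ (f.rangeRestrict x)
  rw [hφ'] at h1
  exact h1

end Crest.Agent.R273.Max127
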