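import Crest.Agent.R273.MaxC_127
import Crest.Agent.R273.LatFin_127
import Crest.Agent.R273.Grp_645
import Crest.Agent.R273.VPC_501
import Crest.Agent.R182.PolycVirt

/-!
# R273 (S0416), Part B, leaf MAXQ (helper127), group part D : assembly

`HK Γ` : common kernel of the homomorphisms `Γ → ℝ`; `QU Γ` : the conclusion of `Quasi127.quasi`;
`maxg` : `G` finitely generated of polynomial growth, `QU` for all subgroups of finite index ⇒ a
subgroup of finite index is commutative and its homomorphisms to `ℝ` separate points.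
-/

set_option autoImplicit false

open Multiplicative
open scoped Pointwise

namespace Crest.Agent.R273.Max127

open Crest.Agent.R182.Gromov Crest.Agent.R182.GromovMilnor Crest.Agent.R273.Quasi127
open Crest.GroupTheory

universe u

/-- common kernel of the homomorphisms to `ℝ` -/
def HK (Γ : Type*) [Group Γ] : Subgroup Γ := ⨅ f : Γ →* Multiplicative ℝ, f.ker

theorem mem_HK {Γ : Type*} [Group Γ] {x : Γ} : x ∈ HK Γ ↔ ∀ f : Γ →* Multiplicative ℝ, f x = 1 := by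
  simp [HK, Subgroup.mem_iInf, MonoidHom.mem_ker]

instance {Γ : Type*} [Group Γ] : (HK Γ).Normal := by
  refine ⟨fun x hx g => ?_⟩
  rw [mem_HK] at hx ⊢
  intro f
  rw [map_mul, map_mul, hx f, mul_one, map_inv, mul_inv_cancel]

/-- invariant homomorphisms vanish on commutators -/
def QU (Γ : Type*) [Group Γ] : Prop :=
  ∀ (Δ P : Subgroup Γ) (hP : P.Normal), Δ.FiniteIndex → P ≤ Δ → P ≤ HK Γ →
    P.relIndex (HK Γ) ≠ 0 → ∀ φ : P →* Multiplicative ℝ,
    (∀ g ∈ Δ, ∀ x : P, φ ⟨g * x * g⁻¹, hP.conj_mem x x.2 g⟩ = φ x) →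
    ∀ g ∈ Δ, ∀ h ∈ Δ, ∀ hc : g * h * g⁻¹ * h⁻¹ ∈ P, φ ⟨_, hc⟩ = 1

/-! ### `QU` from an action -/

/-- cocompactness passes to subgroups of finite index -/
theorem cocompact_sub {Γ : Type*} [Group Γ] {N : Type*} [TopologicalSpace N] [MulAction Γ N]
    [ContinuousConstSMul Γ N] (K P : Subgroup Γ) (hidx : P.relIndex K ≠ 0)
    {S : Set N} (hS : IsCompact S) (hcov : ∀ x : N, ∃ p ∈ K, p • x ∈ S) :
    ∃ S' : Set N, IsCompact S' ∧ ∀ x : N, ∃ p ∈ P, p • x ∈ S' := by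
  have : (P.subgroupOf K).FiniteIndex := ⟨hidx⟩
  have hfin : Finite (K ⧸ P.subgroupOf K) := inferInstance
  refine ⟨⋃ q : K ⧸ P.subgroupOf K, ((q.out : K) : Γ)⁻¹ • S,
    isCompact_iUnion fun q => hS.smul _, fun x => ?_⟩
  obtain ⟨k, hk, hkx⟩ := hcov x
  obtain ⟨p, hp⟩ := QuotientGroup.mk_out_eq_mul (P.subgroupOf K) (⟨k, hk⟩ : K)
  set q : K ⧸ P.subgroupOf K := ((⟨k, hk⟩ : K) : K ⧸ P.subgroupOf K) with hq
  have h1 : ((q.out : K) : Γ) = k * ((p : K) : Γ) := congrArg Subtype.val hp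
  refine ⟨((p : K) : Γ)⁻¹, P.inv_mem p.2, Set.mem_iUnion.2 ⟨q, ?_⟩⟩
  rw [Set.mem_smul_set_iff_inv_smul_mem, inv_inv, h1, smul_smul, mul_inv_cancel_right]
  exact hkx

/-- `QU` for a group acting on a space such that `HK Γ` is cocompact and properly discontinuous -/
theorem QU_of_action {Γ : Type*} [Group Γ] {N : Type*} [TopologicalSpace N] [Nonempty N]
    [MulAction Γ N] [ContinuousConstSMul Γ N] {S : Set N} (hS : IsCompact S)
    (hcov : ∀ x : N, ∃ p ∈ HK Γ, p • x ∈ S)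
    (hprop : ∀ L L' : Set N, IsCompact L → IsCompact L' →
      {p : Γ | p ∈ HK Γ ∧ ∃ x ∈ L, p • x ∈ L'}.Finite) : QU Γ := by
  intro Δ P hP hΔ hPΔ hPK hidx φ hinv g hg h hh hc
  obtain ⟨S', hS', hcov'⟩ := cocompact_sub (HK Γ) P hidx hS hcov
  have hn : (P.subgroupOf Δ).Normal := inferInstance
  have hcs : ContinuousConstSMul Δ N := ⟨fun g => continuous_const_smul (g : Γ)⟩
  let e : P.subgroupOf Δ →* P :=
    { toFun := fun x => ⟨((x : Δ) : Γ), x.2⟩
      map_one' := rfl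
      map_mul' := fun _ _ => rfl }
  have h1 := quasi (Δ := Δ) (P := P.subgroupOf Δ) (φ := φ.comp e) (N := N)
    (by
      intro g x
      exact hinv g g.2 (e x)) hS'
    (by
      intro x
      obtain ⟨p, hp, hpx⟩ := hcov' x
      exact ⟨⟨p, hPΔ hp⟩, hp, hpx⟩)
    (by
      intro L L' hL hL'
      refine Set.Finite.of_finite_image (f := fun p : Δ => (p : Γ)) ?_
        Subtype.val_injective.injOn
      refine (hprop L L' hL hL').subset ?_
      rintro _ ⟨p, ⟨hp, x, hx, hpx⟩, rfl⟩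
      exact ⟨hPK hp, x, hx, hpx⟩)
    (g := ⟨g, hg⟩) (h := ⟨h, hh⟩) hc
  exact h1

/-! ### restriction of homomorphisms -/

/-- restriction of real homomorphisms to a subgroup -/
def res {H : Type*} [Group H] (Δ : Subgroup H) : HomR H →ₗ[ℝ] HomR Δ where
  toFun f := ⟨fun x => (f : H → ℝ) x, fun x y => f.2 x y⟩
  map_add' _ _ := rfl
  map_smul' _ _ := rfl

theorem res_injective {H : Type*} [Group H] (Δ : Subgroup H) [hΔ : Δ.FiniteIndex] :
    Function.Injective (res Δ) := by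
  intro f g hfg
  apply Subtype.ext
  funext x
  obtain ⟨n, hn, -, hx⟩ := Subgroup.exists_pow_mem_of_index_ne_zero hΔ.index_ne_zero x
  have h1 : (f : H → ℝ) (x ^ n) = (g : H → ℝ) (x ^ n) :=
    congrFun (congrArg Subtype.val hfg) ⟨x ^ n, hx⟩
  rw [HomR.pow, HomR.pow] at h1
  have : (n : ℝ) ≠ 0 := by exact_mod_cast hn.ne'
  exact mul_left_cancel₀ this h1

/-- evaluation at all homomorphisms -/
def ev (H : Type*) [Group H] : H →* ((H →* Multiplicative ℝ) → Multiplicative ℝ) where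
  toFun x f := f x
  map_one' := by funext f; exact map_one f
  map_mul' x y := by funext f; exact map_mul f x y

theorem ev_ker (H : Type*) [Group H] : (ev H).ker = HK H := by
  ext x
  rw [MonoidHom.mem_ker, mem_HK]
  exact funext_iff

/-- **key step** -/
theorem finite_HK {H : Type u} [Group H] (hvp : IsVirtuallyPolycyclic H) {l : H → ℕ} {C d : ℕ}
    (hl : PolyLen l C d)
    (hmax : ∀ Δ : Subgroup H, Δ.FiniteIndex →
      Module.finrank ℝ (HomR Δ) ≤ Module.finrank ℝ (HomR H))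
    (hQ : QU H) : ((HK H : Subgroup H) : Set H).Finite := by
  classical
  by_contra hinf
  have hInf : Infinite (HK H) := Set.infinite_coe_iff.2 hinf
  have hsub : ∀ {Γ : Type u} [Group Γ], IsVirtuallyPolycyclic Γ → ∀ K : Subgroup Γ,
      IsVirtuallyPolycyclic K := fun h K => R182.Polyc.isVirtuallyPolycyclic_subgroup h K
  have hfgH : Group.FG H := R182.Polyc.isVirtuallyPolycyclic_fg hvp
  have hfgK : Group.FG (HK H) := R182.Polyc.isVirtuallyPolycyclic_fg (hsub hvp _)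
  obtain ⟨K1, hK1, φ1, hφ1⟩ := VPC_501.onto_int_of_len hfgK (hl.subgroup (HK H))
  obtain ⟨P0, hP0le, hP0fi, -, hPn⟩ := LatFin127.exists_normal (HK H) K1
  set P : Subgroup H := P0.map (HK H).subtype with hPdef
  have hPK : P ≤ HK H := by
    rintro _ ⟨x, -, rfl⟩
    exact x.2
  have hP0mem : ∀ (x : H) (hx : x ∈ P), (⟨x, hPK hx⟩ : HK H) ∈ P0 := by
    rintro x ⟨y, hy, hyx⟩
    have : (⟨x, hPK ⟨y, hy, hyx⟩⟩ : HK H) = y := Subtype.ext hyx.symm
    rw [this]; exact hy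
  have hmemP : ∀ x : HK H, x ∈ P0 → (x : H) ∈ P := fun x hx => ⟨x, hx, rfl⟩
  have hidx : P.relIndex (HK H) ≠ 0 := by
    have : P.subgroupOf (HK H) = P0 := by
      ext x
      exact ⟨fun hx => hP0mem x hx, fun hx => hmemP x hx⟩
    rw [Subgroup.relIndex, this]
    exact hP0fi.index_ne_zero
  -- the quotient `H / P`
  have hPev : P ≤ (ev H).ker := by rw [ev_ker]; exact hPK
  let evq : H ⧸ P →* ((H →* Multiplicative ℝ) → Multiplicative ℝ) := QuotientGroup.lift P (ev H) hPev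
  have hkfin : (evq.ker : Set (H ⧸ P)).Finite := by
    have hfin : Finite (HK H ⧸ P0) := inferInstance
    refine (Set.finite_range fun q : HK H ⧸ P0 =>
      (((q.out : HK H) : H) : H ⧸ P)).subset ?_
    intro x hx
    obtain ⟨y, rfl⟩ := QuotientGroup.mk_surjective x
    have hy : y ∈ HK H := by
      rw [← ev_ker, MonoidHom.mem_ker]
      exact (MonoidHom.mem_ker).1 hx
    obtain ⟨p, hp⟩ := QuotientGroup.mk_out_eq_mul P0 (⟨y, hy⟩ : HK H)
    refine ⟨((⟨y, hy⟩ : HK H) : HK H ⧸ P0), ?_⟩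
    have h1 : (((((⟨y, hy⟩ : HK H) : HK H ⧸ P0)).out : HK H) : H) = y * ((p : HK H) : H) :=
      congrArg Subtype.val hp
    change ((((((⟨y, hy⟩ : HK H) : HK H ⧸ P0)).out : HK H) : H) : H ⧸ P) = (y : H ⧸ P)
    rw [h1]
    exact (QuotientGroup.mk_mul_of_mem y (hmemP _ p.2))
  obtain ⟨Hb, hHb, hHc, -⟩ := Grp645.exists_inj evq hkfin
  set Γ1 : Subgroup H := Hb.comap (QuotientGroup.mk' P) with hΓ1
  have hΓ1fi : Γ1.FiniteIndex := by
    refine ⟨?_⟩
    rw [hΓ1, Subgroup.index_comap_of_surjective _ (QuotientGroup.mk'_surjective P)]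
    exact hHb.index_ne_zero
  have hPΓ1 : P ≤ Γ1 := by
    intro x hx
    change (QuotientGroup.mk' P) x ∈ Hb
    have : (QuotientGroup.mk' P) x = 1 := (QuotientGroup.eq_one_iff x).2 hx
    rw [this]; exact Hb.one_mem
  have hcomm : ∀ x ∈ Γ1, ∀ y : H, x * y * x⁻¹ * y⁻¹ ∈ P := by
    intro x hx y
    have hc := Subgroup.mem_center_iff.1 (hHc hx) ((QuotientGroup.mk' P) y)
    have h1 : (QuotientGroup.mk' P) (x * y * x⁻¹ * y⁻¹) = 1 := by
      rw [map_mul, map_mul, map_mul, map_inv, map_inv, ← hc]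
      group
    exact (QuotientGroup.eq_one_iff _).1 h1
  -- apply `exists_inv` on `Γ1`
  have hfgΓ1 : Group.FG Γ1 := R182.Polyc.isVirtuallyPolycyclic_fg (hsub hvp _)
  have hfgP1 : Group.FG (P.subgroupOf Γ1) :=
    R182.Polyc.isVirtuallyPolycyclic_fg (hsub (hsub hvp Γ1) _)
  let ι : P.subgroupOf Γ1 →* K1 :=
    { toFun := fun x => ⟨⟨((x : Γ1) : H), hPK x.2⟩, hP0le (hP0mem _ x.2)⟩
      map_one' := rfl
      map_mul' := fun _ _ => rfl }
  let cast : Multiplicative ℤ →* Multiplicative ℝ :=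
    AddMonoidHom.toMultiplicative (Int.castAddHom ℝ)
  let φ0 : P.subgroupOf Γ1 →* Multiplicative ℝ := cast.comp (φ1.comp ι)
  have hφ0 : φ0 ≠ 1 := by
    intro h0
    obtain ⟨k, hk⟩ := hφ1 (ofAdd 1)
    obtain ⟨n, hn, -, hx⟩ :=
      Subgroup.exists_pow_mem_of_index_ne_zero hP0fi.index_ne_zero ((k : K1) : HK H)
    have hmem : ((((k : K1) : HK H) ^ n : HK H) : H) ∈ P := hmemP _ hx
    have h1 := DFunLike.congr_fun h0
      (⟨⟨((((k : K1) : HK H) ^ n : HK H) : H), hPΓ1 hmem⟩, hmem⟩ : P.subgroupOf Γ1)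
    have h2 : ι ⟨⟨((((k : K1) : HK H) ^ n : HK H) : H), hPΓ1 hmem⟩, hmem⟩ = k ^ n :=
      Subtype.ext (Subtype.ext rfl)
    have h3 : cast (φ1 (ι ⟨⟨((((k : K1) : HK H) ^ n : HK H) : H), hPΓ1 hmem⟩, hmem⟩)) = 1 := h1
    rw [h2, map_pow, hk] at h3
    have h4 : toAdd (cast ((ofAdd (1 : ℤ)) ^ n)) = ((n : ℤ) : ℝ) := by
      change ((toAdd ((ofAdd (1 : ℤ)) ^ n) : ℤ) : ℝ) = _
      rw [toAdd_pow, toAdd_ofAdd]; simp
    rw [h3, toAdd_one] at h4
    have : (n : ℤ) = 0 := by exact_mod_cast h4.symm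
    omega
  obtain ⟨Δ', hΔ', hPΔ', φ, hφne, hφinv⟩ := exists_inv (P.subgroupOf Γ1) (hl.subgroup Γ1)
    (by
      intro g h
      exact hcomm g g.2 h) φ0 hφ0
  set Δ : Subgroup H := Δ'.map Γ1.subtype with hΔdef
  have hΔfi : Δ.FiniteIndex := by
    refine ⟨?_⟩
    rw [hΔdef, Subgroup.index_map_subtype]
    exact mul_ne_zero hΔ'.index_ne_zero hΓ1fi.index_ne_zero
  have hPΔ : P ≤ Δ := fun x hx => ⟨⟨x, hPΓ1 hx⟩, hPΔ' hx, rfl⟩
  have hΔΓ1 : Δ ≤ Γ1 := by
    rintro _ ⟨y, -, rfl⟩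
    exact y.2
  let e : P →* P.subgroupOf Γ1 :=
    { toFun := fun x => ⟨⟨x, hPΓ1 x.2⟩, x.2⟩
      map_one' := rfl
      map_mul' := fun _ _ => rfl }
  let φP : P →* Multiplicative ℝ := φ.comp e
  have hinvP : ∀ g ∈ Δ, ∀ x : P, φP ⟨g * x * g⁻¹, hPn.conj_mem x x.2 g⟩ = φP x := by
    rintro _ ⟨g, hg, rfl⟩ x
    exact hφinv g hg (e x)
  have hkill := hQ Δ P hPn hΔfi hPΔ hPK hidx φP hinvP
  -- extension to `Δ`
  let e2 : P.subgroupOf Δ →* P :=
    { toFun := fun x => ⟨((x : Δ) : H), x.2⟩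
      map_one' := rfl
      map_mul' := fun _ _ => rfl }
  obtain ⟨ψ, hψ⟩ := exists_ext (P.subgroupOf Δ) (φP.comp e2) (by
    intro x hx
    have hle : commutator Δ ≤ ((φP.comp e2).ker).map (P.subgroupOf Δ).subtype := by
      rw [commutator_def, Subgroup.commutator_le]
      intro g _ h _
      have hmem : (g : H) * h * (g : H)⁻¹ * (h : H)⁻¹ ∈ P := hcomm g (hΔΓ1 g.2) h
      exact ⟨⟨g * h * g⁻¹ * h⁻¹, hmem⟩, hkill g g.2 h h.2 hmem, rfl⟩
    obtain ⟨y, hy, hyx⟩ := hle hx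
    have : y = x := Subtype.ext hyx
    rw [← this]
    exact hy)
  -- maximality
  have hfgΔ : Group.FG Δ := R182.Polyc.isVirtuallyPolycyclic_fg (hsub hvp _)
  have hrank : Module.finrank ℝ (HomR H) = Module.finrank ℝ (HomR Δ) :=
    le_antisymm (LinearMap.finrank_le_finrank_of_injective (res_injective Δ)) (hmax Δ hΔfi)
  have hsurj : Function.Surjective (res Δ) :=
    (LinearMap.injective_iff_surjective_of_finrank_eq_finrank hrank).1 (res_injective Δ)
  obtain ⟨f, hf⟩ := hsurj (ofH ψ)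
  apply hφne
  ext x
  have hxP : (((x : Γ1) : H)) ∈ P := x.2
  have h1 : (f : H → ℝ) ((x : Γ1) : H) = 0 := by
    have := mem_HK.1 (hPK hxP) (toH f)
    exact congrArg toAdd this
  have h2 : toAdd (ψ ⟨((x : Γ1) : H), hPΔ hxP⟩) = (f : H → ℝ) ((x : Γ1) : H) := by
    have := congrFun (congrArg Subtype.val hf) ⟨((x : Γ1) : H), hPΔ hxP⟩
    exact this.symm
  have h3 := hψ ⟨⟨((x : Γ1) : H), hPΔ hxP⟩, hxP⟩
  have h4 : ψ ⟨((x : Γ1) : H), hPΔ hxP⟩ = φ x := h3
  rw [← h4]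
  apply toAdd.injective
  rw [h2, h1]
  rfl

/-- **MAXG** : the group part of MAXQ -/
theorem maxg {G : Type u} [Group G] [hfg : Group.FG G] {l : G → ℕ} {C d : ℕ} (hl : PolyLen l C d)
    (hQ : ∀ H : Subgroup G, H.FiniteIndex → QU H) :
    ∃ Γ : Subgroup G, Γ.FiniteIndex ∧ (∀ x ∈ Γ, ∀ y ∈ Γ, x * y = y * x) ∧ HK Γ = ⊥ := by
  classical
  have hvp : IsVirtuallyPolycyclic G := R182.GromovMain.gromov hfg hl
  have hsub : ∀ K : Subgroup G, IsVirtuallyPolycyclic K := fun K =>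
    R182.Polyc.isVirtuallyPolycyclic_subgroup hvp K
  have hfgs : ∀ K : Subgroup G, Group.FG K := fun K =>
    R182.Polyc.isVirtuallyPolycyclic_fg (hsub K)
  -- maximal rank
  let S : Set ℕ := {r | ∃ H : Subgroup G, H.FiniteIndex ∧ Module.finrank ℝ (HomR H) = r}
  have hne : S.Nonempty := ⟨_, ⊤, inferInstance, rfl⟩
  have hbdd : BddAbove S := by
    refine ⟨d, ?_⟩
    rintro _ ⟨H, -, rfl⟩
    have := hfgs H
    exact finrank_le (hl.subgroup H)
  obtain ⟨H, hH, hHr⟩ := Nat.sSup_mem hne hbdd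
  have hfin : ((HK H : Subgroup H) : Set H).Finite := by
    refine finite_HK (hsub H) (hl.subgroup H) ?_ (hQ H hH)
    intro Δ hΔ
    rw [hHr]
    refine le_csSup hbdd ⟨Δ.map H.subtype, ⟨?_⟩, ?_⟩
    · rw [Subgroup.index_map_subtype]
      exact mul_ne_zero hΔ.index_ne_zero hH.index_ne_zero
    · -- `Δ ≃ Δ.map`
      let E : Δ ≃* Δ.map H.subtype := Δ.equivMapOfInjective H.subtype H.subtype_injective
      let L : HomR (Δ.map H.subtype) ≃ₗ[ℝ] HomR Δ :=
        { toFun := fun f => ⟨fun x => (f : _ → ℝ) (E x), fun x y => by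
            change (f : _ → ℝ) (E (x * y)) = _
            rw [map_mul]; exact f.2 _ _⟩
          invFun := fun f => ⟨fun x => (f : _ → ℝ) (E.symm x), fun x y => by
            change (f : _ → ℝ) (E.symm (x * y)) = _
            rw [map_mul]; exact f.2 _ _⟩
          map_add' := fun _ _ => rfl
          map_smul' := fun _ _ => rfl
          left_inv := fun f => Subtype.ext (funext fun x => by simp)
          right_inv := fun f => Subtype.ext (funext fun x => by simp) }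
      exact L.finrank_eq
  have := hfgs H
  have hk : ((ev H).ker : Set H).Finite := by rw [ev_ker]; exact hfin
  obtain ⟨H1, hH1, hH1c, hinj⟩ := Grp645.exists_inj (ev H) hk
  refine ⟨H1.map H.subtype, ⟨?_⟩, ?_, ?_⟩
  · rw [Subgroup.index_map_subtype]
    exact mul_ne_zero hH1.index_ne_zero hH.index_ne_zero
  · rintro _ ⟨x, hx, rfl⟩ _ ⟨y, -, rfl⟩
    have := Subgroup.mem_center_iff.1 (hH1c hx) y
    exact (congrArg (H.subtype) this).symm
  · rw [eq_bot_iff]
    rintro ⟨_, x, hx, rfl⟩ hk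
    rw [mem_HK] at hk
    have h1 : x = 1 := by
      apply hinj x hx 1 H1.one_mem
      rw [map_one]
      funext f
      exact hk ((f.comp (Subgroup.inclusion (show H1.map H.subtype ≤ H by
        rintro _ ⟨z, -, rfl⟩; exact z.2))))
    subst h1
    rw [Subgroup.mem_bot]
    rfl

end Crest.Agent.R273.Max127
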