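import Crest.Agent.R273.MaxD_127
import Crest.Agent.R273.AlbG_645
import Crest.Agent.R273.EqvA_914
import Crest.Agent.R273.CPI_798

/-!
# R273 (S0416), Part B, leaf MAXQ (helper127), geometric part

* `ker_lamB`   : the kernel of a universal period homomorphism is `HK G`;
* `QU_of_dual` : `QU G` from commuting fields dual to a basis of the closed holomorphic 1-forms;
* `exists_polyLen` : polynomial growth of `G` from the semipositive Ricci form;
* `exists_sub` : **MAXQ**, a subgroup of finite index is commutative with separating real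
  homomorphisms.
-/

set_option autoImplicit false
set_option linter.unusedSectionVars false

open Set Filter Topology Multiplicative

namespace Crest.Agent.R273.Max127

open Crest.Agent.R275.Geo Crest.Agent.R275.Core144 Crest.Agent.R275.GC293
open Crest.Agent.R275.ZC352 Crest.Agent.R273.UCov_914
open Crest.Agent.R273.Defs_333 Crest.Agent.R273.Kah_333 Crest.Agent.R273.Vol_333
open Crest.Agent.R273.RMan_798 Crest.Agent.R273.RMan4_798 Crest.Agent.R273.Alb645
open Crest.Agent.R182.Gromov

noncomputable section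

/-- the kernel of a universal homomorphism is the common kernel of all homomorphisms to `ℝ` -/
theorem ker_of_univ {Γ : Type*} [Group Γ] {V : Type*} [NormedAddCommGroup V] [NormedSpace ℝ V]
    [FiniteDimensional ℝ V] {lam : Γ →* Multiplicative V} (hU : Lat.Univ lam) :
    lam.ker = HK Γ := by
  ext x
  rw [MonoidHom.mem_ker, mem_HK]
  constructor
  · intro hx f
    obtain ⟨ℓ, hℓ, -⟩ := hU f
    have h1 := hℓ x
    rw [hx, toAdd_one, map_zero] at h1
    exact toAdd_eq_zero.1 h1
  · intro hx
    rw [← toAdd_eq_zero]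
    by_contra hne
    obtain ⟨f, hf⟩ := SeparatingDual.exists_ne_zero (R := ℝ) hne
    apply hf
    let F : Γ →* Multiplicative ℝ := (AddMonoidHom.toMultiplicative
      (f.toLinearMap.toAddMonoidHom)).comp lam
    have h1 := hx F
    exact congrArg toAdd h1

variable {n : ℕ} {M : Type} [TopologicalSpace M] {A : Atl n M}
variable {G : Type} [Group G] (D : MonD A G)

section dual

variable {g : ℕ} (S : DualD A g) [CompactSpace M] [T2Space M] [Finite A.ι]
variable [SimplyConnectedSpace (D.cov G)] (hA : GoodA A) (e0 : D.cov G)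

/-- **QU** from commuting fields dual to a universal family of closed forms -/
theorem QU_of_dual [Group.FG G] (hU : Lat.Univ (lamB D hA e0 S.b)) : QU G := by
  have hdis : DiscreteTopology (Lat.L (lamB D hA e0 S.b)) := Lat.discrete_L hU
  have hker := ker_of_univ hU
  have hmem : ∀ γ : G, γ ∈ HK G ↔ tr D S hA e0 γ = 0 := by
    intro γ
    rw [← hker, tr_eq_zero_iff]
  obtain ⟨K, hK, hKc⟩ := ker_fund D S hA e0
  have hne : Nonempty (NN D S hA e0) := ⟨⟨e0, e0_mem D S hA e0⟩⟩
  refine QU_of_action (N := NN D S hA e0) hK ?_ ?_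
  · intro x
    obtain ⟨γ, hγ, hx⟩ := hKc x
    exact ⟨γ, (hmem γ).2 hγ, hx⟩
  · intro L L' hL hL'
    refine (ker_finite D S hA e0 hL hL').subset ?_
    rintro γ ⟨hγ, x, hx, hx'⟩
    exact ⟨(hmem γ).1 hγ, x, hx, hx'⟩

/-- the zero fibre is compact if the homomorphisms to `ℝ` separate the points of `G` -/
theorem compact_of_HK [Group.FG G] (hU : Lat.Univ (lamB D hA e0 S.b)) (h : HK G = ⊥) :
    CompactSpace (NN D S hA e0) := by
  have hdis : DiscreteTopology (Lat.L (lamB D hA e0 S.b)) := Lat.discrete_L hU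
  refine compactSpace_N D S hA e0 ?_
  rw [ker_of_univ hU, h, Subgroup.coe_bot]
  exact Set.finite_singleton 1

theorem lamB_injective [Group.FG G] (hU : Lat.Univ (lamB D hA e0 S.b)) (h : HK G = ⊥) :
    Function.Injective (lamB D hA e0 S.b) := by
  rw [← MonoidHom.ker_eq_bot_iff, ker_of_univ hU, h]

end dual

/-- polynomial growth -/
theorem exists_polyLen [T2Space M] [CompactSpace M] [Finite A.ι] [hfg : Group.FG G]
    [ConnectedSpace (D.cov G)] (K : Kah A) (hK : (volK K).Semipos) :
    ∃ (l : G → ℕ) (C d : ℕ), PolyLen l C d := by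
  obtain ⟨S, hS⟩ := Group.fg_def.1 hfg
  obtain ⟨C, hC, hcov⟩ := D.exists_fund
  obtain ⟨x0⟩ := (inferInstance : Nonempty (D.cov G))
  obtain ⟨i, hi⟩ := A.cover (D.pr x0)
  obtain ⟨C', hC'⟩ := Growth_289.growth_wordLength (m := 2 * n)
    (N := (ofKah (pullKah D G K)).M) (hasRicci _ (volK_pull_semipos D G hK))
    (CPI_798.dist_deck D K) (K := C) hC hcov x0 (U := D.sheet i (D.co i x0))
    ((D.isOpen_sheet i _).mem_nhds ⟨hi, rfl⟩) (by
      intro g hg hmem
      have h1 : D.co i (g • x0) = D.co i x0 := hmem.2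
      rw [D.co_deck] at h1
      exact hg (by simpa using h1)) S hS
  exact ⟨_, C', 2 * n, R182.GromovFinal.polyLen_wordLength hS S.finite_toSet
    fun n hn => (hC' n hn).2⟩

/-- **MAXQ**, with the existence of the dual data on all coverings as hypothesis -/
theorem exists_sub_of [T2Space M] [CompactSpace M] [Finite A.ι] [hfg : Group.FG G]
    [SimplyConnectedSpace (D.cov G)] (hA : GoodA A) (K : Kah A) (hK : (volK K).Semipos)
    (hD : ∀ H : Subgroup G, H.FiniteIndex → ∃ (g : ℕ) (S : DualD (D.atl (G ⧸ H)) g)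
      (e0 : (D.sub H).cov H), Lat.Univ (lamB (D.sub H) (D.goodA (F := G ⧸ H) hA) e0 S.b)) :
    ∃ H : Subgroup G, H.FiniteIndex ∧ (∀ x ∈ H, ∀ y ∈ H, x * y = y * x) ∧ HK H = ⊥ := by
  obtain ⟨l, C, d, hl⟩ := exists_polyLen D K hK
  refine maxg hl fun H hH => ?_
  obtain ⟨g, S, e0, hU⟩ := hD H hH
  have hfin : Finite (G ⧸ H) := Subgroup.finite_quotient_of_finiteIndex
  have hfgH : Group.FG H := Subgroup.fg_of_index_ne_zero H
  exact QU_of_dual (D.sub H) S (D.goodA (F := G ⧸ H) hA) e0 hU

end

end Crest.Agent.R273.Max127
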