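import Crest.Agent.R273.MaxE_127
import Crest.Agent.R273.HFlow7_376

/-!
# R273 (S0416), Part B, leaf MAXQ (helper127), final form

* `DualAt`, `DualStmt` : the output of leaf DUALK (helper376) on all manifolds;
* `exists_nf` : **MAXQ**: a commutative subgroup `H` of finite index together with the dual data
  on the covering `D.cov (G ⧸ H)`: the periods are universal and injective and the zero fibre is
  compact.
-/

set_option autoImplicit false
set_option linter.unusedSectionVars false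

open Set Filter Topology Multiplicative

namespace Crest.Agent.R273.Max127

open Crest.Agent.R275.Geo Crest.Agent.R275.Core144 Crest.Agent.R275.GC293
open Crest.Agent.R275.ZC352 Crest.Agent.R273.UCov_914
open Crest.Agent.R273.Defs_333 Crest.Agent.R273.Kah_333 Crest.Agent.R273.Vol_333
open Crest.Agent.R273.RMan_798 Crest.Agent.R273.RMan4_798 Crest.Agent.R273.Alb645
open Crest.Agent.R273.HFlow7_376 (Par)
open Crest.Agent.R182.Gromov

noncomputable section

/-- dual data with parallel fields, the closed forms being a basis -/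
def DualAt {n : ℕ} {M : Type} [TopologicalSpace M] (A : Atl n M) [Finite A.ι] (P : Part A)
    (K : Kah A) : Prop :=
  HodgeZ A P ∧ ∃ (g : ℕ) (S : DualD A g),
    (∃ bs : Module.Basis (Fin g) ℂ (H1 A), ∀ k, bs k = S.b k) ∧ ∀ k, Par K (S.V k)

/-- the output of leaf DUALK -/
def DualStmt : Prop :=
  ∀ (n : ℕ) (M : Type) [TopologicalSpace M] [T2Space M] [CompactSpace M] [ConnectedSpace M]
    (A : Atl n M) [Finite A.ι] (P : Part A) (K : Kah A), (volK K).Semipos → DualAt A P K

variable {n : ℕ} {M : Type} [TopologicalSpace M] {A : Atl n M}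
variable {G : Type} [Group G] (D : MonD A G)

/-- universality from `DualAt` -/
theorem univ_of_dualAt [CompactSpace M] [T2Space M] [Finite A.ι] [SimplyConnectedSpace (D.cov G)]
    (hA : GoodA A) (P : Part A) (hH : HodgeZ A P) {g : ℕ} (S : DualD A g)
    (hb : ∃ bs : Module.Basis (Fin g) ℂ (H1 A), ∀ k, bs k = S.b k) (e0 : D.cov G) :
    Lat.Univ (lamB D hA e0 S.b) := by
  obtain ⟨bs, hbs⟩ := hb
  have h1 : (fun k => bs k) = S.b := funext hbs
  rw [← h1]
  exact univ_lamB D hA e0 P hH bs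

/-- the dual data on the covering of a subgroup of finite index -/
theorem dual_sub (hDS : DualStmt) [CompactSpace M] [T2Space M] [Finite A.ι]
    [SimplyConnectedSpace (D.cov G)] (P : Part A) (K : Kah A)
    (hK : (volK K).Semipos) (H : Subgroup G) [H.FiniteIndex] :
    HodgeZ (D.atl (G ⧸ H)) (D.pullPart (F := G ⧸ H) P) ∧ ∃ (g : ℕ) (S : DualD (D.atl (G ⧸ H)) g),
      (∃ bs : Module.Basis (Fin g) ℂ (H1 (D.atl (G ⧸ H))), ∀ k, bs k = S.b k) ∧
        ∀ k, Par (pullKah D (G ⧸ H) K) (S.V k) := by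
  have hfin : Finite (G ⧸ H) := Subgroup.finite_quotient_of_finiteIndex
  exact hDS n (D.cov (G ⧸ H)) (D.atl (G ⧸ H)) (D.pullPart (F := G ⧸ H) P)
    (pullKah D (G ⧸ H) K) (volK_pull_semipos D (G ⧸ H) hK)

/-- **MAXQ** -/
theorem exists_nf (hDS : DualStmt) [T2Space M] [CompactSpace M] [Finite A.ι]
    [hfg : Group.FG G] [SimplyConnectedSpace (D.cov G)] (hA : GoodA A) (P : Part A) (K : Kah A)
    (hK : (volK K).Semipos) :
    ∃ (H : Subgroup G) (_ : Finite (G ⧸ H)), H.FiniteIndex ∧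
      (∀ x ∈ H, ∀ y ∈ H, x * y = y * x) ∧
      ∃ (g : ℕ) (S : DualD (D.atl (G ⧸ H)) g),
        (∃ bs : Module.Basis (Fin g) ℂ (H1 (D.atl (G ⧸ H))), ∀ k, bs k = S.b k) ∧
        (∀ k, Par (pullKah D (G ⧸ H) K) (S.V k)) ∧ ∀ e0 : (D.sub H).cov H,
          Lat.Univ (lamB (D.sub H) (D.goodA (F := G ⧸ H) hA) e0 S.b) ∧
          Function.Injective (lamB (D.sub H) (D.goodA (F := G ⧸ H) hA) e0 S.b) ∧
          CompactSpace (NN (D.sub H) S (D.goodA (F := G ⧸ H) hA) e0) := by
  have key : ∀ H : Subgroup G, H.FiniteIndex → ∃ (g : ℕ) (S : DualD (D.atl (G ⧸ H)) g),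
      (∃ bs : Module.Basis (Fin g) ℂ (H1 (D.atl (G ⧸ H))), ∀ k, bs k = S.b k) ∧
        (∀ k, Par (pullKah D (G ⧸ H) K) (S.V k)) ∧ ∀ e0 : (D.sub H).cov H,
          Lat.Univ (lamB (D.sub H) (D.goodA (F := G ⧸ H) hA) e0 S.b) := by
    intro H hH
    have hfin : Finite (G ⧸ H) := Subgroup.finite_quotient_of_finiteIndex
    obtain ⟨hHZ, g, S, hb, hp⟩ := dual_sub D hDS P K hK H
    exact ⟨g, S, hb, hp, fun e0 =>
      univ_of_dualAt (D.sub H) (D.goodA (F := G ⧸ H) hA) _ hHZ S hb e0⟩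
  obtain ⟨H, hH, hcomm, hHK⟩ := exists_sub_of D hA K hK fun H hH => by
    obtain ⟨g, S, -, -, h⟩ := key H hH
    have hc : ConnectedSpace ((D.sub H).cov H) := inferInstance
    exact ⟨g, S, (inferInstance : Nonempty ((D.sub H).cov H)).some, h _⟩
  obtain ⟨g, S, hb, hp, hU⟩ := key H hH
  have hfin : Finite (G ⧸ H) := Subgroup.finite_quotient_of_finiteIndex
  have hfgH : Group.FG H := Subgroup.fg_of_index_ne_zero H
  exact ⟨H, hfin, hH, hcomm, g, S, hb, hp, fun e0 => ⟨hU e0,
    lamB_injective (D.sub H) S (D.goodA (F := G ⧸ H) hA) e0 (hU e0) hHK,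
    compact_of_HK (D.sub H) S (D.goodA (F := G ⧸ H) hA) e0 (hU e0) hHK⟩⟩

end

end Crest.Agent.R273.Max127
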