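import Crest.Agent.R273.MaxF_127
import Crest.Agent.R273.AsmB_534
import Crest.Agent.R273.AlbH_645

/-!
# R273 (S0416), Part B (helper127): the normal form, `NFStmt` of AsmB_534

* `SusOfStmt` : the output of SUSOF (helper645);
* `nf_of`     : `DualStmt → SusOfStmt → NFStmt`.
-/

set_option autoImplicit false
set_option linter.unusedSectionVars false

open Set Filter Topology Multiplicative Function

namespace Crest.Agent.R273.Max127

open Crest.Agent.R275.Geo Crest.Agent.R275.Core144 Crest.Agent.R275.GC293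
open Crest.Agent.R275.ZC352 Crest.Agent.R273.UCov_914
open Crest.Agent.R273.Defs_333 Crest.Agent.R273.Kah_333 Crest.Agent.R273.Vol_333
open Crest.Agent.R273.RMan_798 Crest.Agent.R273.RMan4_798 Crest.Agent.R273.Alb645
open Crest.Agent.R273.HFlow7_376 (Par)
open Crest.Agent.R273.Sus_333 Crest.Agent.R273.AsmB_534

noncomputable section

/-- **SUSOF** (helper645) -/
def SusOfStmt : Prop :=
  ∀ (g d : ℕ) (M : Type) [TopologicalSpace M] [CompactSpace M] [T2Space M] (A : Atl (g + d) M)
    [Finite A.ι] (G : Type) [CommGroup G] (D : MonD A G) [SimplyConnectedSpace (D.cov G)]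
    (S : DualD A g) (hA : GoodA A) (e0 : D.cov G) (K : Kah A)
    (bs : Module.Basis (Fin g) ℂ (H1 A)), (∀ k, bs k = S.b k) → (∀ k, Par K (S.V k)) →
    ∀ B : Atl d (NN D S hA e0),
      HFlow3_376.HolM B (D.atl G) (Subtype.val : NN D S hA e0 → D.cov G) →
      HFlow3_376.HolM (D.atl G) B (rN D S hA e0) →
      ∃ SS : Sus D K B, ∀ γ k, toAdd (SS.lam γ) k = toAdd (lamB D hA e0 S.b γ) k

theorem hasSus_comm (hSus : SusOfStmt) {g d : ℕ} {M : Type} [TopologicalSpace M] [CompactSpace M]
    [T2Space M] {A : Atl (g + d) M} [Finite A.ι] {G : Type} [CommGroup G] [Group.FG G]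
    (D : MonD A G) [SimplyConnectedSpace (D.cov G)] (S : DualD A g) (hA : GoodA A)
    (e0 : D.cov G) (K : Kah A)
    (hb : ∃ bs : Module.Basis (Fin g) ℂ (H1 A), ∀ k, bs k = S.b k) (hp : ∀ k, Par K (S.V k))
    (hinj : Injective (lamB D hA e0 S.b)) [CompactSpace (NN D S hA e0)]
    (T : Ret_155.FAtl (HR D S hA e0)) (hd : T.d = d) : HasSus K := by
  obtain ⟨bs, hbs⟩ := hb
  have h1 : HFlow3_376.HolM T.B (D.atl G) (Subtype.val : NN D S hA e0 → D.cov G) :=
    holM_valT D S hA e0 (FAtl.toG T)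
  have h2 : HFlow3_376.HolM (D.atl G) T.B (rN D S hA e0) :=
    holM_rNT D S hA e0 (FAtl.toG T)
  cases T with
  | mk d' B hfin hgood hpart a cmp sub app =>
  change d' = d at hd
  subst hd
  obtain ⟨SS, hSS⟩ := hSus g d' M A G D S hA e0 K bs hbs hp B h1 h2
  refine HasSus.mk K G D (NN D S hA e0) B hgood hpart SS fun x y hxy => hinj ?_
  apply toAdd.injective
  funext k
  rw [← hSS x k, ← hSS y k, hxy]

/-- the normal form for a commutative group -/
theorem hasSus_of (hSus : SusOfStmt) {n : ℕ} {M : Type} [TopologicalSpace M] [CompactSpace M]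
    [T2Space M] {A : Atl n M} [Finite A.ι] {G : Type} [hG : Group G]
    (hcomm : ∀ x y : G, x * y = y * x) [hfg : Group.FG G] (D : MonD A G)
    [hsc : SimplyConnectedSpace (D.cov G)] {g : ℕ} (S : DualD A g) (hA : GoodA A)
    (e0 : D.cov G) (K : Kah A)
    (hb : ∃ bs : Module.Basis (Fin g) ℂ (H1 A), ∀ k, bs k = S.b k) (hp : ∀ k, Par K (S.V k))
    (hinj : Injective (lamB D hA e0 S.b)) (hcpt : CompactSpace (NN D S hA e0)) :
    HasSus K := by
  obtain ⟨T⟩ := exists_fN D S hA e0
  have hdim : g + T.d = n := dim_NT D S hA e0 (FAtl.toG T)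
  obtain ⟨d, hd⟩ : ∃ d, T.d = d := ⟨_, rfl⟩
  rw [hd] at hdim
  subst hdim
  exact @hasSus_comm hSus g d M _ _ _ A _ G (CommGroup.mk hcomm) hfg D hsc S hA e0 K hb hp hinj
    hcpt T hd

/-- **NF** -/
theorem nf_of (hDS : DualStmt) (hSus : SusOfStmt) : NFStmt := by
  intro n M _ _ _ _ A _ hA P K hK
  have hlp : LocallyPathConnectedSpace M := locPath A
  have hpc : PathConnectedSpace M := pathConnectedSpace_iff_connectedSpace.2 inferInstance
  obtain ⟨x0⟩ := (inferInstance : Nonempty M)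
  have hfg : Group.FG (FundamentalGroup M x0) := fg hA x0
  have hsc : SimplyConnectedSpace ((uD hA x0).cov (FundamentalGroup M x0)) :=
    simplyConnected hA x0
  obtain ⟨H, hfin, hH, hcomm, g, S, hb, hp, h⟩ := exists_nf (uD hA x0) hDS hA P K hK
  have hfgH : Group.FG H := Subgroup.fg_of_index_ne_zero H
  have hne : Nonempty (((uD hA x0).sub H).cov H) := inferInstance
  obtain ⟨e0⟩ := hne
  obtain ⟨-, hinj, hcpt⟩ := h e0
  refine ⟨FundamentalGroup M x0, inferInstance, uD hA x0, FundamentalGroup M x0 ⧸ H,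
    inferInstance, hfin, inferInstance, inferInstance, ?_⟩
  exact hasSus_of hSus (fun x y => Subtype.ext (hcomm x x.2 y y.2)) ((uD hA x0).sub H) S
    ((uD hA x0).goodA (F := FundamentalGroup M x0 ⧸ H) hA) e0
    (pullKah (uD hA x0) (FundamentalGroup M x0 ⧸ H) K) hb hp hinj hcpt

end

end Crest.Agent.R273.Max127
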