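import Crest.Agent.R271.W_792
import Crest.Agent.R271.H3_51
import Crest.Agent.R271.T7b1_868
import Crest.Agent.R266.Osgood

/-!
# Row 273, Ohsawa–Takegoshi: calculus (helper34)

`pz φ x w = ∂φ(w)`; Levi form and gradient of `t = log (|h|² + ε² e^Ψ) - Ψ`; the two notions
of holomorphic functions on a Riemann domain agree (`hol_iff`).
-/

set_option autoImplicit false
set_option linter.unusedSectionVars false

noncomputable section

open Set Filter Topology ComplexConjugate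

namespace Crest.Agent.R273.OTA_34

open Crest.Agent.R271.Ho51 Crest.Agent.R271 Complex

variable {n : ℕ} {M : Type*} [TopologicalSpace M] [RDom n M]

open W792 (lev dsq)

/-! ### holomorphic functions -/

theorem hol_of (f : M → ℂ) (hf : Ho51.Hol f) : W792.Hol f := by
  have key : ∀ x, ∀ᶠ z in 𝓝 (cp x), DifferentiableAt ℂ (f ∘ (ch x).symm) z := by
    intro x
    have h1 := hf (ch x) (isCh_ch x)
    filter_upwards [(ch x).open_target.mem_nhds ((isCh_ch x).cp_mem (mem_ch x))] with z hz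
    exact h1.differentiableAt ((ch x).open_target.mem_nhds hz)
  have hdo : ∀ x, DifferentiableOn ℂ (f ∘ (ch x).symm) (ch x).target := fun x =>
    hf (ch x) (isCh_ch x)
  refine ⟨fun x => ?_, fun x w => ?_⟩
  · have h1 : AnalyticAt ℂ (f ∘ (ch x).symm) (cp x) :=
      Crest.Agent.R266.SCV.analyticOnNhd_of_differentiableOn (ch x).open_target (hdo x) _
        ((isCh_ch x).cp_mem (mem_ch x))
    exact (h1.restrictScalars (𝕜 := ℝ)).contDiffAt
  · have h1 := (key x).self_of_nhds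
    unfold D
    rw [h1.fderiv_restrictScalars ℝ]
    simp

theorem hol_to (f : M → ℂ) (hf : W792.Hol f) : Ho51.Hol f := by
  intro e he z hz
  set x : M := e.symm z with hx
  have hxe : x ∈ e.source := e.map_target hz
  have h1 : DifferentiableAt ℝ (f ∘ e.symm) z :=
    (hf.sm.contDiffAt' he hz).differentiableAt (by simp)
  have h2 : D f x = fderiv ℝ (f ∘ e.symm) z := D_symm he hz f
  have h3 : ∀ w, fderiv ℝ (f ∘ e.symm) z (I • w) = I • fderiv ℝ (f ∘ e.symm) z w := by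
    intro w
    rw [← h2, hf.cl x w, smul_eq_mul]
  let L : (Fin n → ℂ) →L[ℂ] ℂ :=
    { toFun := fderiv ℝ (f ∘ e.symm) z
      map_add' := map_add _
      map_smul' := fun c w => by
        have hc : c = (c.re : ℂ) + (c.im : ℂ) * I := (Complex.re_add_im c).symm
        have e1 : c • w = c.re • w + c.im • (I • w) := by
          conv_lhs => rw [hc]
          rw [add_smul, mul_smul]
          rfl
        rw [e1, map_add, map_smul, map_smul, h3]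
        simp only [RingHom.id_apply, smul_eq_mul, Complex.real_smul]
        conv_rhs => rw [hc]
        ring
      cont := (fderiv ℝ (f ∘ e.symm) z).continuous }
  have h4 : HasFDerivAt (f ∘ e.symm) L z := by
    rw [hasFDerivAt_iff_isLittleO_nhds_zero]
    have := h1.hasFDerivAt
    rw [hasFDerivAt_iff_isLittleO_nhds_zero] at this
    exact this
  exact h4.differentiableAt.differentiableWithinAt

theorem hol_iff (f : M → ℂ) : Ho51.Hol f ↔ W792.Hol f := ⟨hol_of f, hol_to f⟩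

lemma db_hol {f : M → ℂ} (hf : W792.Hol f) (j : Fin n) (x : M) : db j f x = 0 := by
  rw [db_eq]
  have h1 : (Pi.single j Complex.I : Fin n → ℂ) = I • (Pi.single j (1 : ℂ) : Fin n → ℂ) := by
    rw [← Pi.single_smul]; simp
  rw [h1, hf.cl]
  ring_nf
  rw [Complex.I_sq]
  ring

/-! ### the complex gradient -/

/-- `∂φ(w)` -/
def pz (φ : M → ℝ) (x : M) (w : Fin n → ℂ) : ℂ :=
  (1 / 2 : ℂ) * ((D φ x w : ℂ) - I * (D φ x (I • w) : ℂ))

lemma dsq_eq (φ : M → ℝ) (x : M) (w : Fin n → ℂ) : dsq φ x w = ‖pz φ x w‖ ^ 2 := by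
  unfold dsq pz
  rw [norm_mul, mul_pow, ← Complex.normSq_eq_norm_sq (_ - _)]
  simp only [Complex.normSq_apply, Complex.sub_re, Complex.sub_im, Complex.mul_re, Complex.mul_im,
    Complex.ofReal_re, Complex.ofReal_im, Complex.I_re, Complex.I_im]
  norm_num
  ring

lemma sum_dz {φ : M → ℝ} (hφ : Sm φ) (x : M) (w : Fin n → ℂ) :
    ∑ j, w j * dz j (fun y => (φ y : ℂ)) x = pz φ x w := by
  have h1 := W792.D_wirtinger (fun y => (φ y : ℂ)) x w
  have h2 := W792.D_wirtinger (fun y => (φ y : ℂ)) x (I • w)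
  rw [D_ofReal hφ] at h1 h2
  unfold pz
  rw [h1, h2, Finset.mul_sum, ← Finset.sum_sub_distrib, Finset.mul_sum]
  refine Finset.sum_congr rfl fun j _ => ?_
  simp only [Pi.smul_apply, smul_eq_mul, map_mul, Complex.conj_I]
  ring_nf
  rw [Complex.I_sq]
  ring

lemma pz_add {φ ψ : M → ℝ} (hφ : Sm φ) (hψ : Sm ψ) (x : M) (w : Fin n → ℂ) :
    pz (fun y => φ y + ψ y) x w = pz φ x w + pz ψ x w := by
  unfold pz
  rw [D_add hφ hψ]
  simp only [_root_.add_apply]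
  push_cast; ring

lemma pz_sub {φ ψ : M → ℝ} (hφ : Sm φ) (hψ : Sm ψ) (x : M) (w : Fin n → ℂ) :
    pz (fun y => φ y - ψ y) x w = pz φ x w - pz ψ x w := by
  unfold pz
  rw [D_sub hφ hψ]
  simp only [_root_.sub_apply]
  push_cast; ring

lemma pz_comp {φ : M → ℝ} (hφ : Sm φ) {g : ℝ → ℝ} {g' : ℝ} (x : M)
    (hg : HasDerivAt g g' (φ x)) (w : Fin n → ℂ) :
    pz (fun y => g (φ y)) x w = g' * pz φ x w := by
  unfold pz
  rw [D_comp_real hφ x hg, D_comp_real hφ x hg]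
  push_cast; ring

lemma pz_const_mul {φ : M → ℝ} (hφ : Sm φ) (c : ℝ) (x : M) (w : Fin n → ℂ) :
    pz (fun y => c * φ y) x w = c * pz φ x w :=
  pz_comp hφ (g := fun t => c * t) x (by simpa using (hasDerivAt_id (φ x)).const_mul c) w

lemma pz_normSq {f : M → ℂ} (hf : W792.Hol f) (x : M) (w : Fin n → ℂ) :
    pz (fun y => ‖f y‖ ^ 2) x w = conj (f x) * D f x w := by
  unfold pz
  rw [W792.D_normSq hf.sm, W792.D_normSq hf.sm, hf.cl]
  apply Complex.ext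
  · simp only [Complex.mul_re, Complex.sub_re, Complex.mul_im, Complex.sub_im, Complex.ofReal_re,
      Complex.ofReal_im, Complex.I_re, Complex.I_im, Complex.conj_re, Complex.conj_im]
    norm_num
    ring
  · simp only [Complex.mul_re, Complex.sub_re, Complex.mul_im, Complex.sub_im, Complex.ofReal_re,
      Complex.ofReal_im, Complex.I_re, Complex.I_im, Complex.conj_re, Complex.conj_im]
    norm_num
    ring

/-! ### `log u` -/

lemma lev_log {u : M → ℝ} (hu : Sm u) (hu0 : ∀ x, 0 < u x) (x : M) (w : Fin n → ℂ) :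
    lev (fun y => Real.log (u y)) x w = lev u x w / u x - ‖pz u x w‖ ^ 2 / (u x) ^ 2 := by
  have h1 := W792.lev_comp (g := Real.log) (g' := fun t => t⁻¹) (g'' := -((u x) ^ 2)⁻¹) hu x
    ((lt_mem_nhds (hu0 x)).mono fun t ht => Real.hasDerivAt_log (ne_of_gt ht))
    (by
      have := hasDerivAt_inv (ne_of_gt (hu0 x))
      simpa using this) w
    (Sm.comp_at (g := fun t => t⁻¹) hu fun y => contDiffAt_inv ℝ (ne_of_gt (hu0 y)))
  rw [h1, dsq_eq]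
  field_simp
  ring

lemma pz_log {u : M → ℝ} (hu : Sm u) (hu0 : ∀ x, 0 < u x) (x : M) (w : Fin n → ℂ) :
    pz (fun y => Real.log (u y)) x w = ((u x)⁻¹ : ℝ) * pz u x w :=
  pz_comp hu x (Real.hasDerivAt_log (ne_of_gt (hu0 x))) w

lemma sm_log {u : M → ℝ} (hu : Sm u) (hu0 : ∀ x, 0 < u x) : Sm (fun y => Real.log (u y)) :=
  Sm.comp_at (g := Real.log) hu fun y => contDiffAt_id.log (ne_of_gt (hu0 y))

/-! ### the function `t` -/

/-- `u = |h|² + ε² e^Ψ` -/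
def uu (h : M → ℂ) (Ψ : M → ℝ) (ε : ℝ) (x : M) : ℝ := ‖h x‖ ^ 2 + ε ^ 2 * Real.exp (Ψ x)

/-- `t = log u - Ψ = log (|h|² e^{-Ψ} + ε²)` -/
def tt (h : M → ℂ) (Ψ : M → ℝ) (ε : ℝ) (x : M) : ℝ := Real.log (uu h Ψ ε x) - Ψ x

/-- `β = ∂h - h ∂Ψ` -/
def bb (h : M → ℂ) (Ψ : M → ℝ) (x : M) (w : Fin n → ℂ) : ℂ := D h x w - h x * pz Ψ x w

variable {h : M → ℂ} {Ψ : M → ℝ} {ε : ℝ}

lemma uu_pos (hε : 0 < ε) (x : M) : 0 < uu h Ψ ε x := by
  unfold uu; positivity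

lemma sm_exp (hΨ : Sm Ψ) : Sm (fun x => Real.exp (Ψ x)) :=
  Sm.comp (Real.contDiff_exp.of_le le_top) hΨ

lemma sm_uu (hh : Sm h) (hΨ : Sm Ψ) : Sm (uu h Ψ ε) :=
  (W792.Hol.sm_normSq hh).add ((Sm.const (ε ^ 2)).mulR (sm_exp hΨ))

lemma sm_tt (hh : Sm h) (hΨ : Sm Ψ) (hε : 0 < ε) : Sm (tt h Ψ ε) :=
  (sm_log (sm_uu hh hΨ) (uu_pos hε)).sub hΨ

lemma lev_exp (hΨ : Sm Ψ) (x : M) (w : Fin n → ℂ) :
    lev (fun y => Real.exp (Ψ y)) x w = Real.exp (Ψ x) * (‖pz Ψ x w‖ ^ 2 + lev Ψ x w) := by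
  have h1 := W792.lev_comp (g := Real.exp) (g' := Real.exp) (g'' := Real.exp (Ψ x)) hΨ x
    (Eventually.of_forall fun t => Real.hasDerivAt_exp t) (Real.hasDerivAt_exp _) w (sm_exp hΨ)
  rw [h1, dsq_eq]; ring

lemma lev_uu (hh : W792.Hol h) (hΨ : Sm Ψ) (x : M) (w : Fin n → ℂ) :
    lev (uu h Ψ ε) x w = ‖D h x w‖ ^ 2 +
      ε ^ 2 * Real.exp (Ψ x) * (‖pz Ψ x w‖ ^ 2 + lev Ψ x w) := by
  unfold uu
  rw [W792.lev_add (W792.Hol.sm_normSq hh.sm) ((Sm.const (ε ^ 2)).mulR (sm_exp hΨ)),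
    W792.lev_const_mul (sm_exp hΨ), W792.lev_normSq hh, lev_exp hΨ]
  ring

lemma pz_uu (hh : W792.Hol h) (hΨ : Sm Ψ) (x : M) (w : Fin n → ℂ) :
    pz (uu h Ψ ε) x w = conj (h x) * D h x w +
      ((ε ^ 2 * Real.exp (Ψ x) : ℝ) : ℂ) * pz Ψ x w := by
  unfold uu
  rw [pz_add (W792.Hol.sm_normSq hh.sm) ((Sm.const (ε ^ 2)).mulR (sm_exp hΨ)),
    pz_const_mul (sm_exp hΨ), pz_normSq hh, pz_comp hΨ x (Real.hasDerivAt_exp _)]
  push_cast; ring

/-- the algebraic identity -/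
lemma alg_id (a d p : ℂ) (E L : ℝ) (hu : 0 < ‖a‖ ^ 2 + E) :
    (‖d‖ ^ 2 + E * (‖p‖ ^ 2 + L)) / (‖a‖ ^ 2 + E) -
      ‖conj a * d + (E : ℂ) * p‖ ^ 2 / (‖a‖ ^ 2 + E) ^ 2 - L =
    -(‖a‖ ^ 2 / (‖a‖ ^ 2 + E)) * L + E * ‖d - a * p‖ ^ 2 / (‖a‖ ^ 2 + E) ^ 2 := by
  have e1 : ‖conj a * d + (E : ℂ) * p‖ ^ 2 =
      (‖a‖ ^ 2 + E) * (‖d‖ ^ 2 + E * ‖p‖ ^ 2) - E * ‖d - a * p‖ ^ 2 := by
    simp only [← Complex.normSq_eq_norm_sq, Complex.normSq_apply, Complex.add_re, Complex.add_im,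
      Complex.sub_re, Complex.sub_im, Complex.mul_re, Complex.mul_im, Complex.conj_re,
      Complex.conj_im, Complex.ofReal_re, Complex.ofReal_im]
    ring
  rw [e1]
  field_simp
  ring

lemma lev_tt (hh : W792.Hol h) (hΨ : Sm Ψ) (hε : 0 < ε) (x : M) (w : Fin n → ℂ) :
    lev (tt h Ψ ε) x w = -(‖h x‖ ^ 2 / uu h Ψ ε x) * lev Ψ x w +
      (ε ^ 2 * Real.exp (Ψ x)) * ‖bb h Ψ x w‖ ^ 2 / (uu h Ψ ε x) ^ 2 := by
  have h0 : lev (tt h Ψ ε) x w = lev (fun y => Real.log (uu h Ψ ε y)) x w +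
      lev (fun y => (-1) * Ψ y) x w := by
    rw [← W792.lev_add (sm_log (sm_uu hh.sm hΨ) (uu_pos hε)) ((Sm.const (-1)).mulR hΨ)]
    congr 1
    funext y
    unfold tt; ring
  rw [h0, W792.lev_const_mul hΨ, lev_log (sm_uu hh.sm hΨ) (uu_pos hε), lev_uu hh hΨ,
    pz_uu hh hΨ]
  have hE : (0 : ℝ) < ‖h x‖ ^ 2 + ε ^ 2 * Real.exp (Ψ x) := uu_pos hε x
  have := alg_id (h x) (D h x w) (pz Ψ x w) (ε ^ 2 * Real.exp (Ψ x)) (lev Ψ x w) hE
  unfold uu bb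
  linarith

lemma pz_tt (hh : W792.Hol h) (hΨ : Sm Ψ) (hε : 0 < ε) (x : M) (w : Fin n → ℂ) :
    pz (tt h Ψ ε) x w = ((uu h Ψ ε x)⁻¹ : ℝ) * (conj (h x) * bb h Ψ x w) := by
  have h0 : pz (tt h Ψ ε) x w = pz (fun y => Real.log (uu h Ψ ε y)) x w - pz Ψ x w :=
    pz_sub (sm_log (sm_uu hh.sm hΨ) (uu_pos hε)) hΨ x w
  rw [h0, pz_log (sm_uu hh.sm hΨ) (uu_pos hε), pz_uu hh hΨ]
  have hu := (uu_pos (h := h) (Ψ := Ψ) hε x)
  have hu' : ((uu h Ψ ε x : ℝ) : ℂ) ≠ 0 := by exact_mod_cast hu.ne'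
  have e1 : ((uu h Ψ ε x : ℝ) : ℂ) = conj (h x) * h x +
      ((ε ^ 2 * Real.exp (Ψ x) : ℝ) : ℂ) := by
    unfold uu
    push_cast
    rw [Complex.conj_mul']
  unfold bb
  push_cast at e1 ⊢
  field_simp
  rw [e1]
  ring

lemma norm_pz_tt (hh : W792.Hol h) (hΨ : Sm Ψ) (hε : 0 < ε) (x : M) (w : Fin n → ℂ) :
    ‖pz (tt h Ψ ε) x w‖ ^ 2 = ‖h x‖ ^ 2 * ‖bb h Ψ x w‖ ^ 2 / (uu h Ψ ε x) ^ 2 := by
  rw [pz_tt hh hΨ hε, norm_mul, norm_mul, mul_pow, mul_pow, Complex.norm_real, RCLike.norm_conj,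
    Real.norm_eq_abs, sq_abs]
  have hu := (uu_pos (h := h) (Ψ := Ψ) hε x)
  field_simp

end Crest.Agent.R273.OTA_34
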