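import Crest.Agent.R271.T7a_297

/-!
# Row 273, twisted engine: the limit argument, with pointwise convergence (helper34; adapted from
`R271/T7a_297`)

`limit_hol` : `F_k` holomorphic on `M`, `φ_k` continuous decreasing,
`∫_{ρ ≤ k} |F_k - G|² e^{-φ_k} ≤ K` ⇒ along an ultrafilter `F_k → F₀` pointwise, `F₀` holomorphic,
`∫ |F₀ - G|² sup_k e^{-φ_k} ≤ K`.
-/

set_option autoImplicit false
set_option linter.unusedSectionVars false

noncomputable section

open Set Filter Topology MeasureTheory Metric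
open scoped ENNReal

namespace Crest.Agent.R273.TwL_34

open Crest.Agent.R271.Ho51 Crest.Agent.R271.T7a297

variable {n : ℕ} {M : Type*} [TopologicalSpace M] [RDom n M]

variable [T2Space M] [SecondCountableTopology M] [MeasurableSpace M] [BorelSpace M]

variable {μ : Measure M} {ρ : M → ℝ} {φ : ℕ → M → ℝ} {G : M → ℂ} {F : ℕ → M → ℂ} {K : ℝ≥0∞}

/-- **limit lemma** -/
theorem limit_hol (hμ : IsLeb μ) (ρ : M → ℝ) (hρ : Continuous ρ)
    (hcpt : ∀ t, IsCompact {x | ρ x ≤ t})
    (φ : ℕ → M → ℝ) (hφ : ∀ k, Continuous (φ k)) (hmono : ∀ k x, φ (k + 1) x ≤ φ k x)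
    (G : M → ℂ) (hG : Continuous G) (F : ℕ → M → ℂ) (hF : ∀ k, Hol (F k))
    (K : ℝ≥0∞) (hK : K ≠ ⊤)
    (hb : ∀ k : ℕ, ∫⁻ x in {x | ρ x ≤ k},
      ENNReal.ofReal (‖F k x - G x‖ ^ 2 * Real.exp (-φ k x)) ∂μ ≤ K) :
    ∃ F0 : M → ℂ, Hol F0 ∧
      (∀ x, Tendsto (fun j => F j x) (hyperfilter ℕ : Filter ℕ) (𝓝 (F0 x))) ∧
      ∫⁻ x, ENNReal.ofReal (‖F0 x - G x‖ ^ 2) * (⨆ k, ENNReal.ofReal (Real.exp (-φ k x))) ∂μ
        ≤ K := by
  have hloc := fun {e : OpenPartialHomeomorph M (Fin n → ℂ)} (he : IsCh e) {z : Fin n → ℂ}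
    (hz : z ∈ e.target) => local_montel hμ hρ hφ hmono hG hF hK hb he hz
  set l : Filter ℕ := (hyperfilter ℕ : Filter ℕ) with hl
  -- pointwise limits
  set F0 : M → ℂ := fun x => limUnder l (fun j => F j x) with hF0
  have hlim : ∀ x, Tendsto (fun j => F j x) l (𝓝 (F0 x)) := by
    intro x
    obtain ⟨r, hr, -, f0, -, hf0⟩ := hloc (isCh_ch x) ((isCh_ch x).cp_mem (mem_ch x))
    have h1 := hf0.tendsto_at (mem_ball_self hr)
    have h2 : Tendsto (fun j => F j x) l (𝓝 (f0 (cp x))) := by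
      simpa [symm_cp] using h1
    exact tendsto_nhds_limUnder ⟨_, h2⟩
  have hagree : ∀ {e : OpenPartialHomeomorph M (Fin n → ℂ)} {z : Fin n → ℂ} {r : ℝ}
      {f0 : (Fin n → ℂ) → ℂ}, TendstoLocallyUniformlyOn (fun j => F j ∘ e.symm) f0 l (ball z r) →
      ∀ y ∈ ball z r, f0 y = F0 (e.symm y) := by
    intro e z r f0 hf0 y hy
    exact tendsto_nhds_unique (hf0.tendsto_at hy) (hlim (e.symm y))
  have hHol : Hol F0 := by
    intro e he z hz
    obtain ⟨r, hr, hsub, f0, hd, hf0⟩ := hloc he hz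
    have h1 : DifferentiableAt ℂ f0 z := hd.differentiableAt (isOpen_ball.mem_nhds (mem_ball_self hr))
    refine (h1.congr_of_eventuallyEq ?_).differentiableWithinAt
    filter_upwards [isOpen_ball.mem_nhds (mem_ball_self hr)] with y hy
    exact (hagree hf0 y hy).symm
  have hF0c : Continuous F0 := Hol.continuous hHol
  have hLU : TendstoLocallyUniformly F F0 l := by
    intro u hu x
    obtain ⟨r, hr, hsub, f0, hd, hf0⟩ := hloc (isCh_ch x) ((isCh_ch x).cp_mem (mem_ch x))
    obtain ⟨t, ht, hev⟩ := hf0 u hu (cp x) (mem_ball_self hr)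
    rw [isOpen_ball.nhdsWithin_eq (mem_ball_self hr)] at ht
    refine ⟨(ch x).source ∩ cp ⁻¹' (t ∩ ball (cp x) r), inter_mem
      ((ch x).open_source.mem_nhds (mem_ch x)) (cp_cont.continuousAt.preimage_mem_nhds
        (inter_mem ht (isOpen_ball.mem_nhds (mem_ball_self hr)))), ?_⟩
    filter_upwards [hev] with j hj y hy
    have h1 := hj (cp y) hy.2.1
    rw [hagree hf0 _ hy.2.2] at h1
    simpa [(isCh_ch x).symm_cp hy.1] using h1
  have hle : l ≤ atTop := by
    rw [← Nat.cofinite_eq_atTop]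
    exact hyperfilter_le_cofinite
  -- a subsequence converging uniformly on the sublevel sets
  have hsub : ∀ m : ℕ, ∃ j : ℕ, m ≤ j ∧ ∀ x, ρ x ≤ m → dist (F0 x) (F j x) < 1 / ((m : ℝ) + 1) := by
    intro m
    have h1 : TendstoUniformlyOn F F0 l {x | ρ x ≤ (m : ℝ)} :=
      (tendstoLocallyUniformlyOn_iff_tendstoUniformlyOn_of_compact (hcpt m)).1
        hLU.tendstoLocallyUniformlyOn
    have h2 := (Metric.tendstoUniformlyOn_iff.1 h1) (1 / ((m : ℝ) + 1)) (by positivity)
    have h3 : ∀ᶠ j in l, m ≤ j := hle (eventually_ge_atTop m)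
    obtain ⟨j, hj1, hj2⟩ := (h3.and h2).exists
    exact ⟨j, hj1, fun x hx => hj2 x hx⟩
  choose J hJ1 hJ2 using hsub
  have hJlim : ∀ x, Tendsto (fun m => F (J m) x) atTop (𝓝 (F0 x)) := by
    intro x
    rw [tendsto_iff_dist_tendsto_zero]
    refine squeeze_zero' (Eventually.of_forall fun _ => dist_nonneg) ?_
      tendsto_one_div_add_atTop_nhds_zero_nat
    obtain ⟨m0, hm0⟩ := exists_nat_ge (ρ x)
    filter_upwards [eventually_ge_atTop m0] with m hm
    rw [dist_comm]
    exact (hJ2 m x (hm0.trans (by exact_mod_cast hm))).le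
  have hFc : ∀ j, Continuous (F j) := fun j => Hol.continuous (hF j)
  have hmeasS : ∀ k : ℕ, MeasurableSet {x | ρ x ≤ (k : ℝ)} := fun k =>
    (isClosed_le hρ continuous_const).measurableSet
  -- Fatou
  have hfatou : ∀ k : ℕ, ∫⁻ x in {x | ρ x ≤ (k : ℝ)},
      ENNReal.ofReal (‖F0 x - G x‖ ^ 2) * ENNReal.ofReal (Real.exp (-φ k x)) ∂μ ≤ K := by
    intro k
    have h1 : ∀ x, ENNReal.ofReal (‖F0 x - G x‖ ^ 2) * ENNReal.ofReal (Real.exp (-φ k x)) =
        liminf (fun m => ENNReal.ofReal (‖F (J m) x - G x‖ ^ 2 * Real.exp (-φ k x))) atTop := by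
      intro x
      have h2 : Tendsto (fun m => ENNReal.ofReal (‖F (J m) x - G x‖ ^ 2 * Real.exp (-φ k x)))
          atTop (𝓝 (ENNReal.ofReal (‖F0 x - G x‖ ^ 2 * Real.exp (-φ k x)))) :=
        (ENNReal.continuous_ofReal.tendsto _).comp
          (((((hJlim x).sub_const (G x)).norm).pow 2).mul_const _)
      rw [h2.liminf_eq, ENNReal.ofReal_mul (by positivity)]
    simp only [h1]
    refine (lintegral_liminf_le fun m => ?_).trans ?_
    · exact (((((hFc (J m)).sub hG).norm.pow 2).mul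
        (Real.continuous_exp.comp (hφ k).neg))).measurable.ennreal_ofReal
    · refine liminf_le_of_frequently_le' (Eventually.frequently ?_)
      filter_upwards [eventually_ge_atTop k] with m hm
      have hkJ : k ≤ J m := hm.trans (hJ1 m)
      refine le_trans ?_ (hb (J m))
      refine (setLIntegral_mono' (hmeasS k) (g := fun x =>
        ENNReal.ofReal (‖F (J m) x - G x‖ ^ 2 * Real.exp (-φ (J m) x))) fun x _ => ?_).trans
        (lintegral_mono_set fun x hx => ?_)
      · refine ENNReal.ofReal_le_ofReal (mul_le_mul_of_nonneg_left ?_ (by positivity))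
        exact Real.exp_le_exp.2 (neg_le_neg (anti_aux hmono hkJ x))
      · exact le_trans (show ρ x ≤ (k : ℝ) from hx) (by exact_mod_cast hkJ)
  -- monotone convergence
  refine ⟨F0, hHol, hlim, ?_⟩
  set g : ℕ → M → ℝ≥0∞ := fun k => {x | ρ x ≤ (k : ℝ)}.indicator
    (fun x => ENNReal.ofReal (‖F0 x - G x‖ ^ 2) * ENNReal.ofReal (Real.exp (-φ k x))) with hg
  have hgm : ∀ k, Measurable (g k) := fun k =>
    ((((hF0c.sub hG).norm.pow 2).measurable.ennreal_ofReal).mul
      (Real.continuous_exp.comp (hφ k).neg).measurable.ennreal_ofReal).indicator (hmeasS k)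
  have hexp : ∀ x {k k' : ℕ}, k ≤ k' → ENNReal.ofReal (Real.exp (-φ k x)) ≤
      ENNReal.ofReal (Real.exp (-φ k' x)) := fun x k k' h =>
    ENNReal.ofReal_le_ofReal (Real.exp_le_exp.2 (neg_le_neg (anti_aux hmono h x)))
  have hgmono : Monotone g := by
    intro k k' hkk' x
    by_cases hx : ρ x ≤ (k : ℝ)
    · have hx' : ρ x ≤ (k' : ℝ) := hx.trans (by exact_mod_cast hkk')
      simp only [hg, indicator_of_mem (show x ∈ {x | ρ x ≤ (k : ℝ)} from hx),
        indicator_of_mem (show x ∈ {x | ρ x ≤ (k' : ℝ)} from hx')]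
      exact mul_le_mul_right (hexp x hkk') _
    · simp only [hg, indicator_of_notMem (show x ∉ {x | ρ x ≤ (k : ℝ)} from hx)]
      exact zero_le
  have hsup : ∀ x, ENNReal.ofReal (‖F0 x - G x‖ ^ 2) *
      (⨆ k, ENNReal.ofReal (Real.exp (-φ k x))) = ⨆ k, g k x := by
    intro x
    rw [ENNReal.mul_iSup]
    apply le_antisymm
    · refine iSup_le fun k => ?_
      obtain ⟨m0, hm0⟩ := exists_nat_ge (ρ x)
      have hx : ρ x ≤ ((max k m0 : ℕ) : ℝ) := hm0.trans (by exact_mod_cast le_max_right _ _)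
      refine le_trans ?_ (le_iSup (fun k => g k x) (max k m0))
      simp only [hg, indicator_of_mem (show x ∈ {x | ρ x ≤ ((max k m0 : ℕ) : ℝ)} from hx)]
      exact mul_le_mul_right (hexp x (le_max_left _ _)) _
    · refine iSup_mono fun k => ?_
      exact indicator_le_self _ _ _
  simp only [hsup]
  rw [lintegral_iSup hgm hgmono]
  refine iSup_le fun k => ?_
  simp only [hg]
  rw [lintegral_indicator (hmeasS k)]
  exact hfatou k


end Crest.Agent.R273.TwL_34
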