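import Crest.Agent.R273.TwB_34
import Crest.Agent.R273.TwL_34

/-!
# Row 273: the TWISTED HÖRMANDER ENGINE on Riemann domains (helper34)

`M` a Riemann domain over `ℂⁿ` with a smooth strictly psh exhaustion `ρ`; `Φ, ψ, q` smooth real
functions, `q ≥ 2`, `c > 1`; `Bt c Φ ψ q x w = Levi (Φ+ψ) x w - c q/(q-1) |∑ w_j ∂_jψ|² ≥ 0`;
`G` smooth with `|∑ ∂̄_jG conj w_j|² ≤ κ Bt`.  Then there is `F` holomorphic with
`∫ |F-G|² e^{ψ-Φ}/q ≤ ∫ κ e^{ψ-Φ}` (`twE_step` : on a sublevel set, `twE` : globally).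
-/

set_option autoImplicit false
set_option linter.unusedSectionVars false

noncomputable section

open Set Filter Topology MeasureTheory ComplexConjugate
open scoped ENNReal

namespace Crest.Agent.R273.TwE_34

open Crest.Agent.R271.Ho51 Crest.Agent.R271.H88 Crest.Agent.R271 Crest.Agent.R273.TwA_34
  Crest.Agent.R273.TwB_34

variable {n : ℕ} {M : Type*} [TopologicalSpace M] [T2Space M] [SecondCountableTopology M]
  [RDom n M] [MeasurableSpace M] [BorelSpace M] {μ : Measure M} {c : ℝ}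

/-- one weight, one sublevel set, measurable `κ` -/
theorem step_meas (hμ : IsLeb μ) {ρ : M → ℝ} (hρ : Sm ρ)
    (hcpt : ∀ t : ℝ, IsCompact {x | ρ x ≤ t}) (hL : ∀ x w, nsq w ≤ Levi ρ x w) (a : ℝ)
    (hc1 : 1 < c) {Φ ψ q : M → ℝ} (hΦ : Sm Φ) (hψ : Sm ψ) (hq : Sm q) (hq2 : ∀ x, 2 ≤ q x)
    (hpos : ∀ x w, 0 ≤ Bt c Φ ψ q x w) {G : M → ℂ} (hG : Sm G)
    {κ : M → ℝ} (hκ0 : ∀ x, 0 ≤ κ x) (hκm : Measurable κ)
    (hk : ∀ x (w : Fin n → ℂ), ‖∑ j, db j G x * conj (w j)‖ ^ 2 ≤ κ x * Bt c Φ ψ q x w)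
    {K0 : ℝ} (hK0 : 0 ≤ K0)
    (hKint : ∫⁻ x, ENNReal.ofReal (κ x * Real.exp (ψ x - Φ x)) ∂μ ≤ ENNReal.ofReal K0) :
    ∃ F : M → ℂ, Hol F ∧ ∫⁻ x in {x | ρ x ≤ a},
      ENNReal.ofReal (‖F x - G x‖ ^ 2 * (Real.exp (ψ x - Φ x) / q x)) ∂μ ≤
        ENNReal.ofReal K0 := by
  have hΦc := hΦ.continuous
  have hψc0 := hψ.continuous
  have hqc := hq.continuous
  have hαc : Continuous (fun x => (fun j => db j G x : Fin n → ℂ)) :=
    continuous_pi fun j => (hG.db j).continuous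
  have hnα : Continuous (fun x => nsq (fun j => db j G x)) := continuous_nsq.comp hαc
  have hhc : Continuous (fun x => nsq (fun j => db j G x) * Real.exp (-Φ x)) := by fun_prop
  have hlq : Sm (fun x => Real.log (q x / 2)) := sm_logq hq hq2
  -- the extra growth function
  have hLs : Sm (fun x => (Real.log (q x / 2) - ψ x) * (Real.log (q x / 2) - ψ x) + 1) :=
    ((hlq.sub hψ).mulR (hlq.sub hψ)).add (Sm.const 1)
  obtain ⟨ψc, χ, hψc, hχ, hψ0, hsub, h2, hLχ, hint, η, hη, hη1⟩ :=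
    TwW_34.exists_weights hμ ρ hρ hcpt hL a _ hhc _ hLs
      (fun x => add_nonneg (mul_self_nonneg _) zero_le_one) (2 * (c / (c - 1)))
      (mul_nonneg (by norm_num) (div_nonneg (by linarith) (by linarith)))
  have hψcc := hψc.continuous
  have hχc := hχ.continuous
  have hαi : Integrable (fun x => nsq (fun j => db j G x) *
      Real.exp (-(Wt Φ ψ χ q x + (fun _ => (0 : ℝ)) x - ψo ψ ψc q x))) μ := by
    simp only [Wt_sub]
    refine ⟨(by fun_prop : Continuous _).aestronglyMeasurable, ?_⟩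
    rw [hasFiniteIntegral_iff_ofReal (Eventually.of_forall fun x => by
      have := nsq_nonneg (fun j => db j G x); positivity)]
    refine lt_of_le_of_lt (le_of_eq ?_) hint
    refine lintegral_congr fun x => ?_
    congr 1
    have h0 : 0 ≤ nsq (fun j => db j G x) * Real.exp (-Φ x) := by
      have := nsq_nonneg (fun j => db j G x); positivity
    rw [abs_of_nonneg h0, mul_assoc, ← Real.exp_add]
    congr 2; ring
  have hpair : PairC μ (Wt Φ ψ χ q) (fun _ => 0) (ψo ψ ψc q) (fun x j => db j G x) K0 :=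
    pairC_tw hμ hc1 hΦ hψ hψc hχ hq hq2 hpos hLχ h2 hαc hκ0 hκm hk hK0 hKint
  have hη' : ∀ ν, Sm (η ν) ∧ HasCompactSupport (η ν) ∧
      (∀ x, 0 ≤ η ν x ∧ η ν x ≤ 1) ∧
      ∀ x, nsq (fun j => dz j (fun y => (η ν y : ℂ)) x) ≤ Real.exp (ψo ψ ψc q x) := by
    intro ν
    obtain ⟨e1, e2, e3, e4⟩ := hη ν
    refine ⟨e1, e2, e3, fun x => (e4 x).trans (Real.exp_le_exp.2 ?_)⟩
    unfold ψo
    nlinarith [sq_nonneg (Real.log (q x / 2) - ψ x - 1), sq_nonneg (Real.log (q x / 2) - ψ x)]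
  obtain ⟨U, hUm, hUi, hUb, hUw⟩ := solve hμ wpmul (sm_Wt hΦ hψ hχ hq hq2) (Sm.const 0)
    (sm_ψo hψ hψc hq hq2) hG hK0 hpair hαi η hη' hη1
  have hw1 : ∀ x, Wt Φ ψ χ q x + (fun _ => (0 : ℝ)) x - 2 * ψo ψ ψc q x =
      Φ x - ψ x + Real.log (q x / 2) + (χ x - 2 * ψc x) := by
    intro x; unfold Wt ψo; ring
  simp only [hw1] at hUi hUb
  have hlqc := hlq.continuous
  have hUloc : LocallyIntegrable U μ := by
    refine locallyIntegrable_of_bound hμ hUm hUi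
      (C := fun x => Real.exp (Φ x - ψ x + Real.log (q x / 2) + (χ x - 2 * ψc x)))
      (by fun_prop) (fun x => by positivity) fun x => ?_
    have h1 : Real.exp (Φ x - ψ x + Real.log (q x / 2) + (χ x - 2 * ψc x)) *
        Real.exp (-(Φ x - ψ x + Real.log (q x / 2) + (χ x - 2 * ψc x))) = 1 := by
      rw [← Real.exp_add, add_neg_cancel, Real.exp_zero]
    calc ‖U x‖ ^ 2 = ‖U x‖ ^ 2 *
          (Real.exp (Φ x - ψ x + Real.log (q x / 2) + (χ x - 2 * ψc x)) *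
            Real.exp (-(Φ x - ψ x + Real.log (q x / 2) + (χ x - 2 * ψc x)))) := by
          rw [h1, mul_one]
      _ = _ := by ring
      _ ≤ _ := le_rfl
  obtain ⟨F, hF, hFae⟩ := WeylM399.weylM hμ hUloc hG hUw
  refine ⟨F, hF, ?_⟩
  have hmeas : MeasurableSet {x | ρ x ≤ a} :=
    (isClosed_le hρ.continuous continuous_const).measurableSet
  have h1 : ∫⁻ x in {x | ρ x ≤ a},
      ENNReal.ofReal (‖F x - G x‖ ^ 2 * (Real.exp (ψ x - Φ x) / q x)) ∂μ =
      ∫⁻ x in {x | ρ x ≤ a}, ENNReal.ofReal (1 / 2) *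
        ENNReal.ofReal (‖U x‖ ^ 2 *
          Real.exp (-(Φ x - ψ x + Real.log (q x / 2) + (χ x - 2 * ψc x)))) ∂μ := by
    refine lintegral_congr_ae ?_
    filter_upwards [ae_restrict_of_ae hFae, ae_restrict_mem hmeas] with x hx hxa
    obtain ⟨hp, hc⟩ := hsub x hxa
    have hx' : F x - G x = - U x := by
      have : G x - U x = F x := hx
      rw [← this]; ring
    rw [hx', norm_neg, hp, hc, ← ENNReal.ofReal_mul (by norm_num)]
    congr 1
    have hq0 : 0 < q x := by have := hq2 x; linarith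
    have e1 : -(Φ x - ψ x + Real.log (q x / 2) + (0 - 2 * 0)) =
        (ψ x - Φ x) - Real.log (q x / 2) := by ring
    have e2 : Real.exp (ψ x - Φ x - Real.log (q x / 2)) =
        Real.exp (ψ x - Φ x) / (q x / 2) := by
      rw [Real.exp_sub (ψ x - Φ x), Real.exp_log (by positivity)]
    rw [e1, e2]
    field_simp
  rw [h1, lintegral_const_mul' _ _ ENNReal.ofReal_ne_top]
  calc _ ≤ ENNReal.ofReal (1 / 2) * ∫⁻ x, ENNReal.ofReal (‖U x‖ ^ 2 *
          Real.exp (-(Φ x - ψ x + Real.log (q x / 2) + (χ x - 2 * ψc x)))) ∂μ := by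
        gcongr
        exact Measure.restrict_le_self
    _ = ENNReal.ofReal (1 / 2) * ENNReal.ofReal (∫ x, ‖U x‖ ^ 2 *
          Real.exp (-(Φ x - ψ x + Real.log (q x / 2) + (χ x - 2 * ψc x))) ∂μ) := by
        rw [ofReal_integral_eq_lintegral_ofReal hUi
          (Eventually.of_forall fun x => by positivity)]
    _ ≤ ENNReal.ofReal (1 / 2) * ENNReal.ofReal (2 * K0) := by gcongr
    _ = ENNReal.ofReal K0 := by
        rw [← ENNReal.ofReal_mul (by norm_num)]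
        congr 1; ring

/-! ### removing the measurability of `κ` -/

lemma Bt_cont_w (c : ℝ) (Φ ψ q : M → ℝ) (x : M) : Continuous (fun w : Fin n → ℂ => Bt c Φ ψ q x w) := by
  unfold Bt Levi; fun_prop

/-- the best constant -/
def kmin (c : ℝ) (Φ ψ q : M → ℝ) (α : M → (Fin n → ℂ)) (x : M) : ℝ :=
  ⨆ i : ℕ, (if 0 < Bt c Φ ψ q x (TopologicalSpace.denseSeq (Fin n → ℂ) i) then
    ‖∑ j, α x j * conj (TopologicalSpace.denseSeq (Fin n → ℂ) i j)‖ ^ 2 /
      Bt c Φ ψ q x (TopologicalSpace.denseSeq (Fin n → ℂ) i) else 0)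

lemma kmin_spec {Φ ψ q : M → ℝ} (hΦ : Sm Φ) (hψ : Sm ψ) (hq : Sm q) (hq2 : ∀ x, 2 ≤ q x)
    (hpos : ∀ x w, 0 ≤ Bt c Φ ψ q x w)
    {α : M → (Fin n → ℂ)} (hα : Continuous α) {κ : M → ℝ}
    (hk : ∀ x (w : Fin n → ℂ), ‖∑ j, α x j * conj (w j)‖ ^ 2 ≤ κ x * Bt c Φ ψ q x w) :
    Measurable (kmin c Φ ψ q α) ∧ (∀ x, 0 ≤ kmin c Φ ψ q α x) ∧
      (∀ x, kmin c Φ ψ q α x ≤ max (κ x) 0) ∧
      ∀ x (w : Fin n → ℂ), ‖∑ j, α x j * conj (w j)‖ ^ 2 ≤ kmin c Φ ψ q α x * Bt c Φ ψ q x w := by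
  set d := TopologicalSpace.denseSeq (Fin n → ℂ) with hd
  have hterm : ∀ x i, (if 0 < Bt c Φ ψ q x (d i) then
      ‖∑ j, α x j * conj (d i j)‖ ^ 2 / Bt c Φ ψ q x (d i) else 0) ≤ max (κ x) 0 := by
    intro x i
    split_ifs with h
    · rw [div_le_iff₀ h]
      exact (hk x (d i)).trans (mul_le_mul_of_nonneg_right (le_max_left _ _) h.le)
    · exact le_max_right _ _
  have hterm0 : ∀ x i, 0 ≤ (if 0 < Bt c Φ ψ q x (d i) then
      ‖∑ j, α x j * conj (d i j)‖ ^ 2 / Bt c Φ ψ q x (d i) else 0) := by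
    intro x i
    split_ifs with h
    · positivity
    · exact le_rfl
  have hbdd : ∀ x, BddAbove (range fun i => (if 0 < Bt c Φ ψ q x (d i) then
      ‖∑ j, α x j * conj (d i j)‖ ^ 2 / Bt c Φ ψ q x (d i) else 0)) := fun x =>
    ⟨max (κ x) 0, by rintro _ ⟨i, rfl⟩; exact hterm x i⟩
  refine ⟨?_, ?_, ?_, ?_⟩
  · refine Measurable.iSup fun i => ?_
    have h1 : Continuous (fun x => Bt c Φ ψ q x (d i)) :=
      Bt_continuous hΦ hψ hq hq2 continuous_const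
    have h2 : Continuous (fun x => ‖∑ j, α x j * conj (d i j)‖ ^ 2) := by fun_prop
    exact Measurable.ite (measurableSet_lt measurable_const h1.measurable)
      (h2.measurable.div h1.measurable) measurable_const
  · intro x
    exact Real.iSup_nonneg fun i => hterm0 x i
  · intro x
    exact ciSup_le fun i => hterm x i
  · intro x w
    have hcl : IsClosed {w : Fin n → ℂ | ‖∑ j, α x j * conj (w j)‖ ^ 2 ≤
        kmin c Φ ψ q α x * Bt c Φ ψ q x w} :=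
      isClosed_le (by fun_prop) (continuous_const.mul (Bt_cont_w c Φ ψ q x))
    have hall : closure (range d) ⊆ {w : Fin n → ℂ | ‖∑ j, α x j * conj (w j)‖ ^ 2 ≤
        kmin c Φ ψ q α x * Bt c Φ ψ q x w} := by
      refine closure_minimal ?_ hcl
      rintro _ ⟨i, rfl⟩
      show ‖∑ j, α x j * conj (d i j)‖ ^ 2 ≤ kmin c Φ ψ q α x * Bt c Φ ψ q x (d i)
      rcases (hpos x (d i)).lt_or_eq with h | h
      · have h1 := le_ciSup (hbdd x) i
        simp only [if_pos h] at h1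
        rw [div_le_iff₀ h] at h1
        exact h1
      · rw [← h, mul_zero]
        have h1 := hk x (d i)
        rw [← h, mul_zero] at h1
        exact h1
    exact hall (by rw [(TopologicalSpace.denseRange_denseSeq _).closure_range]; trivial)

/-- **Twisted engine on a sublevel set.** -/
theorem twE_step (hμ : IsLeb μ) {ρ : M → ℝ} (hρ : Sm ρ)
    (hcpt : ∀ t : ℝ, IsCompact {x | ρ x ≤ t}) (hL : ∀ x w, nsq w ≤ Levi ρ x w) (a : ℝ)
    (hc1 : 1 < c) {Φ ψ q : M → ℝ} (hΦ : Sm Φ) (hψ : Sm ψ) (hq : Sm q) (hq2 : ∀ x, 2 ≤ q x)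
    (hpos : ∀ x w, 0 ≤ Bt c Φ ψ q x w) {G : M → ℂ} (hG : Sm G)
    {κ : M → ℝ}
    (hk : ∀ x (w : Fin n → ℂ), ‖∑ j, db j G x * conj (w j)‖ ^ 2 ≤ κ x * Bt c Φ ψ q x w)
    {K : ℝ≥0∞}
    (hK : ∫⁻ x, ENNReal.ofReal (κ x * Real.exp (ψ x - Φ x)) ∂μ ≤ K) :
    ∃ F : M → ℂ, Hol F ∧ ∫⁻ x in {x | ρ x ≤ a},
      ENNReal.ofReal (‖F x - G x‖ ^ 2 * (Real.exp (ψ x - Φ x) / q x)) ∂μ ≤ K := by
  by_cases hKt : K = ∞
  · subst hKt
    exact ⟨fun _ => 0, fun e _ => differentiableOn_const _, le_top⟩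
  · have hαc : Continuous (fun x => (fun j => db j G x : Fin n → ℂ)) :=
      continuous_pi fun j => (hG.db j).continuous
    obtain ⟨s1, s2, s3, s4⟩ := kmin_spec hΦ hψ hq hq2 hpos hαc hk
    have hKr : ENNReal.ofReal K.toReal = K := ENNReal.ofReal_toReal hKt
    have := step_meas hμ hρ hcpt hL a hc1 hΦ hψ hq hq2 hpos hG s2 s1 s4
      (K0 := K.toReal) ENNReal.toReal_nonneg (by
        rw [hKr]
        refine le_trans (lintegral_mono fun x => ?_) hK
        rcases le_or_gt 0 (κ x) with h | h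
        · refine ENNReal.ofReal_le_ofReal (mul_le_mul_of_nonneg_right ?_ (Real.exp_pos _).le)
          have := s3 x
          rwa [max_eq_left h] at this
        · have h1 := s3 x
          rw [max_eq_right h.le] at h1
          have h2 : kmin c Φ ψ q (fun x => (fun j => db j G x : Fin n → ℂ)) x = 0 :=
            le_antisymm h1 (s2 x)
          rw [h2, zero_mul, ENNReal.ofReal_zero]
          exact zero_le)
    rwa [hKr] at this

/-- **Twisted engine**, global form. -/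
theorem twE (hμ : IsLeb μ) {ρ : M → ℝ} (hρ : Sm ρ)
    (hcpt : ∀ t : ℝ, IsCompact {x | ρ x ≤ t}) (hL : ∀ x w, nsq w ≤ Levi ρ x w)
    (hc1 : 1 < c) {Φ ψ q : M → ℝ} (hΦ : Sm Φ) (hψ : Sm ψ) (hq : Sm q) (hq2 : ∀ x, 2 ≤ q x)
    (hpos : ∀ x w, 0 ≤ Bt c Φ ψ q x w) {G : M → ℂ} (hG : Sm G)
    {κ : M → ℝ}
    (hk : ∀ x (w : Fin n → ℂ), ‖∑ j, db j G x * conj (w j)‖ ^ 2 ≤ κ x * Bt c Φ ψ q x w)
    {K : ℝ≥0∞}
    (hK : ∫⁻ x, ENNReal.ofReal (κ x * Real.exp (ψ x - Φ x)) ∂μ ≤ K) :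
    ∃ F : M → ℂ, Hol F ∧
      ∫⁻ x, ENNReal.ofReal (‖F x - G x‖ ^ 2 * (Real.exp (ψ x - Φ x) / q x)) ∂μ ≤ K := by
  by_cases hKt : K = ∞
  · subst hKt
    exact ⟨fun _ => 0, fun e _ => differentiableOn_const _, le_top⟩
  have hq0 : ∀ x, 0 < q x := fun x => by have := hq2 x; linarith
  have hlq : Continuous (fun x => Real.log (q x)) := hq.continuous.log fun x => (hq0 x).ne'
  have hexp : ∀ x, Real.exp (-(Φ x - ψ x + Real.log (q x))) = Real.exp (ψ x - Φ x) / q x := by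
    intro x
    rw [show -(Φ x - ψ x + Real.log (q x)) = (ψ x - Φ x) - Real.log (q x) by ring,
      Real.exp_sub (ψ x - Φ x), Real.exp_log (hq0 x)]
  choose F hF hFb using fun k : ℕ =>
    twE_step hμ hρ hcpt hL (k : ℝ) hc1 hΦ hψ hq hq2 hpos hG hk hK
  obtain ⟨F0, hF0, -, hb⟩ := TwL_34.limit_hol hμ ρ hρ.continuous hcpt
    (fun _ x => Φ x - ψ x + Real.log (q x))
    (fun _ => (hΦ.continuous.sub hψ.continuous).add hlq) (fun _ _ => le_rfl) G hG.continuous F hF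
    K hKt (fun k => by simpa only [hexp] using hFb k)
  refine ⟨F0, hF0, le_trans (le_of_eq ?_) hb⟩
  refine lintegral_congr fun x => ?_
  rw [iSup_const, hexp, ENNReal.ofReal_mul (by positivity)]

end Crest.Agent.R273.TwE_34
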