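import Crest.Agent.R273.OTA_34
import Crest.Agent.R273.TwE_34

/-!
# Row 273, Ohsawa–Takegoshi: the twisting functions and the curvature estimate (helper34)

`σ = A - t`, `η = σ + log σ`, `ψ = - log η`, `q = 1 + 4(σ+1)²/η`, `t = log (|h|² e^{-Ψ} + ε²)`:
`Bt c W ψ q ≥ (1/η) E |β|²/u²`.
-/

set_option autoImplicit false
set_option linter.unusedSectionVars false

noncomputable section

open Set Filter Topology ComplexConjugate

namespace Crest.Agent.R273.OTB_34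

open Crest.Agent.R271.Ho51 Crest.Agent.R271 Crest.Agent.R273.OTA_34 Crest.Agent.R273.TwA_34

/-! ### one variable -/

/-- `η(t) = σ + log σ`, `σ = A - t` -/
def et (A t : ℝ) : ℝ := (A - t) + Real.log (A - t)

/-- `ψ(t) = - log η` -/
def gg (A t : ℝ) : ℝ := -Real.log (et A t)

/-- `ψ'` -/
def gg1 (A t : ℝ) : ℝ := (1 + (A - t)⁻¹) / et A t

/-- `ψ''` -/
def gg2 (A t : ℝ) : ℝ := ((A - t)⁻¹) ^ 2 / et A t + (1 + (A - t)⁻¹) ^ 2 / (et A t) ^ 2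

lemma et_ge {A t : ℝ} (h : 1 ≤ A - t) : A - t ≤ et A t := by
  unfold et
  have := Real.log_nonneg h
  linarith

lemma et_pos {A t : ℝ} (h : 1 ≤ A - t) : 0 < et A t := by
  have := et_ge h
  linarith

lemma et_le {A t : ℝ} (h : 1 ≤ A - t) : et A t ≤ 2 * (A - t) := by
  unfold et
  have := Real.log_le_sub_one_of_pos (show 0 < A - t by linarith)
  linarith

lemma hasDerivAt_sub (A t : ℝ) : HasDerivAt (fun t : ℝ => A - t) (-1) t := by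
  simpa using (hasDerivAt_id t).const_sub A

lemma hasDerivAt_inv_sub {A t : ℝ} (h : 1 ≤ A - t) :
    HasDerivAt (fun t : ℝ => (A - t)⁻¹) (((A - t)⁻¹) ^ 2) t := by
  have h0 : (A - t) ≠ 0 := by intro h'; linarith
  have h1 := (hasDerivAt_sub A t).inv h0
  rw [neg_neg, one_div, ← inv_pow] at h1
  exact h1

lemma hasDerivAt_et {A t : ℝ} (h : 1 ≤ A - t) : HasDerivAt (et A) (-(1 + (A - t)⁻¹)) t := by
  have h0 : (A - t) ≠ 0 := by intro h'; linarith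
  have h1 := (hasDerivAt_sub A t).add ((hasDerivAt_sub A t).log h0)
  have h2 : HasDerivAt (et A) (-1 + -1 / (A - t)) t := h1
  convert h2 using 1
  field_simp
  ring

lemma hasDerivAt_gg {A t : ℝ} (h : 1 ≤ A - t) : HasDerivAt (gg A) (gg1 A t) t := by
  have h1 := ((hasDerivAt_et h).log (et_pos h).ne').neg
  have h2 : HasDerivAt (gg A) (-(-(1 + (A - t)⁻¹) / et A t)) t := h1
  convert h2 using 1
  unfold gg1
  ring

lemma hasDerivAt_gg1 {A t : ℝ} (h : 1 ≤ A - t) : HasDerivAt (gg1 A) (gg2 A t) t := by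
  have h1 := ((hasDerivAt_inv_sub h).const_add 1).div (hasDerivAt_et h) (et_pos h).ne'
  have h2 : HasDerivAt (gg1 A) ((((A - t)⁻¹) ^ 2 * et A t -
    (1 + (A - t)⁻¹) * -(1 + (A - t)⁻¹)) / (et A t) ^ 2) t := h1
  convert h2 using 1
  unfold gg2
  have := et_pos h
  field_simp
  ring

lemma contDiffAt_et {A t : ℝ} (h : 1 ≤ A - t) : ContDiffAt ℝ (⊤ : ℕ∞) (et A) t := by
  have h0 : (A - t) ≠ 0 := by intro h'; linarith
  unfold et
  exact (contDiffAt_const.sub contDiffAt_id).add ((contDiffAt_const.sub contDiffAt_id).log h0)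

lemma contDiffAt_gg {A t : ℝ} (h : 1 ≤ A - t) : ContDiffAt ℝ (⊤ : ℕ∞) (gg A) t := by
  unfold gg
  exact ((contDiffAt_et h).log (et_pos h).ne').neg

lemma contDiffAt_gg1 {A t : ℝ} (h : 1 ≤ A - t) : ContDiffAt ℝ (⊤ : ℕ∞) (gg1 A) t := by
  have h0 : (A - t) ≠ 0 := by intro h'; linarith
  unfold gg1
  exact (contDiffAt_const.add ((contDiffAt_const.sub contDiffAt_id).inv h0)).div
    (contDiffAt_et h) (et_pos h).ne'

/-- `q` -/
def qt (A t : ℝ) : ℝ := 1 + 4 * (A - t + 1) ^ 2 / et A t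

lemma contDiffAt_qt {A t : ℝ} (h : 1 ≤ A - t) : ContDiffAt ℝ (⊤ : ℕ∞) (qt A) t := by
  unfold qt
  exact contDiffAt_const.add ((contDiffAt_const.mul
    (((contDiffAt_const.sub contDiffAt_id).add contDiffAt_const).pow 2)).div
    (contDiffAt_et h) (et_pos h).ne')

lemma qt_ge {A t : ℝ} (h : 1 ≤ A - t) : 2 ≤ qt A t := by
  have h1 := et_le h
  have h2 := et_pos h
  have h3 : 1 ≤ 4 * (A - t + 1) ^ 2 / et A t := by
    rw [le_div_iff₀ h2]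
    nlinarith
  unfold qt
  linarith

lemma et_qt {A t : ℝ} (h : 1 ≤ A - t) : et A t * qt A t ≤ 6 * (A - t + 1) ^ 2 := by
  have h1 := et_le h
  have h2 := et_pos h
  have h3 : et A t * qt A t = et A t + 4 * (A - t + 1) ^ 2 := by
    unfold qt
    field_simp
  rw [h3]
  nlinarith

/-- the real inequality behind the curvature estimate -/
lemma real_ineq {σ η a c L LW P X r : ℝ} (hσ : 1 ≤ σ) (hη : σ ≤ η) (ha : 2 / σ ≤ a)
    (hL : 0 ≤ L) (hW : a * L ≤ LW) (hP : 0 ≤ P) (hX : 0 ≤ X) (hr0 : 0 ≤ r) (hr1 : r ≤ 1)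
    (hc2 : c ≤ 2) (hc : (c - 1) * (2 * (σ + 1) ^ 2) ≤ η) :
    X / η ≤ LW + ((σ⁻¹ ^ 2 / η + (1 + σ⁻¹) ^ 2 / η ^ 2) * P + ((1 + σ⁻¹) / η) * (-r * L + X)) -
      c * ((1 + 4 * (σ + 1) ^ 2 / η) / (1 + 4 * (σ + 1) ^ 2 / η - 1)) *
        (((1 + σ⁻¹) / η) ^ 2 * P) := by
  have hσ0 : 0 < σ := by linarith
  have hη0 : 0 < η := by linarith
  have hs1 : 0 < σ + 1 := by linarith
  have e1 : (1 + 4 * (σ + 1) ^ 2 / η) / (1 + 4 * (σ + 1) ^ 2 / η - 1) =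
      1 + η / (4 * (σ + 1) ^ 2) := by
    field_simp
    ring
  rw [e1]
  have e2 : (σ⁻¹ ^ 2 / η + (1 + σ⁻¹) ^ 2 / η ^ 2) * P -
      c * (1 + η / (4 * (σ + 1) ^ 2)) * (((1 + σ⁻¹) / η) ^ 2 * P) =
      (η - (c - 1) * (σ + 1) ^ 2 - c * η / 4) / (σ ^ 2 * η ^ 2) * P := by
    field_simp
    ring
  have h1 : 0 ≤ (η - (c - 1) * (σ + 1) ^ 2 - c * η / 4) / (σ ^ 2 * η ^ 2) * P := by
    apply mul_nonneg _ hP
    apply div_nonneg _ (by positivity)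
    nlinarith
  have h2 : (1 + σ⁻¹) / η ≤ a := by
    refine le_trans ?_ ha
    rw [div_le_div_iff₀ hη0 hσ0]
    have : (1 + σ⁻¹) * σ = σ + 1 := by field_simp
    nlinarith
  have h3 : 0 ≤ (1 + σ⁻¹) / η := by positivity
  have h4 : ((1 + σ⁻¹) / η) * (r * L) ≤ LW := by
    calc ((1 + σ⁻¹) / η) * (r * L) ≤ a * (1 * L) := by
          apply mul_le_mul h2 (mul_le_mul_of_nonneg_right hr1 hL) (by positivity)
          exact h3.trans h2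
      _ ≤ LW := by linarith
  have h5 : X / η ≤ ((1 + σ⁻¹) / η) * X := by
    rw [div_mul_eq_mul_div]
    apply div_le_div_of_nonneg_right _ hη0.le
    have : 0 ≤ σ⁻¹ := by positivity
    nlinarith
  nlinarith

/-! ### on the Riemann domain -/

variable {n : ℕ} {M : Type*} [TopologicalSpace M] [RDom n M] {h : M → ℂ} {Ψ W : M → ℝ}
  {ε A a c : ℝ}

/-- the twisting function `ψ` -/
def ps (A : ℝ) (h : M → ℂ) (Ψ : M → ℝ) (ε : ℝ) (x : M) : ℝ := gg A (tt h Ψ ε x)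

/-- the twisting function `q` -/
def qs (A : ℝ) (h : M → ℂ) (Ψ : M → ℝ) (ε : ℝ) (x : M) : ℝ := qt A (tt h Ψ ε x)

lemma exp_tt (hε : 0 < ε) (x : M) :
    Real.exp (tt h Ψ ε x) = ‖h x‖ ^ 2 * Real.exp (-Ψ x) + ε ^ 2 := by
  unfold tt
  rw [Real.exp_sub, Real.exp_log (uu_pos hε x), Real.exp_neg]
  unfold uu
  have := Real.exp_pos (Ψ x)
  field_simp

lemma tt_le (hε : 0 < ε) (hε1 : ε ≤ 1) (hs : ∀ x, ‖h x‖ ^ 2 ≤ Real.exp (Ψ x)) (x : M) :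
    tt h Ψ ε x ≤ 1 := by
  have h1 := exp_tt (h := h) (Ψ := Ψ) hε x
  have h2 : ‖h x‖ ^ 2 * Real.exp (-Ψ x) ≤ 1 := by
    rw [Real.exp_neg, ← div_eq_mul_inv]
    exact (div_le_one (Real.exp_pos _)).2 (hs x)
  have h3 : Real.exp (tt h Ψ ε x) ≤ Real.exp 1 := by
    have : (2 : ℝ) ≤ Real.exp 1 := by
      have := Real.add_one_le_exp 1; linarith
    nlinarith
  exact Real.exp_le_exp.1 h3

lemma le_tt (hε : 0 < ε) (x : M) : Real.log (ε ^ 2) ≤ tt h Ψ ε x := by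
  have h1 := exp_tt (h := h) (Ψ := Ψ) hε x
  rw [← Real.exp_le_exp, h1, Real.exp_log (by positivity)]
  have : 0 ≤ ‖h x‖ ^ 2 * Real.exp (-Ψ x) := by positivity
  linarith

lemma sm_ps (hh : Sm h) (hΨ : Sm Ψ) (hε : 0 < ε) (hA : ∀ x, 1 ≤ A - tt h Ψ ε x) :
    Sm (ps A h Ψ ε) := Sm.comp_at (g := gg A) (sm_tt hh hΨ hε) fun x => contDiffAt_gg (hA x)

lemma sm_qs (hh : Sm h) (hΨ : Sm Ψ) (hε : 0 < ε) (hA : ∀ x, 1 ≤ A - tt h Ψ ε x) :
    Sm (qs A h Ψ ε) := Sm.comp_at (g := qt A) (sm_tt hh hΨ hε) fun x => contDiffAt_qt (hA x)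

lemma lev_ps (hh : W792.Hol h) (hΨ : Sm Ψ) (hε : 0 < ε) (hA : ∀ x, 1 < A - tt h Ψ ε x)
    (x : M) (w : Fin n → ℂ) :
    W792.lev (ps A h Ψ ε) x w = gg2 A (tt h Ψ ε x) * ‖pz (tt h Ψ ε) x w‖ ^ 2 +
      gg1 A (tt h Ψ ε x) * W792.lev (tt h Ψ ε) x w := by
  have hev : ∀ᶠ t in 𝓝 (tt h Ψ ε x), 1 < A - t :=
    (continuous_const.sub continuous_id).continuousAt.eventually_const_lt (hA x)
  have h1 := W792.lev_comp (g := gg A) (g' := gg1 A) (g'' := gg2 A (tt h Ψ ε x))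
    (sm_tt hh.sm hΨ hε) x (hev.mono fun t ht => hasDerivAt_gg ht.le)
    (hasDerivAt_gg1 (hA x).le) w
    (Sm.comp_at (g := gg1 A) (sm_tt hh.sm hΨ hε) fun y => contDiffAt_gg1 (hA y).le)
  rw [← dsq_eq]
  exact h1

lemma pz_ps (hh : W792.Hol h) (hΨ : Sm Ψ) (hε : 0 < ε) (hA : ∀ x, 1 < A - tt h Ψ ε x)
    (x : M) (w : Fin n → ℂ) :
    pz (ps A h Ψ ε) x w = (gg1 A (tt h Ψ ε x) : ℝ) * pz (tt h Ψ ε) x w :=
  pz_comp (sm_tt hh.sm hΨ hε) x (hasDerivAt_gg (hA x).le) w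

/-- **curvature estimate** -/
theorem Bt_ge (hh : W792.Hol h) (hΨ : Sm Ψ) (hW : Sm W) (hε : 0 < ε)
    (hA : ∀ x, 1 < A - tt h Ψ ε x) (hAa : ∀ x, 2 ≤ a * (A - tt h Ψ ε x))
    (hΨ0 : ∀ x w, 0 ≤ W792.lev Ψ x w) (hWΨ : ∀ x w, a * W792.lev Ψ x w ≤ W792.lev W x w)
    (hc2 : c ≤ 2) (hc : ∀ x, (c - 1) * (2 * (A - tt h Ψ ε x + 1) ^ 2) ≤ et A (tt h Ψ ε x))
    (x : M) (w : Fin n → ℂ) :
    (ε ^ 2 * Real.exp (Ψ x)) * ‖bb h Ψ x w‖ ^ 2 / (uu h Ψ ε x) ^ 2 / et A (tt h Ψ ε x) ≤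
      Bt c W (ps A h Ψ ε) (qs A h Ψ ε) x w := by
  have hps : Sm (ps A h Ψ ε) := sm_ps hh.sm hΨ hε fun x => (hA x).le
  have hσ := (hA x).le
  have hσ0 : 0 < A - tt h Ψ ε x := by linarith
  have hu := uu_pos (h := h) (Ψ := Ψ) hε x
  have h1 := real_ineq (σ := A - tt h Ψ ε x) (η := et A (tt h Ψ ε x)) (a := a) (c := c)
    (L := W792.lev Ψ x w) (LW := W792.lev W x w) (P := ‖pz (tt h Ψ ε) x w‖ ^ 2)
    (X := (ε ^ 2 * Real.exp (Ψ x)) * ‖bb h Ψ x w‖ ^ 2 / (uu h Ψ ε x) ^ 2)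
    (r := ‖h x‖ ^ 2 / uu h Ψ ε x) hσ (et_ge hσ)
    (by rw [div_le_iff₀ hσ0]; exact hAa x) (hΨ0 x w) (hWΨ x w) (by positivity) (by positivity)
    (by positivity) (by
      rw [div_le_one hu]
      unfold uu
      have : 0 ≤ ε ^ 2 * Real.exp (Ψ x) := by positivity
      linarith) hc2 (hc x)
  refine h1.trans (le_of_eq ?_)
  unfold Bt
  rw [W792.Levi_eq_lev (hW.add hps), W792.lev_add hW hps, lev_ps hh hΨ hε hA, lev_tt hh hΨ hε,
    sum_dz hps, pz_ps hh hΨ hε hA, norm_mul, mul_pow, Complex.norm_real, Real.norm_eq_abs, sq_abs]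
  rfl

end Crest.Agent.R273.OTB_34
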