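import Crest.Agent.R273.OTB_34
import Crest.Agent.R271.Bd2_741

/-!
# Row 273, Ohsawa–Takegoshi: the cut-off function and the application of the engine (helper34)
-/

set_option autoImplicit false
set_option linter.unusedSectionVars false

noncomputable section

open Set Filter Topology ComplexConjugate MeasureTheory
open scoped ENNReal

namespace Crest.Agent.R273.OTC_34

open Crest.Agent.R271.Ho51 Crest.Agent.R271 Crest.Agent.R273.OTA_34 Crest.Agent.R273.TwA_34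
  Crest.Agent.R273.OTB_34

/-- bound for the derivative of the smooth transition -/
def Cst : ℝ := (H868.exists_deriv_st_bound).choose

lemma Cst_nonneg : 0 ≤ Cst := (H868.exists_deriv_st_bound).choose_spec.1

lemma deriv_st_sq (t : ℝ) : (deriv Real.smoothTransition t) ^ 2 ≤ Cst :=
  (H868.exists_deriv_st_bound).choose_spec.2.1 t

lemma deriv_st_zero {t : ℝ} (ht : 1 < t) : deriv Real.smoothTransition t = 0 := by
  have : Real.smoothTransition =ᶠ[𝓝 t] fun _ => 1 := by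
    filter_upwards [lt_mem_nhds ht] with s hs
    exact Real.smoothTransition.one_of_one_le (le_of_lt hs)
  rw [this.deriv_eq]; simp

/-- the cut-off function of `t` -/
def vt (ε t : ℝ) : ℝ := 1 - Real.smoothTransition (Real.exp t / ε ^ 2 - 1)

/-- its derivative -/
def vt1 (ε t : ℝ) : ℝ :=
  -(deriv Real.smoothTransition (Real.exp t / ε ^ 2 - 1) * (Real.exp t / ε ^ 2))

lemma contDiff_vt (ε : ℝ) : ContDiff ℝ (⊤ : ℕ∞) (vt ε) := by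
  unfold vt
  exact contDiff_const.sub (Real.smoothTransition.contDiff.comp
    (((Real.contDiff_exp.of_le le_top).div_const _).sub contDiff_const))

lemma hasDerivAt_vt (ε t : ℝ) : HasDerivAt (vt ε) (vt1 ε t) t := by
  have hst : ContDiff ℝ (⊤ : ℕ∞) Real.smoothTransition := Real.smoothTransition.contDiff
  have h1 : HasDerivAt Real.smoothTransition
      (deriv Real.smoothTransition (Real.exp t / ε ^ 2 - 1)) (Real.exp t / ε ^ 2 - 1) :=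
    (hst.differentiable (by simp) _).hasDerivAt
  have h2 : HasDerivAt (fun t : ℝ => Real.exp t / ε ^ 2 - 1) (Real.exp t / ε ^ 2) t :=
    ((Real.hasDerivAt_exp t).div_const _).sub_const _
  exact (HasDerivAt.comp t h1 h2).const_sub 1

lemma vt_mem (ε t : ℝ) : 0 ≤ vt ε t ∧ vt ε t ≤ 1 := by
  have h1 := Real.smoothTransition.nonneg (Real.exp t / ε ^ 2 - 1)
  have h2 := Real.smoothTransition.le_one (Real.exp t / ε ^ 2 - 1)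
  unfold vt
  constructor <;> linarith

variable {n : ℕ} {M : Type*} [TopologicalSpace M] [RDom n M] {h f : M → ℂ} {Ψ Φ : M → ℝ}
  {ε A a c δ : ℝ}

lemma arg_eq (hε : 0 < ε) (x : M) :
    Real.exp (tt h Ψ ε x) / ε ^ 2 - 1 = ‖h x‖ ^ 2 * Real.exp (-Ψ x) / ε ^ 2 := by
  rw [exp_tt hε]
  have : ε ≠ 0 := hε.ne'
  field_simp
  ring

lemma vt_eq_zero (hε : 0 < ε) {x : M} (hx : ¬ (‖h x‖ ^ 2 ≤ ε ^ 2 * Real.exp (Ψ x))) :
    vt ε (tt h Ψ ε x) = 0 := by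
  unfold vt
  rw [arg_eq hε, Real.smoothTransition.one_of_one_le, sub_self]
  push Not at hx
  rw [le_div_iff₀ (by positivity), Real.exp_neg, ← div_eq_mul_inv, le_div_iff₀ (Real.exp_pos _)]
  linarith

lemma vt1_eq_zero (hε : 0 < ε) {x : M} (hx : ¬ (‖h x‖ ^ 2 ≤ ε ^ 2 * Real.exp (Ψ x))) :
    vt1 ε (tt h Ψ ε x) = 0 := by
  unfold vt1
  rw [arg_eq hε, deriv_st_zero, zero_mul, neg_zero]
  push Not at hx
  rw [lt_div_iff₀ (by positivity), Real.exp_neg, ← div_eq_mul_inv, lt_div_iff₀ (Real.exp_pos _)]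
  linarith

lemma vt1_sq_le (hε : 0 < ε) {x : M} (hx : ‖h x‖ ^ 2 ≤ ε ^ 2 * Real.exp (Ψ x)) :
    vt1 ε (tt h Ψ ε x) ^ 2 ≤ 4 * Cst := by
  have h1 : Real.exp (tt h Ψ ε x) / ε ^ 2 ≤ 2 := by
    have := arg_eq (h := h) (Ψ := Ψ) hε x
    have h2 : ‖h x‖ ^ 2 * Real.exp (-Ψ x) / ε ^ 2 ≤ 1 := by
      rw [div_le_one (by positivity), Real.exp_neg, ← div_eq_mul_inv, div_le_iff₀ (Real.exp_pos _)]
      exact hx
    linarith
  have h2 : 0 ≤ Real.exp (tt h Ψ ε x) / ε ^ 2 := by positivity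
  unfold vt1
  rw [neg_sq, mul_pow]
  have h3 := deriv_st_sq (Real.exp (tt h Ψ ε x) / ε ^ 2 - 1)
  have h4 : (Real.exp (tt h Ψ ε x) / ε ^ 2) ^ 2 ≤ 4 := by nlinarith
  calc _ ≤ Cst * 4 := mul_le_mul h3 h4 (by positivity) Cst_nonneg
    _ = 4 * Cst := by ring

lemma vt_zero (hε : 0 < ε) {x : M} (hx : h x = 0) : vt ε (tt h Ψ ε x) = 1 := by
  unfold vt
  rw [arg_eq hε, hx]
  simp

/-- the smooth extension `G = ϑ f` -/
def GG (h f : M → ℂ) (Ψ : M → ℝ) (ε : ℝ) (x : M) : ℂ := ((vt ε (tt h Ψ ε x) : ℝ) : ℂ) * f x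

lemma sm_vt (hh : Sm h) (hΨ : Sm Ψ) (hε : 0 < ε) : Sm (fun x => vt ε (tt h Ψ ε x)) :=
  Sm.comp (contDiff_vt ε) (sm_tt hh hΨ hε)

lemma sm_GG (hh : Sm h) (hf : Sm f) (hΨ : Sm Ψ) (hε : 0 < ε) : Sm (GG h f Ψ ε) :=
  (sm_vt hh hΨ hε).ofReal.mul hf

lemma sum_db_GG (hh : Sm h) (hf : W792.Hol f) (hΨ : Sm Ψ) (hε : 0 < ε) (x : M) (w : Fin n → ℂ) :
    ∑ j, db j (GG h f Ψ ε) x * conj (w j) =
      f x * (vt1 ε (tt h Ψ ε x) : ℝ) * conj (pz (tt h Ψ ε) x w) := by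
  have ht := sm_tt hh hΨ hε
  have h1 : ∀ j, db j (GG h f Ψ ε) x =
      (vt1 ε (tt h Ψ ε x) : ℝ) * conj (dz j (fun y => (tt h Ψ ε y : ℂ)) x) * f x := by
    intro j
    unfold GG
    rw [db_mul (sm_vt hh hΨ hε).ofReal hf.sm, db_hol hf, mul_zero, add_zero,
      db_comp_real ht (sm_vt hh hΨ hε) x (hasDerivAt_vt ε _), db_ofReal ht]
  simp only [h1]
  rw [← sum_dz ht, map_sum, Finset.mul_sum]
  refine Finset.sum_congr rfl fun j _ => ?_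
  rw [map_mul]
  ring

/-- the constant `κ` -/
def kk (A : ℝ) (h f : M → ℂ) (Ψ : M → ℝ) (ε : ℝ) (x : M) : ℝ :=
  ‖f x‖ ^ 2 * vt1 ε (tt h Ψ ε x) ^ 2 * ‖h x‖ ^ 2 * et A (tt h Ψ ε x) /
    (ε ^ 2 * Real.exp (Ψ x))

/-- the regularised singular weight -/
def Wd (h : M → ℂ) (Φ : M → ℝ) (δ : ℝ) (x : M) : ℝ := Φ x + Real.log (‖h x‖ ^ 2 + δ ^ 2)

lemma sm_Wd (hh : Sm h) (hΦ : Sm Φ) (hδ : 0 < δ) : Sm (Wd h Φ δ) :=
  hΦ.add (sm_log ((W792.Hol.sm_normSq hh).add (Sm.const (δ ^ 2))) fun x => by positivity)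

lemma lev_Wd (hh : W792.Hol h) (hΦ : Sm Φ) (hδ : 0 < δ) (x : M) (w : Fin n → ℂ) :
    W792.lev Φ x w ≤ W792.lev (Wd h Φ δ) x w := by
  have hu : Sm (fun x => ‖h x‖ ^ 2 + δ ^ 2) := (W792.Hol.sm_normSq hh.sm).add (Sm.const (δ ^ 2))
  have hu0 : ∀ x, 0 < ‖h x‖ ^ 2 + δ ^ 2 := fun x => by positivity
  unfold Wd
  rw [W792.lev_add hΦ (sm_log hu hu0), lev_log hu hu0,
    W792.lev_add (W792.Hol.sm_normSq hh.sm) (Sm.const (δ ^ 2)), W792.lev_const,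
    W792.lev_normSq hh, pz_add (W792.Hol.sm_normSq hh.sm) (Sm.const (δ ^ 2)), pz_normSq hh]
  have h2 : pz (fun _ : M => δ ^ 2) x w = 0 := by
    unfold pz; rw [D_const]; simp
  rw [h2, add_zero, add_zero, norm_mul, RCLike.norm_conj, mul_pow]
  have h3 : 0 ≤ ‖D h x w‖ ^ 2 / (‖h x‖ ^ 2 + δ ^ 2) -
      ‖h x‖ ^ 2 * ‖D h x w‖ ^ 2 / (‖h x‖ ^ 2 + δ ^ 2) ^ 2 := by
    have := hu0 x
    have e : ‖D h x w‖ ^ 2 / (‖h x‖ ^ 2 + δ ^ 2) -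
        ‖h x‖ ^ 2 * ‖D h x w‖ ^ 2 / (‖h x‖ ^ 2 + δ ^ 2) ^ 2 =
        δ ^ 2 * ‖D h x w‖ ^ 2 / (‖h x‖ ^ 2 + δ ^ 2) ^ 2 := by
      field_simp
      ring
    rw [e]; positivity
  linarith

/-- the integrand of the engine -/
lemma kk_le (hε : 0 < ε) (hδ : 0 < δ) (hA : ∀ x, 1 ≤ A - tt h Ψ ε x) (x : M) :
    kk A h f Ψ ε x * Real.exp (ps A h Ψ ε x - Wd h Φ δ x) ≤
      (4 * Cst / ε ^ 2) * ({x | ‖h x‖ ^ 2 ≤ ε ^ 2 * Real.exp (Ψ x)}.indicator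
        (fun x => ‖f x‖ ^ 2 * Real.exp (-(Φ x + Ψ x))) x) := by
  have hη := et_pos (hA x)
  have hδ2 : 0 < ‖h x‖ ^ 2 + δ ^ 2 := by positivity
  have e1 : Real.exp (ps A h Ψ ε x - Wd h Φ δ x) =
      (et A (tt h Ψ ε x))⁻¹ * (Real.exp (-Φ x) * (‖h x‖ ^ 2 + δ ^ 2)⁻¹) := by
    unfold ps gg Wd
    rw [show -Real.log (et A (tt h Ψ ε x)) - (Φ x + Real.log (‖h x‖ ^ 2 + δ ^ 2)) =
      -Real.log (et A (tt h Ψ ε x)) + (-Φ x + -Real.log (‖h x‖ ^ 2 + δ ^ 2)) by ring,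
      Real.exp_add, Real.exp_add, Real.exp_neg, Real.exp_log hη,
      Real.exp_neg (Real.log (‖h x‖ ^ 2 + δ ^ 2)), Real.exp_log hδ2]
  by_cases hx : ‖h x‖ ^ 2 ≤ ε ^ 2 * Real.exp (Ψ x)
  · rw [indicator_of_mem (show x ∈ {x | ‖h x‖ ^ 2 ≤ ε ^ 2 * Real.exp (Ψ x)} from hx), e1]
    have h1 := vt1_sq_le hε hx
    have hE := Real.exp_pos (Ψ x)
    have e2 : kk A h f Ψ ε x * ((et A (tt h Ψ ε x))⁻¹ *
        (Real.exp (-Φ x) * (‖h x‖ ^ 2 + δ ^ 2)⁻¹)) =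
        (vt1 ε (tt h Ψ ε x) ^ 2 / ε ^ 2) * (‖h x‖ ^ 2 / (‖h x‖ ^ 2 + δ ^ 2)) *
          (‖f x‖ ^ 2 * Real.exp (-(Φ x + Ψ x))) := by
      unfold kk
      rw [neg_add, Real.exp_add, Real.exp_neg (Ψ x)]
      field_simp
    rw [e2]
    refine mul_le_mul_of_nonneg_right ?_ (by positivity)
    have h3 : ‖h x‖ ^ 2 / (‖h x‖ ^ 2 + δ ^ 2) ≤ 1 := by
      rw [div_le_one hδ2]; nlinarith [sq_nonneg δ]
    calc _ ≤ (4 * Cst / ε ^ 2) * 1 := by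
          apply mul_le_mul _ h3 (by positivity) (by have := Cst_nonneg; positivity)
          exact div_le_div_of_nonneg_right h1 (by positivity)
      _ = _ := mul_one _
  · rw [indicator_of_notMem (show x ∉ {x | ‖h x‖ ^ 2 ≤ ε ^ 2 * Real.exp (Ψ x)} from hx), mul_zero]
    have : kk A h f Ψ ε x = 0 := by
      unfold kk
      rw [vt1_eq_zero hε hx]
      simp
    rw [this, zero_mul]

/-- the pointwise bound of `∂̄G` -/
lemma db_le (hh : W792.Hol h) (hf : W792.Hol f) (hΨ : Sm Ψ) (hΦ : Sm Φ) (hε : 0 < ε)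
    (hδ : 0 < δ) (hA : ∀ x, 1 < A - tt h Ψ ε x) (hAa : ∀ x, 2 ≤ a * (A - tt h Ψ ε x))
    (hΨ0 : ∀ x w, 0 ≤ W792.lev Ψ x w) (hWΨ : ∀ x w, a * W792.lev Ψ x w ≤ W792.lev Φ x w)
    (hc2 : c ≤ 2) (hc : ∀ x, (c - 1) * (2 * (A - tt h Ψ ε x + 1) ^ 2) ≤ et A (tt h Ψ ε x))
    (x : M) (w : Fin n → ℂ) :
    ‖∑ j, db j (GG h f Ψ ε) x * conj (w j)‖ ^ 2 ≤
      kk A h f Ψ ε x * Bt c (Wd h Φ δ) (ps A h Ψ ε) (qs A h Ψ ε) x w := by
  have h1 := Bt_ge (W := Wd h Φ δ) hh hΨ (sm_Wd hh.sm hΦ hδ) hε hA hAa hΨ0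
    (fun x w => (hWΨ x w).trans (lev_Wd hh hΦ hδ x w)) hc2 hc x w
  have hη := et_pos (hA x).le
  have hu := uu_pos (h := h) (Ψ := Ψ) hε x
  have hE := Real.exp_pos (Ψ x)
  have hk0 : 0 ≤ kk A h f Ψ ε x := by unfold kk; positivity
  rw [sum_db_GG hh.sm hf hΨ hε, norm_mul, norm_mul, mul_pow, mul_pow, Complex.norm_real,
    RCLike.norm_conj, Real.norm_eq_abs, sq_abs, norm_pz_tt hh hΨ hε]
  refine le_trans (le_of_eq ?_) (mul_le_mul_of_nonneg_left h1 hk0)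
  unfold kk
  field_simp

lemma Bt_nonneg (hh : W792.Hol h) (hΨ : Sm Ψ) (hΦ : Sm Φ) (hε : 0 < ε)
    (hδ : 0 < δ) (hA : ∀ x, 1 < A - tt h Ψ ε x) (hAa : ∀ x, 2 ≤ a * (A - tt h Ψ ε x))
    (hΨ0 : ∀ x w, 0 ≤ W792.lev Ψ x w) (hWΨ : ∀ x w, a * W792.lev Ψ x w ≤ W792.lev Φ x w)
    (hc2 : c ≤ 2) (hc : ∀ x, (c - 1) * (2 * (A - tt h Ψ ε x + 1) ^ 2) ≤ et A (tt h Ψ ε x))
    (x : M) (w : Fin n → ℂ) :
    0 ≤ Bt c (Wd h Φ δ) (ps A h Ψ ε) (qs A h Ψ ε) x w := by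
  have h1 := Bt_ge (W := Wd h Φ δ) hh hΨ (sm_Wd hh.sm hΦ hδ) hε hA hAa hΨ0
    (fun x w => (hWΨ x w).trans (lev_Wd hh hΦ hδ x w)) hc2 hc x w
  have hη := et_pos (hA x).le
  refine le_trans ?_ h1
  positivity

end Crest.Agent.R273.OTC_34
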