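import Crest.Agent.R273.OTC_34

/-!
# Row 273: the Ohsawa–Takegoshi–Manivel extension theorem on Riemann domains, `ε`-form (helper34)

`M` a Riemann domain with smooth strictly psh exhaustion; `h, f` holomorphic, `|h|² ≤ e^Ψ`,
`Levi Φ ≥ a Levi Ψ ≥ 0`, `0 < a ≤ 1`, `0 < ε ≤ 1`.  If
`∫_{|h|² ≤ ε² e^Ψ} |f|² e^{-Φ-Ψ} ≤ ε² K`, there is `F` holomorphic with `F = f` on `{h = 0}` and
`∫ |F|² e^{-Φ-Ψ} ≤ Cot a * K`.
-/

set_option autoImplicit false
set_option linter.unusedSectionVars false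

noncomputable section

open Set Filter Topology ComplexConjugate MeasureTheory
open scoped ENNReal

namespace Crest.Agent.R273.OTD_34

open Crest.Agent.R271.Ho51 Crest.Agent.R271 Crest.Agent.R273.OTA_34 Crest.Agent.R273.TwA_34
  Crest.Agent.R273.OTB_34 Crest.Agent.R273.OTC_34

variable {n : ℕ} {M : Type*} [TopologicalSpace M] [T2Space M] [SecondCountableTopology M]
  [RDom n M] [MeasurableSpace M] [BorelSpace M] {μ : Measure M}

/-- `|h|^{-2}` is not integrable near a zero of the holomorphic function `h`. -/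
theorem not_int (hμ : IsLeb μ) {h : M → ℂ} (hh : Ho51.Hol h) {x0 : M} (h0 : h x0 = 0)
    {U : Set M} (hU : U ∈ 𝓝 x0) :
    ∫⁻ x in U, (ENNReal.ofReal (‖h x‖ ^ 2))⁻¹ ∂μ = ∞ := by
  have hhc : Continuous h := (hol_of _ hh).sm.continuous
  set e := ch x0 with he
  have hce : IsCh e := isCh_ch x0
  have hx0 : x0 ∈ e.source := mem_ch x0
  have hz0 : cp x0 ∈ e.target := hce.cp_mem hx0
  have hs0 : e.symm (cp x0) = x0 := hce.symm_cp hx0
  -- a closed ball in the chart, inside `U`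
  have hcont : ContinuousAt e.symm (cp x0) := e.symm.continuousAt (by simpa using hz0)
  have hev1 : ∀ᶠ z in 𝓝 (cp x0), z ∈ e.target := e.open_target.mem_nhds hz0
  have hev2 : ∀ᶠ z in 𝓝 (cp x0), e.symm z ∈ U := hcont.eventually_mem (by rw [hs0]; exact hU)
  have hev : ∀ᶠ z in 𝓝 (cp x0), z ∈ e.target ∧ e.symm z ∈ U := hev1.and hev2
  obtain ⟨r, hr, hB⟩ := Metric.nhds_basis_closedBall.eventually_iff.1 hev
  set B : Set (Fin n → ℂ) := Metric.closedBall (cp x0) r with hBdef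
  have hBc : IsCompact B := isCompact_closedBall _ _
  have hBt : B ⊆ e.target := fun z hz => (hB hz).1
  have hSU : e.symm '' B ⊆ U := by
    rintro _ ⟨z, hz, rfl⟩
    exact (hB hz).2
  have hm : Measurable (fun x => (ENNReal.ofReal (‖h x‖ ^ 2))⁻¹) :=
    ((hhc.norm.pow 2).measurable.ennreal_ofReal).inv
  have h1 := T7a297.lintegral_ball_le hμ hce hBc hBt hm
  have h2 : ∫⁻ y in B, (ENNReal.ofReal (‖h (e.symm y)‖ ^ 2))⁻¹ = ∞ := by
    -- translate
    set t : (Fin n → ℂ) → ℂ := fun ζ => h (e.symm (cp x0 + ζ)) with ht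
    have hdo : DifferentiableOn ℂ (h ∘ e.symm) e.target := hh e hce
    have han : AnalyticAt ℂ (h ∘ e.symm) (cp x0) :=
      Crest.Agent.R266.SCV.analyticOnNhd_of_differentiableOn e.open_target hdo _ hz0
    have htan : AnalyticAt ℂ t 0 := by
      have h3 : AnalyticAt ℂ (fun ζ : Fin n → ℂ => cp x0 + ζ) 0 :=
        analyticAt_const.add analyticAt_id
      have h4 : AnalyticAt ℂ (h ∘ e.symm) ((fun ζ : Fin n → ℂ => cp x0 + ζ) 0) := by
        simpa using han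
      exact h4.comp h3
    have ht0 : t 0 = 0 := by simp only [ht, add_zero, hs0, h0]
    have htr : ∫⁻ y in B, (ENNReal.ofReal (‖h (e.symm y)‖ ^ 2))⁻¹ =
        ∫⁻ ζ in Metric.closedBall (0 : Fin n → ℂ) r, (ENNReal.ofReal (‖t ζ‖ ^ 2))⁻¹ := by
      have hmp : MeasurePreserving (fun ζ : Fin n → ℂ => cp x0 + ζ) volume volume :=
        measurePreserving_add_left volume (cp x0)
      have hpre : (fun ζ : Fin n → ℂ => cp x0 + ζ) ⁻¹' B = Metric.closedBall 0 r := by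
        ext ζ
        simp [hBdef, Metric.mem_closedBall, dist_eq_norm]
      rw [← hpre, hmp.setLIntegral_comp_preimage_emb
        (MeasurableEquiv.addLeft (cp x0)).measurableEmbedding
        (fun y => (ENNReal.ofReal (‖h (e.symm y)‖ ^ 2))⁻¹)]
    rw [htr]
    by_cases hz : ∀ᶠ ζ in 𝓝 (0 : Fin n → ℂ), t ζ = 0
    · obtain ⟨r', hr', hsub⟩ := Metric.mem_nhds_iff.1 (hz.and (Metric.closedBall_mem_nhds 0 hr))
      refine top_unique ?_
      calc (∞ : ℝ≥0∞) = ∫⁻ _ in Metric.ball (0 : Fin n → ℂ) r', ∞ := by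
            rw [setLIntegral_const, ENNReal.top_mul]
            exact (Metric.measure_ball_pos volume 0 hr').ne'
        _ ≤ ∫⁻ ζ in Metric.ball (0 : Fin n → ℂ) r', (ENNReal.ofReal (‖t ζ‖ ^ 2))⁻¹ := by
            refine setLIntegral_mono' measurableSet_ball fun ζ hζ => ?_
            rw [(hsub hζ).1]
            simp
        _ ≤ _ := lintegral_mono_set fun ζ hζ => (hsub hζ).2
    · have h5 := Bd741.not_integrable_zero t t htan htan ht0 hz
        (Eventually.of_forall fun ζ h => h) _ (Metric.closedBall_mem_nhds 0 hr)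
      refine top_unique ?_
      rw [← h5]
      exact lintegral_mono_set inter_subset_left
  refine top_unique ?_
  rw [← h2]
  exact h1.trans (lintegral_mono_set hSU)

/-- the constant `A` -/
def Aa (a : ℝ) : ℝ := 2 / a + 1

/-- the constant of the theorem -/
def Cot (a : ℝ) : ℝ := 48 * (Aa a + 1) ^ 2 * Cst + 2

variable {h f : M → ℂ} {Ψ Φ : M → ℝ} {ε a : ℝ}

/-- main step: solution with the singular weight -/
theorem ot_sing (hμ : IsLeb μ) {ρ : M → ℝ} (hρ : Sm ρ)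
    (hcpt : ∀ t : ℝ, IsCompact {x | ρ x ≤ t}) (hL : ∀ x w, nsq w ≤ Levi ρ x w)
    (hh : W792.Hol h) (hf : W792.Hol f) (hΨ : Sm Ψ) (hΦ : Sm Φ)
    (hs : ∀ x, ‖h x‖ ^ 2 ≤ Real.exp (Ψ x)) (ha : 0 < a) (ha1 : a ≤ 1)
    (hΨ0 : ∀ x w, 0 ≤ Levi Ψ x w) (hΦΨ : ∀ x w, a * Levi Ψ x w ≤ Levi Φ x w)
    (hε : 0 < ε) (hε1 : ε ≤ 1) {K : ℝ≥0∞} (hKt : K ≠ ∞)
    (hK : ∫⁻ x in {x | ‖h x‖ ^ 2 ≤ ε ^ 2 * Real.exp (Ψ x)},
      ENNReal.ofReal (‖f x‖ ^ 2 * Real.exp (-(Φ x + Ψ x))) ∂μ ≤ ENNReal.ofReal (ε ^ 2) * K) :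
    ∃ F : M → ℂ, Ho51.Hol F ∧
      ∫⁻ x, ENNReal.ofReal (‖F x - GG h f Ψ ε x‖ ^ 2) *
        (ENNReal.ofReal (Real.exp (-Φ x) /
          (et (Aa a) (tt h Ψ ε x) * qt (Aa a) (tt h Ψ ε x))) *
          (ENNReal.ofReal (‖h x‖ ^ 2))⁻¹) ∂μ ≤ ENNReal.ofReal (4 * Cst) * K := by
  set A := Aa a with hAdef
  have htle := tt_le (h := h) (Ψ := Ψ) hε hε1 hs
  have h2a : 2 ≤ 2 / a := by
    rw [le_div_iff₀ ha]; linarith
  have hA1 : ∀ x, 2 / a ≤ A - tt h Ψ ε x := fun x => by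
    have := htle x
    simp only [hAdef, Aa]; linarith
  have hA : ∀ x, 1 < A - tt h Ψ ε x := fun x => by linarith [hA1 x]
  have hAa : ∀ x, 2 ≤ a * (A - tt h Ψ ε x) := fun x => by
    have h1 := mul_le_mul_of_nonneg_left (hA1 x) ha.le
    have h2 : a * (2 / a) = 2 := by field_simp
    linarith
  -- the constant `c`
  set S : ℝ := A - Real.log (ε ^ 2) with hS
  have hSx : ∀ x, A - tt h Ψ ε x ≤ S := fun x => by
    have := le_tt (h := h) (Ψ := Ψ) hε x
    simp only [hS]; linarith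
  by_cases hne : Nonempty M
  swap
  · refine ⟨fun _ => 0, fun e _ => differentiableOn_const _, ?_⟩
    have : IsEmpty M := not_nonempty_iff.1 hne
    rw [lintegral_of_isEmpty]
    exact zero_le
  have hS1 : 1 < S := by
    obtain ⟨x⟩ := hne
    exact (hA x).trans_le (hSx x)
  set c : ℝ := 1 + 1 / (2 * (S + 1) ^ 2) with hcdef
  have hSp : 0 < 2 * (S + 1) ^ 2 := by positivity
  have hc1 : 1 < c := by
    have : 0 < 1 / (2 * (S + 1) ^ 2) := by positivity
    linarith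
  have hc2 : c ≤ 2 := by
    have : 1 / (2 * (S + 1) ^ 2) ≤ 1 := by
      rw [div_le_one hSp]; nlinarith
    linarith
  have hc : ∀ x, (c - 1) * (2 * (A - tt h Ψ ε x + 1) ^ 2) ≤ et A (tt h Ψ ε x) := by
    intro x
    have h1 := et_ge (hA x).le
    have h2 := hSx x
    have h3 := hA x
    have h4 : (c - 1) * (2 * (A - tt h Ψ ε x + 1) ^ 2) ≤ 1 := by
      have e1 : c - 1 = 1 / (2 * (S + 1) ^ 2) := by rw [hcdef]; ring
      rw [e1, div_mul_eq_mul_div, one_mul, div_le_one hSp]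
      have : (A - tt h Ψ ε x + 1) ^ 2 ≤ (S + 1) ^ 2 := by
        apply pow_le_pow_left₀ (by linarith) (by linarith)
      linarith
    linarith
  have hΨ0' : ∀ x w, 0 ≤ W792.lev Ψ x w := fun x w => by
    rw [← W792.Levi_eq_lev hΨ]; exact hΨ0 x w
  have hΦΨ' : ∀ x w, a * W792.lev Ψ x w ≤ W792.lev Φ x w := fun x w => by
    rw [← W792.Levi_eq_lev hΨ, ← W792.Levi_eq_lev hΦ]; exact hΦΨ x w
  -- the sequence `δ_k`
  set δ : ℕ → ℝ := fun k => 1 / ((k : ℝ) + 1) with hδdef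
  have hδ : ∀ k, 0 < δ k := fun k => by simp only [hδdef]; positivity
  have hδanti : ∀ k, δ (k + 1) ≤ δ k := fun k => by
    simp only [hδdef]
    apply one_div_le_one_div_of_le (by positivity)
    push_cast; linarith
  have hps : Sm (ps A h Ψ ε) := sm_ps hh.sm hΨ hε fun x => (hA x).le
  have hqs : Sm (qs A h Ψ ε) := sm_qs hh.sm hΨ hε fun x => (hA x).le
  have hq2 : ∀ x, 2 ≤ qs A h Ψ ε x := fun x => qt_ge (hA x).le
  -- the bound of the right-hand side
  have hms : MeasurableSet {x | ‖h x‖ ^ 2 ≤ ε ^ 2 * Real.exp (Ψ x)} :=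
    (isClosed_le (hh.sm.continuous.norm.pow 2)
      (continuous_const.mul (Real.continuous_exp.comp hΨ.continuous))).measurableSet
  have hrhs : ∀ k, ∫⁻ x, ENNReal.ofReal (kk A h f Ψ ε x *
      Real.exp (ps A h Ψ ε x - Wd h Φ (δ k) x)) ∂μ ≤ ENNReal.ofReal (4 * Cst) * K := by
    intro k
    calc _ ≤ ∫⁻ x, ENNReal.ofReal (4 * Cst / ε ^ 2) *
          {x | ‖h x‖ ^ 2 ≤ ε ^ 2 * Real.exp (Ψ x)}.indicator
            (fun x => ENNReal.ofReal (‖f x‖ ^ 2 * Real.exp (-(Φ x + Ψ x)))) x ∂μ := by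
          refine lintegral_mono fun x => ?_
          refine (ENNReal.ofReal_le_ofReal (kk_le hε (hδ k) (fun x => (hA x).le) x)).trans
            (le_of_eq ?_)
          rw [ENNReal.ofReal_mul (by have := Cst_nonneg; positivity)]
          congr 1
          by_cases hx : x ∈ {x | ‖h x‖ ^ 2 ≤ ε ^ 2 * Real.exp (Ψ x)}
          · rw [indicator_of_mem hx, indicator_of_mem hx]
          · rw [indicator_of_notMem hx, indicator_of_notMem hx, ENNReal.ofReal_zero]
      _ = ENNReal.ofReal (4 * Cst / ε ^ 2) *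
          ∫⁻ x in {x | ‖h x‖ ^ 2 ≤ ε ^ 2 * Real.exp (Ψ x)},
            ENNReal.ofReal (‖f x‖ ^ 2 * Real.exp (-(Φ x + Ψ x))) ∂μ := by
          rw [lintegral_const_mul' _ _ ENNReal.ofReal_ne_top, lintegral_indicator hms]
      _ ≤ ENNReal.ofReal (4 * Cst / ε ^ 2) * (ENNReal.ofReal (ε ^ 2) * K) := by gcongr
      _ = ENNReal.ofReal (4 * Cst) * K := by
          rw [← mul_assoc, ← ENNReal.ofReal_mul (by have := Cst_nonneg; positivity)]
          congr 2
          field_simp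
  choose F hF hFb using fun k : ℕ => TwE_34.twE hμ hρ hcpt hL hc1
    (sm_Wd hh.sm hΦ (hδ k)) hps hqs hq2
    (fun x w => Bt_nonneg hh hΨ hΦ hε (hδ k) hA hAa hΨ0' hΦΨ' hc2 hc x w)
    (sm_GG hh.sm hf.sm hΨ hε)
    (fun x w => db_le hh hf hΨ hΦ hε (hδ k) hA hAa hΨ0' hΦΨ' hc2 hc x w) (hrhs k)
  -- the weights of the limit argument
  set φ : ℕ → M → ℝ := fun k x => Wd h Φ (δ k) x - ps A h Ψ ε x + Real.log (qs A h Ψ ε x)
    with hφ
  have hq0 : ∀ x, 0 < qs A h Ψ ε x := fun x => by have := hq2 x; linarith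
  have hexp : ∀ k x, Real.exp (-φ k x) =
      Real.exp (ps A h Ψ ε x - Wd h Φ (δ k) x) / qs A h Ψ ε x := by
    intro k x
    simp only [hφ]
    rw [show -(Wd h Φ (δ k) x - ps A h Ψ ε x + Real.log (qs A h Ψ ε x)) =
      (ps A h Ψ ε x - Wd h Φ (δ k) x) - Real.log (qs A h Ψ ε x) by ring,
      Real.exp_sub (ps A h Ψ ε x - Wd h Φ (δ k) x), Real.exp_log (hq0 x)]
  have hexp2 : ∀ k x, Real.exp (-φ k x) = Real.exp (-Φ x) /
      (et A (tt h Ψ ε x) * qt A (tt h Ψ ε x)) * (‖h x‖ ^ 2 + δ k ^ 2)⁻¹ := by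
    intro k x
    rw [hexp]
    have hη := et_pos (hA x).le
    have hd : 0 < ‖h x‖ ^ 2 + δ k ^ 2 := by have := hδ k; positivity
    have e1 : Real.exp (ps A h Ψ ε x - Wd h Φ (δ k) x) =
        (et A (tt h Ψ ε x))⁻¹ * (Real.exp (-Φ x) * (‖h x‖ ^ 2 + δ k ^ 2)⁻¹) := by
      unfold ps gg Wd
      rw [show -Real.log (et A (tt h Ψ ε x)) - (Φ x + Real.log (‖h x‖ ^ 2 + δ k ^ 2)) =
        -Real.log (et A (tt h Ψ ε x)) + (-Φ x + -Real.log (‖h x‖ ^ 2 + δ k ^ 2)) by ring,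
        Real.exp_add, Real.exp_add, Real.exp_neg, Real.exp_log hη,
        Real.exp_neg (Real.log (‖h x‖ ^ 2 + δ k ^ 2)), Real.exp_log hd]
    rw [e1]
    have := hq0 x
    unfold qs at *
    field_simp
  have hanti : ∀ k x, φ (k + 1) x ≤ φ k x := by
    intro k x
    simp only [hφ, Wd]
    have h1 := hδ (k + 1)
    have h2 := hδanti k
    have h3 : Real.log (‖h x‖ ^ 2 + δ (k + 1) ^ 2) ≤ Real.log (‖h x‖ ^ 2 + δ k ^ 2) := by
      apply Real.log_le_log (by positivity)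
      have := pow_le_pow_left₀ h1.le h2 2
      linarith
    linarith
  have hφc : ∀ k, Continuous (φ k) := fun k =>
    ((sm_Wd hh.sm hΦ (hδ k)).continuous.sub hps.continuous).add
      (hqs.continuous.log fun x => (hq0 x).ne')
  have hK1 : ENNReal.ofReal (4 * Cst) * K ≠ ∞ := ENNReal.mul_ne_top ENNReal.ofReal_ne_top hKt
  obtain ⟨F0, hF0, -, hb⟩ := TwL_34.limit_hol hμ ρ hρ.continuous hcpt φ hφc hanti
    (GG h f Ψ ε) (sm_GG hh.sm hf.sm hΨ hε).continuous F hF _ hK1 (fun k => by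
      refine (setLIntegral_le_lintegral _ _).trans ?_
      simpa only [hexp] using hFb k)
  refine ⟨F0, hF0, le_trans (lintegral_mono fun x => ?_) hb⟩
  gcongr
  -- the supremum dominates the singular weight
  have hη := et_pos (hA x).le
  have hq := hq0 x
  set m : ℝ := Real.exp (-Φ x) / (et A (tt h Ψ ε x) * qt A (tt h Ψ ε x)) with hm
  have hm0 : 0 < m := by
    have : 0 < qt A (tt h Ψ ε x) := hq
    positivity
  have hδlim : Tendsto (fun k => δ k) atTop (𝓝 0) := tendsto_one_div_add_atTop_nhds_zero_nat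
  have hlim : Tendsto (fun k => ENNReal.ofReal m * (ENNReal.ofReal (‖h x‖ ^ 2 + δ k ^ 2))⁻¹) atTop
      (𝓝 (ENNReal.ofReal m * (ENNReal.ofReal (‖h x‖ ^ 2))⁻¹)) := by
    refine ENNReal.Tendsto.const_mul ?_ (Or.inr ENNReal.ofReal_ne_top)
    refine (tendsto_inv_iff).2 ?_
    refine (ENNReal.continuous_ofReal.tendsto _).comp ?_
    have := (hδlim.pow 2).const_add (‖h x‖ ^ 2)
    simpa using this
  refine le_of_tendsto' hlim fun k => ?_
  refine le_trans (le_of_eq ?_) (le_iSup (fun k => ENNReal.ofReal (Real.exp (-φ k x))) k)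
  have hd : 0 < ‖h x‖ ^ 2 + δ k ^ 2 := by have := hδ k; positivity
  rw [hexp2, ENNReal.ofReal_mul hm0.le, ENNReal.ofReal_inv_of_pos hd]

/-- `F = f` on `{h = 0}` -/
theorem eq_on_zero (hμ : IsLeb μ) (hh : W792.Hol h) (hf : W792.Hol f) (hΨ : Sm Ψ) (hΦ : Sm Φ)
    (hε : 0 < ε) {A : ℝ} (hA : ∀ x, 1 < A - tt h Ψ ε x) {F : M → ℂ} (hF : Ho51.Hol F) {K : ℝ≥0∞}
    (hK : K ≠ ∞)
    (hb : ∫⁻ x, ENNReal.ofReal (‖F x - GG h f Ψ ε x‖ ^ 2) *
        (ENNReal.ofReal (Real.exp (-Φ x) /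
          (et A (tt h Ψ ε x) * qt A (tt h Ψ ε x))) *
          (ENNReal.ofReal (‖h x‖ ^ 2))⁻¹) ∂μ ≤ K) {x0 : M} (hx0 : h x0 = 0) :
    F x0 = f x0 := by
  by_contra hne
  have hG0 : GG h f Ψ ε x0 = f x0 := by
    unfold GG
    rw [vt_zero hε hx0]; simp
  have hFc : Continuous F := (hol_of _ hF).sm.continuous
  have hGc : Continuous (GG h f Ψ ε) := (sm_GG hh.sm hf.sm hΨ hε).continuous
  have htc : Continuous (tt h Ψ ε) := (sm_tt hh.sm hΨ hε).continuous
  have hec : Continuous (fun x => et A (tt h Ψ ε x)) := by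
    rw [continuous_iff_continuousAt]
    intro x
    exact ContinuousAt.comp (contDiffAt_et (hA x).le).continuousAt htc.continuousAt
  have hqc : Continuous (fun x => qt A (tt h Ψ ε x)) := by
    rw [continuous_iff_continuousAt]
    intro x
    exact ContinuousAt.comp (g := qt A) (contDiffAt_qt (hA x).le).continuousAt htc.continuousAt
  have hep : ∀ x, 0 < et A (tt h Ψ ε x) := fun x => et_pos (hA x).le
  have hqp : ∀ x, 0 < qt A (tt h Ψ ε x) := fun x => by have := qt_ge (hA x).le; linarith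
  set g : M → ℝ := fun x => ‖F x - GG h f Ψ ε x‖ ^ 2 *
    (Real.exp (-Φ x) / (et A (tt h Ψ ε x) * qt A (tt h Ψ ε x))) with hg
  have hgc : Continuous g := ((hFc.sub hGc).norm.pow 2).mul
    ((Real.continuous_exp.comp hΦ.continuous.neg).div (hec.mul hqc)
      fun x => (mul_pos (hep x) (hqp x)).ne')
  have hg0 : 0 < g x0 := by
    have h1 : 0 < ‖F x0 - GG h f Ψ ε x0‖ := by
      rw [norm_pos_iff, hG0]
      exact sub_ne_zero.2 hne
    have h2 := hep x0
    have h3 := hqp x0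
    simp only [hg]; positivity
  have hU : {x | g x0 / 2 < g x} ∈ 𝓝 x0 :=
    hgc.continuousAt.eventually_const_lt (show g x0 / 2 < g x0 by linarith)
  have h1 := not_int hμ ((hol_iff h).2 hh) hx0 hU
  have hUm : MeasurableSet {x | g x0 / 2 < g x} :=
    (isOpen_lt continuous_const hgc).measurableSet
  have h2 : ENNReal.ofReal (g x0 / 2) *
      ∫⁻ x in {x | g x0 / 2 < g x}, (ENNReal.ofReal (‖h x‖ ^ 2))⁻¹ ∂μ ≤ K := by
    rw [← lintegral_const_mul' _ _ ENNReal.ofReal_ne_top]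
    refine le_trans ?_ hb
    refine le_trans (setLIntegral_mono' hUm (g := fun x =>
      ENNReal.ofReal (‖F x - GG h f Ψ ε x‖ ^ 2) *
        (ENNReal.ofReal (Real.exp (-Φ x) /
          (et A (tt h Ψ ε x) * qt A (tt h Ψ ε x))) *
          (ENNReal.ofReal (‖h x‖ ^ 2))⁻¹)) fun x hx => ?_) (setLIntegral_le_lintegral _ _)
    rw [← mul_assoc, ← ENNReal.ofReal_mul (by positivity)]
    gcongr
    exact (le_of_lt hx)
  rw [h1, ENNReal.mul_top (by simpa using hg0)] at h2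
  exact hK (top_unique h2)

/-- elementary bound -/
lemma s_bound {B s : ℝ} (hB : 2 ≤ B) (hs0 : 0 < s) (hs1 : s ≤ 1) :
    s * (B - Real.log s) ^ 2 ≤ B ^ 2 := by
  have hl : Real.log s ≤ 0 := Real.log_nonpos hs0.le hs1
  set y := -Real.log s with hy
  have hy0 : 0 ≤ y := by linarith
  have hse : s = Real.exp (-y) := by rw [hy, neg_neg, Real.exp_log hs0]
  have h1 : B + y ≤ B * Real.exp (y / 2) := by
    have := Real.add_one_le_exp (y / 2)
    nlinarith
  have h2 : (B + y) ^ 2 ≤ B ^ 2 * Real.exp y := by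
    calc (B + y) ^ 2 ≤ (B * Real.exp (y / 2)) ^ 2 := pow_le_pow_left₀ (by linarith) h1 2
      _ = B ^ 2 * Real.exp y := by
        rw [mul_pow, ← Real.exp_nat_mul]
        congr 2
        push_cast; ring
  have e : B - Real.log s = B + y := by rw [hy]; ring
  rw [e, hse]
  calc Real.exp (-y) * (B + y) ^ 2 ≤ Real.exp (-y) * (B ^ 2 * Real.exp y) :=
        mul_le_mul_of_nonneg_left h2 (Real.exp_pos _).le
    _ = B ^ 2 := by
        rw [mul_comm (B ^ 2), ← mul_assoc, ← Real.exp_add]; simp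

end Crest.Agent.R273.OTD_34
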