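import Crest.Agent.R273.OTD_34

/-!
# Row 273 / 276: the Ohsawa–Takegoshi–Manivel extension theorem, `ε`-form, final (helper34)

`ot_eps`: `h, f` holomorphic, `|h|² ≤ e^Ψ`, `a Levi Ψ ≤ Levi Φ`, `0 ≤ Levi Ψ`, `0 < a ≤ 1`,
`0 < ε ≤ 1`, `∫_{|h|² ≤ ε² e^Ψ} |f|² e^{-Φ-Ψ} ≤ ε² K` give `F` holomorphic with `F = f` on
`{h = 0}`, `∫ |F|² e^{-Φ-Ψ} ≤ Cot a * K`.
-/

set_option autoImplicit false
set_option linter.unusedSectionVars false

noncomputable section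

open Set Filter Topology ComplexConjugate MeasureTheory
open scoped ENNReal

namespace Crest.Agent.R273.OTE_34

open Crest.Agent.R271.Ho51 Crest.Agent.R271 Crest.Agent.R273.OTA_34 Crest.Agent.R273.TwA_34
  Crest.Agent.R273.OTB_34 Crest.Agent.R273.OTC_34 Crest.Agent.R273.OTD_34

variable {n : ℕ} {M : Type*} [TopologicalSpace M] [T2Space M] [SecondCountableTopology M]
  [RDom n M] [MeasurableSpace M] [BorelSpace M] {μ : Measure M}

variable {h f : M → ℂ} {Ψ Φ : M → ℝ} {ε a : ℝ}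

lemma Aa_ge (ha : 0 < a) (ha1 : a ≤ 1) : 3 ≤ Aa a := by
  unfold Aa
  have : 2 ≤ 2 / a := by rw [le_div_iff₀ ha]; linarith
  linarith

lemma Aa_sub (hε : 0 < ε) (hε1 : ε ≤ 1) (hs : ∀ x, ‖h x‖ ^ 2 ≤ Real.exp (Ψ x)) (ha : 0 < a)
    (ha1 : a ≤ 1) (x : M) : 1 < Aa a - tt h Ψ ε x := by
  have := tt_le (h := h) (Ψ := Ψ) hε hε1 hs x
  have := Aa_ge ha ha1
  linarith

lemma Cot_nonneg (a : ℝ) : 0 ≤ Cot a := by
  unfold Cot
  have := Cst_nonneg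
  positivity

/-- the singular weight dominates the weak weight -/
lemma weak_le (hε : 0 < ε) (hε1 : ε ≤ 1) (hs : ∀ x, ‖h x‖ ^ 2 ≤ Real.exp (Ψ x)) (ha : 0 < a)
    (ha1 : a ≤ 1) {x : M} (hx : h x ≠ 0) :
    Real.exp (-(Φ x + Ψ x)) ≤ 6 * (Aa a + 1) ^ 2 * (Real.exp (-Φ x) /
          (et (Aa a) (tt h Ψ ε x) * qt (Aa a) (tt h Ψ ε x)) * (‖h x‖ ^ 2)⁻¹) := by
  have hA := Aa_sub hε hε1 hs ha ha1 x
  have h3 := Aa_ge ha ha1
  have h1 := et_qt hA.le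
  have hη := et_pos hA.le
  have hq : 0 < qt (Aa a) (tt h Ψ ε x) := by have := qt_ge hA.le; linarith
  have hh2 : 0 < ‖h x‖ ^ 2 := by positivity
  set s : ℝ := ‖h x‖ ^ 2 * Real.exp (-Ψ x) with hsdef
  have hs0 : 0 < s := by positivity
  have hs1 : s ≤ 1 := by
    rw [hsdef, Real.exp_neg, ← div_eq_mul_inv]
    exact (div_le_one (Real.exp_pos _)).2 (hs x)
  have htl : Real.log s ≤ tt h Ψ ε x := by
    rw [← Real.exp_le_exp, Real.exp_log hs0, exp_tt hε]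
    have : 0 < ε ^ 2 := by positivity
    linarith
  have h4 := s_bound (B := Aa a + 1) (by linarith) hs0 hs1
  have h5 : (Aa a - tt h Ψ ε x + 1) ^ 2 ≤ (Aa a + 1 - Real.log s) ^ 2 := by
    apply pow_le_pow_left₀ (by linarith) (by linarith)
  have h6 : s * (et (Aa a) (tt h Ψ ε x) * qt (Aa a) (tt h Ψ ε x)) ≤ 6 * (Aa a + 1) ^ 2 := by
    calc s * (et (Aa a) (tt h Ψ ε x) * qt (Aa a) (tt h Ψ ε x))
        ≤ s * (6 * (Aa a - tt h Ψ ε x + 1) ^ 2) := by gcongr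
      _ ≤ s * (6 * (Aa a + 1 - Real.log s) ^ 2) := by gcongr
      _ = 6 * (s * (Aa a + 1 - Real.log s) ^ 2) := by ring
      _ ≤ 6 * (Aa a + 1) ^ 2 := by linarith
  have e1 : Real.exp (-(Φ x + Ψ x)) = Real.exp (-Φ x) * (‖h x‖ ^ 2)⁻¹ * s := by
    rw [hsdef, neg_add, Real.exp_add]
    field_simp
  rw [e1]
  have e2 : 6 * (Aa a + 1) ^ 2 * (Real.exp (-Φ x) /
      (et (Aa a) (tt h Ψ ε x) * qt (Aa a) (tt h Ψ ε x)) * (‖h x‖ ^ 2)⁻¹) =
      Real.exp (-Φ x) * (‖h x‖ ^ 2)⁻¹ * (6 * (Aa a + 1) ^ 2 /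
      (et (Aa a) (tt h Ψ ε x) * qt (Aa a) (tt h Ψ ε x))) := by
    field_simp
  rw [e2]
  refine mul_le_mul_of_nonneg_left ?_ (by positivity)
  rw [le_div_iff₀ (by positivity)]
  exact h6

lemma norm_GG_le (hε : 0 < ε) (x : M) :
    ‖GG h f Ψ ε x‖ ^ 2 * Real.exp (-(Φ x + Ψ x)) ≤
      {x | ‖h x‖ ^ 2 ≤ ε ^ 2 * Real.exp (Ψ x)}.indicator
        (fun x => ‖f x‖ ^ 2 * Real.exp (-(Φ x + Ψ x))) x := by
  by_cases hx : x ∈ {x | ‖h x‖ ^ 2 ≤ ε ^ 2 * Real.exp (Ψ x)}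
  · rw [indicator_of_mem hx]
    refine mul_le_mul_of_nonneg_right ?_ (Real.exp_pos _).le
    unfold GG
    have h1 := vt_mem ε (tt h Ψ ε x)
    rw [norm_mul, Complex.norm_real, Real.norm_eq_abs, abs_of_nonneg h1.1]
    have h2 : vt ε (tt h Ψ ε x) * ‖f x‖ ≤ 1 * ‖f x‖ :=
      mul_le_mul_of_nonneg_right h1.2 (norm_nonneg _)
    rw [one_mul] at h2
    exact pow_le_pow_left₀ (mul_nonneg h1.1 (norm_nonneg _)) h2 2
  · rw [indicator_of_notMem hx]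
    unfold GG
    rw [vt_eq_zero hε hx]
    simp

/-- **Ohsawa–Takegoshi–Manivel, `ε`-form** -/
theorem ot_eps (hμ : IsLeb μ) {ρ : M → ℝ} (hρ : Sm ρ)
    (hcpt : ∀ t : ℝ, IsCompact {x | ρ x ≤ t}) (hL : ∀ x w, nsq w ≤ Levi ρ x w)
    (hh : W792.Hol h) (hf : W792.Hol f) (hΨ : Sm Ψ) (hΦ : Sm Φ)
    (hs : ∀ x, ‖h x‖ ^ 2 ≤ Real.exp (Ψ x)) (ha : 0 < a) (ha1 : a ≤ 1)
    (hΨ0 : ∀ x w, 0 ≤ Levi Ψ x w) (hΦΨ : ∀ x w, a * Levi Ψ x w ≤ Levi Φ x w)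
    (hε : 0 < ε) (hε1 : ε ≤ 1) {K : ℝ≥0∞}
    (hK : ∫⁻ x in {x | ‖h x‖ ^ 2 ≤ ε ^ 2 * Real.exp (Ψ x)},
      ENNReal.ofReal (‖f x‖ ^ 2 * Real.exp (-(Φ x + Ψ x))) ∂μ ≤ ENNReal.ofReal (ε ^ 2) * K) :
    ∃ F : M → ℂ, W792.Hol F ∧ (∀ x, h x = 0 → F x = f x) ∧
      ∫⁻ x, ENNReal.ofReal (‖F x‖ ^ 2 * Real.exp (-(Φ x + Ψ x))) ∂μ ≤
        ENNReal.ofReal (Cot a) * K := by
  have hms : MeasurableSet {x | ‖h x‖ ^ 2 ≤ ε ^ 2 * Real.exp (Ψ x)} :=
    (isClosed_le (hh.sm.continuous.norm.pow 2)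
      (continuous_const.mul (Real.continuous_exp.comp hΨ.continuous))).measurableSet
  by_cases hKt : K = ∞
  · refine ⟨f, hf, fun _ _ => rfl, ?_⟩
    have h0 : 0 < Cot a := by
      unfold Cot
      have := Cst_nonneg
      positivity
    rw [hKt, ENNReal.mul_top (by simpa using h0)]
    exact le_top
  obtain ⟨F, hF, hb⟩ := ot_sing hμ hρ hcpt hL hh hf hΨ hΦ hs ha ha1 hΨ0 hΦΨ hε hε1 hKt hK
  have hKC : ENNReal.ofReal (4 * Cst) * K ≠ ∞ := ENNReal.mul_ne_top ENNReal.ofReal_ne_top hKt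
  have hz : ∀ x, h x = 0 → F x = f x := fun x hx =>
    eq_on_zero hμ hh hf hΨ hΦ hε (Aa_sub hε hε1 hs ha ha1) hF hKC hb hx
  refine ⟨F, hol_of _ hF, hz, ?_⟩
  have hA := Aa_sub (h := h) (Ψ := Ψ) hε hε1 hs ha ha1
  set c6 : ℝ := 6 * (Aa a + 1) ^ 2 with hc6
  have hc60 : 0 ≤ c6 := by positivity
  have hpt : ∀ x, ENNReal.ofReal (‖F x‖ ^ 2 * Real.exp (-(Φ x + Ψ x))) ≤
      ENNReal.ofReal (2 * c6) * (ENNReal.ofReal (‖F x - GG h f Ψ ε x‖ ^ 2) *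
        (ENNReal.ofReal (Real.exp (-Φ x) /
          (et (Aa a) (tt h Ψ ε x) * qt (Aa a) (tt h Ψ ε x))) *
          (ENNReal.ofReal (‖h x‖ ^ 2))⁻¹)) +
      ENNReal.ofReal 2 * {x | ‖h x‖ ^ 2 ≤ ε ^ 2 * Real.exp (Ψ x)}.indicator
        (fun x => ENNReal.ofReal (‖f x‖ ^ 2 * Real.exp (-(Φ x + Ψ x)))) x := by
    intro x
    have hG := norm_GG_le (h := h) (f := f) (Ψ := Ψ) (Φ := Φ) hε x
    have hind : {x | ‖h x‖ ^ 2 ≤ ε ^ 2 * Real.exp (Ψ x)}.indicator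
        (fun x => ENNReal.ofReal (‖f x‖ ^ 2 * Real.exp (-(Φ x + Ψ x)))) x =
        ENNReal.ofReal ({x | ‖h x‖ ^ 2 ≤ ε ^ 2 * Real.exp (Ψ x)}.indicator
        (fun x => ‖f x‖ ^ 2 * Real.exp (-(Φ x + Ψ x))) x) := by
      by_cases hx : x ∈ {x | ‖h x‖ ^ 2 ≤ ε ^ 2 * Real.exp (Ψ x)}
      · rw [indicator_of_mem hx, indicator_of_mem hx]
      · rw [indicator_of_notMem hx, indicator_of_notMem hx, ENNReal.ofReal_zero]
    rw [hind]
    set E := Real.exp (-(Φ x + Ψ x)) with hE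
    have hE0 : 0 < E := Real.exp_pos _
    by_cases hx : h x = 0
    · have hG0 : GG h f Ψ ε x = f x := by
        unfold GG
        rw [vt_zero hε hx]; simp
      have hmem : x ∈ {x | ‖h x‖ ^ 2 ≤ ε ^ 2 * Real.exp (Ψ x)} := by
        have h0 : 0 ≤ ε ^ 2 * Real.exp (Ψ x) := by positivity
        change ‖h x‖ ^ 2 ≤ ε ^ 2 * Real.exp (Ψ x)
        rw [hx, norm_zero]
        simpa using h0
      refine le_trans ?_ le_add_self
      rw [indicator_of_mem hmem, hz x hx, ← ENNReal.ofReal_mul (by norm_num)]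
      apply ENNReal.ofReal_le_ofReal
      have : 0 ≤ ‖f x‖ ^ 2 * E := by positivity
      linarith
    · have hw := weak_le (h := h) (Ψ := Ψ) (Φ := Φ) hε hε1 hs ha ha1 hx
      have hη := et_pos (hA x).le
      have hq : 0 < qt (Aa a) (tt h Ψ ε x) := by have := qt_ge (hA x).le; linarith
      have hh2 : 0 < ‖h x‖ ^ 2 := by positivity
      set m : ℝ := Real.exp (-Φ x) / (et (Aa a) (tt h Ψ ε x) * qt (Aa a) (tt h Ψ ε x)) with hm
      have hm0 : 0 < m := by positivity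
      rw [← ENNReal.ofReal_inv_of_pos hh2, ← ENNReal.ofReal_mul hm0.le,
        ← ENNReal.ofReal_mul (by positivity), ← ENNReal.ofReal_mul (by positivity),
        ← ENNReal.ofReal_mul (by norm_num),
        ← ENNReal.ofReal_add (by positivity) (by
          refine mul_nonneg (by norm_num) (le_trans ?_ hG)
          positivity)]
      apply ENNReal.ofReal_le_ofReal
      have h1 : ‖F x‖ ^ 2 ≤ 2 * ‖F x - GG h f Ψ ε x‖ ^ 2 + 2 * ‖GG h f Ψ ε x‖ ^ 2 := by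
        have h2 : ‖F x‖ ≤ ‖F x - GG h f Ψ ε x‖ + ‖GG h f Ψ ε x‖ := by
          simpa using norm_add_le (F x - GG h f Ψ ε x) (GG h f Ψ ε x)
        have h3 := pow_le_pow_left₀ (norm_nonneg _) h2 2
        nlinarith [sq_nonneg (‖F x - GG h f Ψ ε x‖ - ‖GG h f Ψ ε x‖)]
      have hw' : ‖F x - GG h f Ψ ε x‖ ^ 2 * E ≤
          ‖F x - GG h f Ψ ε x‖ ^ 2 * (c6 * (m * (‖h x‖ ^ 2)⁻¹)) :=
        mul_le_mul_of_nonneg_left hw (by positivity)
      have h4 := mul_le_mul_of_nonneg_right h1 hE0.le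
      nlinarith
  refine (lintegral_mono hpt).trans ?_
  rw [lintegral_add_right, lintegral_const_mul' _ _ ENNReal.ofReal_ne_top,
    lintegral_const_mul' _ _ ENNReal.ofReal_ne_top, lintegral_indicator hms]
  · calc _ ≤ ENNReal.ofReal (2 * c6) * (ENNReal.ofReal (4 * Cst) * K) +
          ENNReal.ofReal 2 * (ENNReal.ofReal (ε ^ 2) * K) := by gcongr
      _ ≤ ENNReal.ofReal (2 * c6) * (ENNReal.ofReal (4 * Cst) * K) +
          ENNReal.ofReal 2 * (ENNReal.ofReal 1 * K) := by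
          gcongr
          nlinarith
      _ = ENNReal.ofReal (Cot a) * K := by
          have := Cst_nonneg
          rw [ENNReal.ofReal_one, one_mul, ← mul_assoc, ← ENNReal.ofReal_mul (by positivity),
            ← add_mul, ← ENNReal.ofReal_add (by positivity) (by norm_num)]
          congr 2
          rw [hc6]; unfold Cot; ring
  · refine Measurable.const_mul ?_ _
    refine Measurable.indicator ?_ hms
    exact (((hf.sm.continuous.norm.pow 2).mul (Real.continuous_exp.comp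
      (hΦ.continuous.add hΨ.continuous).neg)).measurable).ennreal_ofReal

end Crest.Agent.R273.OTE_34
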