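import Crest.Agent.R276.EngU_29
import Crest.Agent.R273.OTE_34

/-!
# Rows 273 / 276: Ohsawa–Takegoshi with a psh weight (helper34, on helper29's tools)

`ot_psh` : weight `e^{-Φ-Ψ-u}`, `u` psh (`PSH`), only local tube estimates on `f`;
`otb` : weight `e^{-Φ-Ψ}/b`, `LPsh b`.
-/

set_option autoImplicit false
set_option linter.unusedSectionVars false
set_option linter.style.haveILetI false

noncomputable section

open Set Filter Topology MeasureTheory ComplexConjugate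
open scoped ENNReal

namespace Crest.Agent.R273.OTU_34

open Crest.Agent.R271 Crest.Agent.R271.Ho51 Crest.Agent.R273.OTA_34 Crest.Agent.R273.OTD_34
  Crest.Agent.R273.OTE_34 Crest.Agent.R273.Reg_844
  Crest.Agent.R276.SubL_29 Crest.Agent.R276.LimW_29 Crest.Agent.R276.EngU_29
open Crest.Agent.R271.W792 (lev)
open TopologicalSpace (Opens)

variable {n : ℕ} {M : Type*} [TopologicalSpace M] [RDom n M]

/-- the tube of radius `ε` -/
def tube (h : M → ℂ) (Ψ : M → ℝ) (ρ : M → ℝ) (c ε : ℝ) : Set M :=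
  {x | ‖h x‖ ^ 2 ≤ ε ^ 2 * Real.exp (Ψ x) ∧ ρ x ≤ c}

variable [T2Space M] [SecondCountableTopology M] [MeasurableSpace M] [BorelSpace M]
  {μ : Measure M}

/-- the local tube hypothesis -/
def TubeB (μ : Measure M) (h f : M → ℂ) (Ψ Φ ρ u : M → ℝ) (K : ℝ≥0∞) : Prop :=
  ∀ (c : ℝ) (φ : M → ℝ), ContinuousOn φ {x | ρ x ≤ c} → (∀ x, ρ x ≤ c → u x ≤ φ x) →
    ∀ K', K < K' → ∀ᶠ ε in 𝓝[>] (0 : ℝ), ∫⁻ x in tube h Ψ ρ c ε,
      ENNReal.ofReal (‖f x‖ ^ 2 * Real.exp (-(Φ x + Ψ x + φ x))) ∂μ ≤ ENNReal.ofReal (ε ^ 2) * K'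

variable {h f : M → ℂ} {Ψ Φ ρ u : M → ℝ} {a : ℝ} {K : ℝ≥0∞}

lemma continuousAt_of_contDiffAt {φ : M → ℝ} {x : M}
    (h1 : ContDiffAt ℝ (⊤ : ℕ∞) (φ ∘ (ch x).symm) (cp x)) : ContinuousAt φ x := by
  have h2 : ContinuousAt (fun y => (φ ∘ (ch x).symm) (cp y)) x :=
    ContinuousAt.comp (g := φ ∘ (ch x).symm) h1.continuousAt cp_cont.continuousAt
  exact h2.congr (eventually_eq_comp (isCh_ch x) (mem_ch x) φ).symm

/-- one sublevel domain -/
theorem ot_step (hμ : IsLeb μ) (hρ : Sm ρ) (hcpt : ∀ t : ℝ, IsCompact {x | ρ x ≤ t})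
    (hL : ∀ x w, nsq w ≤ Levi ρ x w) (k : ℝ) (hh : W792.Hol h) (hf : W792.Hol f)
    (hΨ : Sm Ψ) (hΦ : Sm Φ) (hs : ∀ x, ‖h x‖ ^ 2 ≤ Real.exp (Ψ x)) (ha : 0 < a) (ha1 : a ≤ 1)
    (hΨ0 : ∀ x w, 0 ≤ Levi Ψ x w) (hΦΨ : ∀ x w, a * Levi Ψ x w ≤ Levi Φ x w)
    (hu : PSH u) (hKt : K ≠ ∞) (htube : TubeB μ h f Ψ Φ ρ u K) :
    ∃ F : M → ℂ, HolOn F {x | ρ x < k} ∧ (∀ x, ρ x < k → h x = 0 → F x = f x) ∧
      ∫⁻ x in {x | ρ x < k}, ENNReal.ofReal (‖F x - 0‖ ^ 2) *
        ENNReal.ofReal (Real.exp (-(Φ x + Ψ x)) * Real.exp (-u x)) ∂μ ≤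
          ENNReal.ofReal (Cot a) * K := by
  obtain ⟨U₀, φ, hU₀, hCU, hφs, hφl, hφa, hφg, hφt⟩ := exists_reg hu (hcpt k)
  set U : Opens M := sub ρ hρ.continuous k with hU
  letI := rdO U
  have hUU₀ : ∀ x : U, x.1 ∈ U₀ := fun x => hCU (show ρ x.1 ≤ k from (show ρ x.1 < k from x.2).le)
  have hμU : IsLeb (μ.comap (Subtype.val : U → M)) := isLeb_res U hμ
  have hΦU : Sm (fun y : U => Φ y.1) := sm_res U hΦ
  have hΨU : Sm (fun y : U => Ψ y.1) := sm_res U hΨ
  have hhU : W792.Hol (fun y : U => h y.1) := hol_of _ (hol_res U ((hol_iff h).2 hh))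
  have hfU : W792.Hol (fun y : U => f y.1) := hol_of _ (hol_res U ((hol_iff f).2 hf))
  have hφU : ∀ j, Sm (fun y : U => φ j y.1) := fun j =>
    sm_res' U fun x hx => hφs j x (hCU (show ρ x ≤ k from (show ρ x < k from hx).le))
  have hC0 := Cot_nonneg a
  have hstep : ∀ j : ℕ, ∃ F : U → ℂ, Hol F ∧ (∀ x : U, h x.1 = 0 → F x = f x.1) ∧
      ∫⁻ x : U, ENNReal.ofReal (‖F x‖ ^ 2 * Real.exp (-((Φ x.1 + φ j x.1) + Ψ x.1)))
        ∂(μ.comap (Subtype.val : U → M)) ≤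
          ENNReal.ofReal (Cot a) * (K + ENNReal.ofReal (1 / ((j : ℝ) + 1))) := by
    intro j
    have hj : (0 : ℝ) < 1 / ((j : ℝ) + 1) := by positivity
    have hlt : K < K + ENNReal.ofReal (1 / ((j : ℝ) + 1)) :=
      ENNReal.lt_add_right hKt (ENNReal.ofReal_pos.2 hj).ne'
    have hev := htube k (φ j) (fun x hx =>
      (continuousAt_of_contDiffAt (hφs j x (hCU hx))).continuousWithinAt)
      (fun x hx => hφg j x (hCU hx)) _ hlt
    have hev1 : ∀ᶠ ε in 𝓝[>] (0 : ℝ), ε ≤ 1 :=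
      nhdsWithin_le_nhds (Iic_mem_nhds zero_lt_one)
    obtain ⟨ε, ⟨hε1, hε2⟩, hε0⟩ := ((hev.and hev1).and self_mem_nhdsWithin).exists
    obtain ⟨F, hF, hF0, hFb⟩ := ot_eps (a := a) (ε := ε) (μ := μ.comap (Subtype.val : U → M)) hμU
      (sm_rhoA hρ k) (isCompact_rhoA hρ.continuous hcpt k) (Levi_rhoA hρ hL k) hhU hfU hΨU
      (hΦU.add (hφU j)) (fun x => hs x.1) ha ha1
      (fun x w => by rw [Levi_res U Ψ x w]; exact hΨ0 x.1 w)
      (fun x w => by
        have h2 : Levi (fun y : U => Φ y.1 + φ j y.1) x w =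
          Levi (fun y : U => Φ y.1) x w + Levi (fun y : U => φ j y.1) x w :=
            Levi_add hΦU (hφU j) x w
        have h3 : Levi (fun y : U => Φ y.1) x w = Levi Φ x.1 w := Levi_res U Φ x w
        have h4 : 0 ≤ Levi (fun y : U => φ j y.1) x w := by
          rw [W792.Levi_eq_lev (hφU j), lev_res]
          exact hφl j x.1 (hUU₀ x) w
        have h5 : Levi (fun y : U => Ψ y.1) x w = Levi Ψ x.1 w := Levi_res U Ψ x w
        rw [h2, h3, h5]
        have := hΦΨ x.1 w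
        linarith) hε0 hε2 (K := K + ENNReal.ofReal (1 / ((j : ℝ) + 1))) (by
        refine le_trans ?_ hε1
        have hms : MeasurableSet {x : M | ‖h x‖ ^ 2 ≤ ε ^ 2 * Real.exp (Ψ x)} :=
          (isClosed_le (hh.sm.continuous.norm.pow 2)
            (continuous_const.mul (Real.continuous_exp.comp hΨ.continuous))).measurableSet
        have hmsU : MeasurableSet {x : U | ‖h x.1‖ ^ 2 ≤ ε ^ 2 * Real.exp (Ψ x.1)} :=
          hms.preimage measurable_subtype_coe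
        set g : M → ℝ≥0∞ := fun x =>
          ENNReal.ofReal (‖f x‖ ^ 2 * Real.exp (-(Φ x + Ψ x + φ j x))) with hg
        calc ∫⁻ x in {x : U | ‖h x.1‖ ^ 2 ≤ ε ^ 2 * Real.exp (Ψ x.1)},
              ENNReal.ofReal (‖f x.1‖ ^ 2 * Real.exp (-((Φ x.1 + φ j x.1) + Ψ x.1)))
                ∂(μ.comap (Subtype.val : U → M))
            = ∫⁻ x : U, ({x : M | ‖h x‖ ^ 2 ≤ ε ^ 2 * Real.exp (Ψ x)}.indicator g) x.1
                ∂(μ.comap (Subtype.val : U → M)) := by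
              rw [← lintegral_indicator hmsU]
              refine lintegral_congr fun x => ?_
              by_cases hx : ‖h x.1‖ ^ 2 ≤ ε ^ 2 * Real.exp (Ψ x.1)
              · rw [indicator_of_mem (show x ∈ {x : U | ‖h x.1‖ ^ 2 ≤ ε ^ 2 * Real.exp (Ψ x.1)}
                  from hx), indicator_of_mem
                  (show x.1 ∈ {x : M | ‖h x‖ ^ 2 ≤ ε ^ 2 * Real.exp (Ψ x)} from hx)]
                simp only [hg]
                congr 3
                ring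
              · rw [indicator_of_notMem
                  (show x ∉ {x : U | ‖h x.1‖ ^ 2 ≤ ε ^ 2 * Real.exp (Ψ x.1)} from hx),
                  indicator_of_notMem
                  (show x.1 ∉ {x : M | ‖h x‖ ^ 2 ≤ ε ^ 2 * Real.exp (Ψ x)} from hx)]
          _ = ∫⁻ x in (U : Set M), ({x : M | ‖h x‖ ^ 2 ≤ ε ^ 2 * Real.exp (Ψ x)}.indicator g) x
                ∂μ := lintegral_res U _
          _ = ∫⁻ x in {x : M | ‖h x‖ ^ 2 ≤ ε ^ 2 * Real.exp (Ψ x)} ∩ (U : Set M), g x ∂μ := by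
              rw [lintegral_indicator hms, Measure.restrict_restrict hms]
          _ ≤ ∫⁻ x in tube h Ψ ρ k ε, g x ∂μ := by
              refine lintegral_mono_set ?_
              rintro x ⟨hx1, hx2⟩
              exact ⟨hx1, (show ρ x < k from hx2).le⟩)
    exact ⟨F, (hol_iff F).2 hF, hF0, hFb⟩
  choose F hFh hF0 hFb using hstep
  -- limit on `U`
  obtain ⟨F0, hF0h, hlim, hb0⟩ := limW' (Ω := fun _ => (univ : Set U)) (G := fun _ => (0 : ℂ)) hμU
    (fun _ => isOpen_univ)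
    (fun _ _ _ => le_rfl) (fun C _ => ⟨0, subset_univ C⟩) continuous_const
    (fun k => HolOn.of_hol (hFh k) univ)
    (W := fun k x => ENNReal.ofReal (Real.exp (-(Φ x.1 + Ψ x.1)) * Real.exp (-φ k x.1)))
    (fun x k k' hkk' => ENNReal.ofReal_le_ofReal (mul_le_mul_of_nonneg_left
      (Real.exp_le_exp.2 (neg_le_neg (hφa x.1 (hUU₀ x) hkk'))) (Real.exp_pos _).le))
    (fun k => by
      have h1 : Continuous (fun x : U => Real.exp (-(Φ x.1 + Ψ x.1)) * Real.exp (-φ k x.1)) :=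
        (Real.continuous_exp.comp (hΦU.continuous.add hΨU.continuous).neg).mul
          (Real.continuous_exp.comp (hφU k).continuous.neg)
      exact h1.measurable.ennreal_ofReal)
    (fun x => by
      have h1 : Continuous (fun x : U => Real.exp (-(Φ x.1 + Ψ x.1)) * Real.exp (-φ 0 x.1)) :=
        (Real.continuous_exp.comp (hΦU.continuous.add hΨU.continuous).neg).mul
          (Real.continuous_exp.comp (hφU 0).continuous.neg)
      have h2 : 0 < Real.exp (-(Φ x.1 + Ψ x.1)) * Real.exp (-φ 0 x.1) :=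
        mul_pos (Real.exp_pos _) (Real.exp_pos _)
      refine ⟨0, ENNReal.ofReal (Real.exp (-(Φ x.1 + Ψ x.1)) * Real.exp (-φ 0 x.1) / 2),
        ENNReal.ofReal_pos.2 (by positivity), ?_⟩
      filter_upwards [h1.continuousAt.eventually (lt_mem_nhds (half_lt_self h2))] with y hy
      exact ENNReal.ofReal_le_ofReal hy.le)
    (K := ENNReal.ofReal (Cot a) * K) (ENNReal.mul_ne_top ENNReal.ofReal_ne_top hKt)
    (fun K' hK' => by
      have h1 : Tendsto (fun j : ℕ => ENNReal.ofReal (Cot a) *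
          (K + ENNReal.ofReal (1 / ((j : ℝ) + 1)))) atTop (𝓝 (ENNReal.ofReal (Cot a) * K)) := by
        refine ENNReal.Tendsto.const_mul ?_ (Or.inr ENNReal.ofReal_ne_top)
        have h2 : Tendsto (fun j : ℕ => ENNReal.ofReal (1 / ((j : ℝ) + 1))) atTop (𝓝 0) := by
          have := (ENNReal.continuous_ofReal.tendsto 0).comp
            (tendsto_one_div_add_atTop_nhds_zero_nat (𝕜 := ℝ))
          rwa [ENNReal.ofReal_zero] at this
        simpa using h2.const_add K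
      have h3 : (hyperfilter ℕ : Filter ℕ) ≤ atTop := by
        rw [← Nat.cofinite_eq_atTop]
        exact hyperfilter_le_cofinite
      filter_upwards [h3 (h1.eventually (gt_mem_nhds hK'))] with j hj
      refine le_trans (le_trans (le_of_eq ?_) (hFb j)) (le_of_lt hj)
      rw [Measure.restrict_univ]
      refine lintegral_congr fun x => ?_
      rw [← ENNReal.ofReal_mul (by positivity), sub_zero]
      congr 1
      rw [show -(Φ x.1 + φ j x.1 + Ψ x.1) = -(Φ x.1 + Ψ x.1) + -φ j x.1 by ring, Real.exp_add])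
  -- back to `M`
  classical
  refine ⟨fun x => if hx : x ∈ U then F0 ⟨x, hx⟩ else 0, ?_, ?_, ?_⟩
  · intro e he z hz
    have hzU : e.symm z ∈ U := hz.2
    refine (differentiableAt_of_hol U hF0h (F' := fun x => if hx : x ∈ U then F0 ⟨x, hx⟩ else 0)
      (fun x => ?_) he hz.1 hzU).differentiableWithinAt
    rw [dif_pos x.2]
  · intro x hx hx0
    beta_reduce
    rw [dif_pos (show x ∈ U from hx)]
    have h1 := hlim ⟨x, hx⟩
    have h2 : (fun j => F j ⟨x, hx⟩) = fun _ => f x := by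
      funext j
      exact hF0 j ⟨x, hx⟩ hx0
    rw [h2] at h1
    exact (tendsto_nhds_unique tendsto_const_nhds h1).symm
  · have h1 := lintegral_res (U := U) (μ := μ) (fun x => ENNReal.ofReal
      (‖(if hx : x ∈ U then F0 ⟨x, hx⟩ else 0) - 0‖ ^ 2) *
        ENNReal.ofReal (Real.exp (-(Φ x + Ψ x)) * Real.exp (-u x)))
    refine le_trans (le_of_eq ?_) hb0
    refine h1.symm.trans ?_
    refine lintegral_congr fun x => ?_
    rw [dif_pos x.2]
    congr 1
    -- the supremum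
    have h2 : Tendsto (fun k => ENNReal.ofReal (Real.exp (-(Φ x.1 + Ψ x.1)) *
        Real.exp (-φ k x.1))) atTop (𝓝 (ENNReal.ofReal (Real.exp (-(Φ x.1 + Ψ x.1)) *
        Real.exp (-u x.1)))) :=
      (ENNReal.continuous_ofReal.tendsto _).comp
        (((Real.continuous_exp.tendsto _).comp (hφt x.1 (hUU₀ x)).neg).const_mul _)
    refine (tendsto_nhds_unique (tendsto_atTop_iSup ?_) h2).symm
    intro k k' hkk'
    exact ENNReal.ofReal_le_ofReal (mul_le_mul_of_nonneg_left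
      (Real.exp_le_exp.2 (neg_le_neg (hφa x.1 (hUU₀ x) hkk'))) (Real.exp_pos _).le)

/-- **Ohsawa–Takegoshi with a psh weight** -/
theorem ot_psh (hμ : IsLeb μ) (hρ : Sm ρ) (hcpt : ∀ t : ℝ, IsCompact {x | ρ x ≤ t})
    (hL : ∀ x w, nsq w ≤ Levi ρ x w) (hh : W792.Hol h) (hf : W792.Hol f)
    (hΨ : Sm Ψ) (hΦ : Sm Φ) (hs : ∀ x, ‖h x‖ ^ 2 ≤ Real.exp (Ψ x)) (ha : 0 < a) (ha1 : a ≤ 1)
    (hΨ0 : ∀ x w, 0 ≤ Levi Ψ x w) (hΦΨ : ∀ x w, a * Levi Ψ x w ≤ Levi Φ x w)
    (hu : PSH u) (hKt : K ≠ ∞) (htube : TubeB μ h f Ψ Φ ρ u K) :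
    ∃ F : M → ℂ, Hol F ∧ (∀ x, h x = 0 → F x = f x) ∧
      ∫⁻ x, ENNReal.ofReal (‖F x‖ ^ 2) *
        ENNReal.ofReal (Real.exp (-(Φ x + Ψ x)) * Real.exp (-u x)) ∂μ ≤
          ENNReal.ofReal (Cot a) * K := by
  choose F hF hF0 hFb using fun k : ℕ =>
    ot_step hμ hρ hcpt hL (k : ℝ) hh hf hΨ hΦ hs ha ha1 hΨ0 hΦΨ hu hKt htube
  have hcont : Continuous (fun x => Real.exp (-(Φ x + Ψ x))) :=
    Real.continuous_exp.comp (hΦ.continuous.add hΨ.continuous).neg
  obtain ⟨F0, hF0h, hlim, hb⟩ := limW (Ω := fun k : ℕ => {x | ρ x < (k : ℝ)})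
    (G := fun _ => (0 : ℂ)) hμ
    (fun k => isOpen_lt hρ.continuous continuous_const)
    (fun k k' hkk' x hx => lt_of_lt_of_le (show ρ x < (k : ℝ) from hx)
      (by exact_mod_cast hkk' : (k : ℝ) ≤ (k' : ℝ)))
    (exhaust hρ.continuous) continuous_const hF
    (W := fun _ x => ENNReal.ofReal (Real.exp (-(Φ x + Ψ x)) * Real.exp (-u x)))
    (fun x _ _ _ => le_rfl)
    (fun _ => (hcont.measurable.mul
      (Real.measurable_exp.comp hu.usc.measurable.neg)).ennreal_ofReal)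
    (fun x => by
      have h2 : 0 < Real.exp (-(Φ x + Ψ x)) := Real.exp_pos _
      refine ⟨0, ENNReal.ofReal (Real.exp (-(Φ x + Ψ x)) / 2 * Real.exp (-(u x + 1))),
        ENNReal.ofReal_pos.2 (by positivity), ?_⟩
      filter_upwards [hcont.continuousAt.eventually (lt_mem_nhds (half_lt_self h2)),
        hu.usc x (u x + 1) (by linarith)] with y hy1 hy2
      refine ENNReal.ofReal_le_ofReal (mul_le_mul hy1.le (Real.exp_le_exp.2 (by linarith))
        (Real.exp_pos _).le (Real.exp_pos _).le))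
    (K := ENNReal.ofReal (Cot a) * K) (ENNReal.mul_ne_top ENNReal.ofReal_ne_top hKt)
    (fun k => hFb k)
  refine ⟨F0, hF0h, fun x hx => ?_, le_trans (le_of_eq ?_) hb⟩
  · have h1 := hlim x
    obtain ⟨m, hm⟩ := exists_nat_gt (ρ x)
    have h3 : (hyperfilter ℕ : Filter ℕ) ≤ atTop := by
      rw [← Nat.cofinite_eq_atTop]
      exact hyperfilter_le_cofinite
    have h2 : (fun j => F j x) =ᶠ[(hyperfilter ℕ : Filter ℕ)] fun _ => f x := by
      filter_upwards [h3 (eventually_ge_atTop m)] with j hj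
      exact hF0 j x (hm.trans_le (by exact_mod_cast hj)) hx
    exact (tendsto_nhds_unique (tendsto_const_nhds.congr' h2.symm) h1).symm
  · simp only [iSup_const, sub_zero]

/-- **Ohsawa–Takegoshi with a singular psh weight** `1/b` -/
theorem otb (hμ : IsLeb μ) (hρ : Sm ρ) (hcpt : ∀ t : ℝ, IsCompact {x | ρ x ≤ t})
    (hL : ∀ x w, nsq w ≤ Levi ρ x w) (hh : W792.Hol h) (hf : W792.Hol f)
    (hΨ : Sm Ψ) (hΦ : Sm Φ) (hs : ∀ x, ‖h x‖ ^ 2 ≤ Real.exp (Ψ x)) (ha : 0 < a) (ha1 : a ≤ 1)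
    (hΨ0 : ∀ x w, 0 ≤ Levi Ψ x w) (hΦΨ : ∀ x w, a * Levi Ψ x w ≤ Levi Φ x w)
    {b : M → ℝ} (hb : LPsh b) (hKt : K ≠ ∞)
    (htube : ∀ δ : ℝ, 0 < δ → TubeB μ h f Ψ Φ ρ (fun x => Real.log (b x + δ)) K) :
    ∃ F : M → ℂ, Hol F ∧ (∀ x, h x = 0 → F x = f x) ∧
      ∫⁻ x, ENNReal.ofReal (‖F x‖ ^ 2 * Real.exp (-(Φ x + Ψ x))) / ENNReal.ofReal (b x) ∂μ ≤
          ENNReal.ofReal (Cot a) * K := by
  have hδ : ∀ k : ℕ, (0 : ℝ) < 1 / ((k : ℝ) + 1) := fun k => by positivity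
  have hmono : ∀ x {k k' : ℕ}, k ≤ k' → (b x + 1 / ((k : ℝ) + 1))⁻¹ ≤
      (b x + 1 / ((k' : ℝ) + 1))⁻¹ := by
    intro x k k' hkk'
    have h1 := hb.nonneg x
    have h2 := hδ k'
    have h3 : 1 / ((k' : ℝ) + 1) ≤ 1 / ((k : ℝ) + 1) := by
      apply one_div_le_one_div_of_le (by positivity)
      have : (k : ℝ) ≤ k' := by exact_mod_cast hkk'
      linarith
    exact inv_anti₀ (by positivity) (by linarith)
  choose F hF hF0 hFb using fun k : ℕ =>
    ot_psh hμ hρ hcpt hL hh hf hΨ hΦ hs ha ha1 hΨ0 hΦΨ (hb.psh _ (hδ k)) hKt (htube _ (hδ k))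
  have hcont : Continuous (fun x => Real.exp (-(Φ x + Ψ x))) :=
    Real.continuous_exp.comp (hΦ.continuous.add hΨ.continuous).neg
  have hbm : ∀ k : ℕ, UpperSemicontinuous (fun x => Real.log (b x + 1 / ((k : ℝ) + 1))) :=
    fun k => (hb.psh _ (hδ k)).usc
  obtain ⟨F0, hF0h, hlim, hbd⟩ := limW (Ω := fun _ : ℕ => (univ : Set M)) (G := fun _ => (0 : ℂ)) hμ
    (fun _ => isOpen_univ) (fun _ _ _ => le_rfl) (fun C _ => ⟨0, subset_univ C⟩) continuous_const
    (fun k => HolOn.of_hol (hF k) univ)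
    (W := fun k x => ENNReal.ofReal (Real.exp (-(Φ x + Ψ x)) *
      Real.exp (-Real.log (b x + 1 / ((k : ℝ) + 1)))))
    (fun x k k' hkk' => by
      refine ENNReal.ofReal_le_ofReal (mul_le_mul_of_nonneg_left ?_ (Real.exp_pos _).le)
      rw [exp_neg_log (hb.nonneg x) (hδ k), exp_neg_log (hb.nonneg x) (hδ k')]
      exact hmono x hkk')
    (fun k => (hcont.measurable.mul
      (Real.measurable_exp.comp (hbm k).measurable.neg)).ennreal_ofReal)
    (fun x => by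
      have h2 : 0 < Real.exp (-(Φ x + Ψ x)) := Real.exp_pos _
      set u : M → ℝ := fun x => Real.log (b x + 1 / (((0 : ℕ) : ℝ) + 1)) with hu
      refine ⟨0, ENNReal.ofReal (Real.exp (-(Φ x + Ψ x)) / 2 * Real.exp (-(u x + 1))),
        ENNReal.ofReal_pos.2 (by positivity), ?_⟩
      filter_upwards [hcont.continuousAt.eventually (lt_mem_nhds (half_lt_self h2)),
        hbm 0 x (u x + 1) (by simp only [hu]; linarith)] with y hy1 hy2
      exact ENNReal.ofReal_le_ofReal (mul_le_mul hy1.le (Real.exp_le_exp.2 (neg_le_neg hy2.le))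
        (Real.exp_pos _).le (Real.exp_pos _).le))
    (K := ENNReal.ofReal (Cot a) * K) (ENNReal.mul_ne_top ENNReal.ofReal_ne_top hKt)
    (fun k => by
      rw [Measure.restrict_univ]
      simpa only [sub_zero] using hFb k)
  refine ⟨F0, hF0h, fun x hx => ?_, le_trans (le_of_eq ?_) hbd⟩
  · have h1 := hlim x
    have h2 : (fun j => F j x) = fun _ => f x := by
      funext j
      exact hF0 j x hx
    rw [h2] at h1
    exact (tendsto_nhds_unique tendsto_const_nhds h1).symm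
  refine lintegral_congr fun x => ?_
  have h1 : ∀ k : ℕ, ENNReal.ofReal (Real.exp (-(Φ x + Ψ x)) *
      Real.exp (-Real.log (b x + 1 / ((k : ℝ) + 1)))) =
      ENNReal.ofReal (Real.exp (-(Φ x + Ψ x))) *
        ENNReal.ofReal ((b x + 1 / ((k : ℝ) + 1))⁻¹) := by
    intro k
    rw [exp_neg_log (hb.nonneg x) (hδ k), ENNReal.ofReal_mul (Real.exp_pos _).le]
  simp only [h1]
  rw [← ENNReal.mul_iSup, iSup_inv_eq (hb.nonneg x), ENNReal.ofReal_mul (by positivity),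
    ENNReal.div_eq_inv_mul, sub_zero]
  ring

end Crest.Agent.R273.OTU_34
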