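import Crest.Agent.R273.R4z_73
import Crest.Agent.R273.YDx7_945

/-!
# R273 (S0416): **Part A**, unconditional (helper73)
-/

set_option autoImplicit false

namespace Crest.Agent.R273.PartAFin_73

/-- **Part A** -/
theorem partA : Crest.Agent.R273.PartA_61.PartA :=
  Crest.Agent.R273.AsmZ_73.partA Crest.Agent.R273.YDx7_945.f1 Crest.Agent.R273.R4x_73.r4Stmt

end Crest.Agent.R273.PartAFin_73
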