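import Crest.Agent.R273.RegC_844

/-!
# Row 273, leaf PSI (helper844), part A

Upper semicontinuous regularisation of suprema of families of psh functions, limits superior.
Main result: `exists_psh_near`.
-/

set_option autoImplicit false
set_option linter.unusedSectionVars false

open MeasureTheory Set Metric Filter Topology
open scoped ENNReal ContDiff

noncomputable section

namespace Crest.Agent.R273.Reg_844

open Crest.Agent.R275.FL606 Crest.Agent.R271.Ho51
open Crest.Agent.R271.W792 (lev)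

variable {n : ℕ} {M : Type*} [TopologicalSpace M] [RDom n M]

/-! ### usc regularisation -/

/-- locally bounded function -/
def LocB (S : M → ℝ) : Prop := ∀ x, ∃ K : ℝ, ∀ᶠ y in 𝓝 x, |S y| ≤ K

/-- upper semicontinuous regularisation -/
def ush (S : M → ℝ) (x : M) : ℝ := sInf {a : ℝ | ∀ᶠ y in 𝓝 x, S y ≤ a}

lemma LocB.nonempty {S : M → ℝ} (h : LocB S) (x : M) : {a : ℝ | ∀ᶠ y in 𝓝 x, S y ≤ a}.Nonempty := by
  obtain ⟨K, hK⟩ := h x
  exact ⟨K, hK.mono fun y hy => (le_abs_self _).trans hy⟩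

lemma bddBelow_ush (S : M → ℝ) (x : M) : BddBelow {a : ℝ | ∀ᶠ y in 𝓝 x, S y ≤ a} :=
  ⟨S x, fun a ha => Eventually.self_of_nhds (p := fun y => S y ≤ a) ha⟩

lemma LocB.le_ush {S : M → ℝ} (h : LocB S) (x : M) : S x ≤ ush S x :=
  le_csInf (h.nonempty x) fun a ha => Eventually.self_of_nhds (p := fun y => S y ≤ a) ha

lemma ush_le {S : M → ℝ} {x : M} {a : ℝ} (h : ∀ᶠ y in 𝓝 x, S y ≤ a) : ush S x ≤ a :=
  csInf_le (bddBelow_ush S x) h

lemma LocB.eventually_lt {S : M → ℝ} (h : LocB S) {x : M} {a : ℝ} (ha : ush S x < a) :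
    ∀ᶠ y in 𝓝 x, S y < a := by
  obtain ⟨b, hb, hba⟩ := exists_lt_of_csInf_lt (h.nonempty x) ha
  exact Eventually.mono hb fun y hy => lt_of_le_of_lt hy hba

lemma LocB.ush_usc {S : M → ℝ} (h : LocB S) : UpperSemicontinuous (ush S) := by
  intro x a ha
  obtain ⟨b, hb, hba⟩ := exists_between ha
  have h1 := h.eventually_lt hb
  filter_upwards [eventually_eventually_nhds.2 h1] with y hy
  exact lt_of_le_of_lt (ush_le (hy.mono fun z hz => hz.le)) hba

lemma ush_le_of_le {S g : M → ℝ} (hg : UpperSemicontinuous g) (h : ∀ x, S x ≤ g x) (x : M) :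
    ush S x ≤ g x := by
  apply le_of_forall_gt
  intro a ha
  obtain ⟨b, hb, hba⟩ := exists_between ha
  exact lt_of_le_of_lt (ush_le ((hg x b hb).mono fun y hy => (h y).trans hy.le)) hba

lemma ush_congr {S S' : M → ℝ} {x : M} (h : S =ᶠ[𝓝 x] S') : ush S x = ush S' x := by
  unfold ush
  congr 1
  ext a
  exact eventually_congr (h.mono fun y hy => by rw [hy])

lemma LocB.ush_locB {S : M → ℝ} (h : LocB S) : LocB (ush S) := by
  intro x
  obtain ⟨K, hK⟩ := h x
  refine ⟨K, ?_⟩
  filter_upwards [eventually_eventually_nhds.2 hK] with y hy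
  rw [abs_le]
  constructor
  · have h1 := (abs_le.1 (Eventually.self_of_nhds (p := fun y => |S y| ≤ K) hy)).1
    exact h1.trans (h.le_ush y)
  · exact ush_le (hy.mono fun z hz => (abs_le.1 hz).2)

lemma LocB.exists_bound {S : M → ℝ} (h : LocB S) {C : Set M} (hC : IsCompact C) :
    ∃ K : ℝ, ∀ x ∈ C, |S x| ≤ K := by
  refine hC.induction_on (p := fun s => ∃ K : ℝ, ∀ x ∈ s, |S x| ≤ K) ?_ ?_ ?_ ?_
  · exact ⟨1, by simp⟩
  · rintro s t hst ⟨r, h⟩
    exact ⟨r, fun x hx => h x (hst hx)⟩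
  · rintro s t ⟨r, h⟩ ⟨r', h'⟩
    refine ⟨max r r', fun x hx => ?_⟩
    rcases hx with hx | hx
    · exact (h x hx).trans (le_max_left _ _)
    · exact (h' x hx).trans (le_max_right _ _)
  · intro x _
    obtain ⟨K, hK⟩ := h x
    exact ⟨{y | |S y| ≤ K}, mem_nhdsWithin_of_mem_nhds hK, K, fun y hy => hy⟩

lemma PSH.locB {ψ : M → ℝ} (h : PSH ψ) : LocB ψ := by
  intro x
  obtain ⟨c, hc⟩ := h.bdd x
  have h1 : ∀ᶠ y in 𝓝 x, ψ y < ψ x + 1 := h.usc x _ (by linarith)
  refine ⟨max |c| |ψ x + 1|, ?_⟩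
  filter_upwards [hc, h1] with y hy1 hy2
  rw [abs_le]
  constructor
  · have := neg_abs_le c
    have := le_max_left |c| |ψ x + 1|
    linarith
  · have := le_abs_self (ψ x + 1)
    have := le_max_right |c| |ψ x + 1|
    linarith

/-! ### Fatou -/

/-- reverse Fatou lemma for uniformly bounded functions: if `∫ u_j ≥ c` for all `j` and
`limsup u_j ≤ U` pointwise, then `∫ U ≥ c` -/
lemma le_integral_of_limsup {u : ℕ → ℝ → ℝ} {U : ℝ → ℝ} {K c : ℝ}
    (hu : ∀ j, Measurable (u j)) (hU : Measurable U) (hK : ∀ j θ, |u j θ| ≤ K)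
    (hKU : ∀ θ, |U θ| ≤ K) (hlim : ∀ θ, ∀ a, U θ < a → ∀ᶠ j in atTop, u j θ < a)
    (hc : ∃ᶠ j in atTop, c ≤ ∫ θ, u j θ ∂circ) : c ≤ ∫ θ, U θ ∂circ := by
  have hint : ∀ {f : ℝ → ℝ}, Measurable f → (∀ θ, |f θ| ≤ K) → Integrable f circ := by
    intro f hf hfK
    exact Integrable.of_bound hf.aestronglyMeasurable K
      (Eventually.of_forall fun θ => by rw [Real.norm_eq_abs]; exact hfK θ)
  have hlin : ∀ {f : ℝ → ℝ}, Measurable f → (∀ θ, |f θ| ≤ K) →
      ∫⁻ θ, ENNReal.ofReal (K - f θ) ∂circ = ENNReal.ofReal (K - ∫ θ, f θ ∂circ) := by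
    intro f hf hfK
    have h1 : K - ∫ θ, f θ ∂circ = ∫ θ, (K - f θ) ∂circ := by
      rw [integral_sub (integrable_const _) (hint hf hfK)]
      simp
    have h0 : Integrable (fun θ => K - f θ) circ := (integrable_const _).sub (hint hf hfK)
    rw [h1, ofReal_integral_eq_lintegral_ofReal h0]
    exact Eventually.of_forall fun θ => by
      have := (abs_le.1 (hfK θ)).2
      simp only [Pi.zero_apply]
      linarith
  have h1 : ∫⁻ θ, ENNReal.ofReal (K - U θ) ∂circ ≤
      ∫⁻ θ, liminf (fun j => ENNReal.ofReal (K - u j θ)) atTop ∂circ := by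
    apply lintegral_mono
    intro θ
    apply le_of_forall_lt
    intro b hb
    obtain ⟨b', hb', hb''⟩ := exists_between hb
    have hbt : b' ≠ ⊤ := (hb''.trans_le le_top).ne
    have h2 : b'.toReal < K - U θ := by
      rwa [ENNReal.lt_ofReal_iff_toReal_lt hbt] at hb''
    refine hb'.trans_le ?_
    refine le_liminf_of_le (by isBoundedDefault) ?_
    filter_upwards [hlim θ (K - b'.toReal) (by linarith)] with j hj
    rw [ENNReal.le_ofReal_iff_toReal_le hbt]
    · linarith
    · have := (abs_le.1 (hK j θ)).2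
      linarith
  have h2 := lintegral_liminf_le (μ := circ) (u := atTop)
    (f := fun (j : ℕ) θ => ENNReal.ofReal (K - u j θ))
    (fun j => (measurable_const.sub (hu j)).ennreal_ofReal)
  have h3 : liminf (fun j => ∫⁻ θ, ENNReal.ofReal (K - u j θ) ∂circ) atTop ≤
      ENNReal.ofReal (K - c) := by
    apply liminf_le_of_frequently_le'
    refine hc.mono fun j hj => ?_
    rw [hlin (hu j) (hK j)]
    exact ENNReal.ofReal_le_ofReal (by linarith)
  have h4 := (h1.trans h2).trans h3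
  rw [hlin hU hKU] at h4
  have h5 : c ≤ K := by
    obtain ⟨j, hj⟩ := hc.exists
    refine hj.trans ?_
    calc ∫ θ, u j θ ∂circ ≤ ∫ θ, K ∂circ :=
          integral_mono (hint (hu j) (hK j)) (integrable_const _)
            fun θ => (abs_le.1 (hK j θ)).2
      _ = K := by simp
  have h6 := (ENNReal.ofReal_le_ofReal_iff (by linarith)).1 h4
  linarith

/-! ### functions below their means -/

/-- `g` lies below the circle means of every usc majorant -/
def SubM (g : M → ℝ) : Prop := ∀ U : M → ℝ, UpperSemicontinuous U → LocB U → (∀ x, g x ≤ U x) →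
  ∀ e : OpenPartialHomeomorph M (Fin n → ℂ), IsCh e → ∀ z v : Fin n → ℂ,
    (∀ w : ℂ, ‖w‖ ≤ 1 → z + w • v ∈ e.target) → g (e.symm z) ≤ av (U ∘ e.symm) z v

lemma exists_circ_bound {U : M → ℝ} (h2 : LocB U) {e : OpenPartialHomeomorph M (Fin n → ℂ)}
    {z v : Fin n → ℂ} (hd : ∀ w : ℂ, ‖w‖ ≤ 1 → z + w • v ∈ e.target) :
    ∃ K : ℝ, ∀ θ, |U (e.symm (z + ang θ • v))| ≤ K := by
  obtain ⟨K, hK⟩ := h2.exists_bound (isCompact_disc_chart hd)
  exact ⟨K, fun θ => hK _ (mem_disc_chart θ)⟩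

lemma PSH.subM {ψ : M → ℝ} (h : PSH ψ) : SubM ψ := by
  intro U hU1 hU2 hle e he z v hd
  refine (h.le_av he hd).trans ?_
  obtain ⟨K, hK⟩ := hU2.exists_bound (isCompact_disc_chart hd)
  exact integral_mono (h.integrable_circ hd) (integrable_circ_usc hU1 hd hK) fun θ => hle _

/-- means of usc functions are upper semicontinuous in the centre -/
lemma av_usc {U : M → ℝ} (hU1 : UpperSemicontinuous U) (hU2 : LocB U)
    {e : OpenPartialHomeomorph M (Fin n → ℂ)} {z v : Fin n → ℂ}
    (hd : ∀ w : ℂ, ‖w‖ ≤ 1 → z + w • v ∈ e.target) {c : ℝ} (hc : av (U ∘ e.symm) z v < c) :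
    ∀ᶠ y in 𝓝 z, (∀ w : ℂ, ‖w‖ ≤ 1 → y + w • v ∈ e.target) ∧ av (U ∘ e.symm) y v < c := by
  -- the discs stay in a compact set
  obtain ⟨δ, hδ, hsub⟩ : ∃ δ : ℝ, 0 < δ ∧ ∀ y, dist y z ≤ δ → ∀ w : ℂ, ‖w‖ ≤ 1 →
      y + w • v ∈ e.target := by
    have hC : IsCompact ((fun w : ℂ => z + w • v) '' closedBall 0 1) :=
      (isCompact_closedBall (0 : ℂ) 1).image (by fun_prop)
    have hCe : (fun w : ℂ => z + w • v) '' closedBall 0 1 ⊆ e.target := by
      rintro _ ⟨w, hw, rfl⟩
      rw [mem_closedBall, dist_zero_right] at hw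
      exact hd w hw
    obtain ⟨δ, hδ, h1⟩ := hC.exists_thickening_subset_open e.open_target hCe
    refine ⟨δ / 2, by positivity, fun y hy w hw => h1 ?_⟩
    rw [mem_thickening_iff]
    refine ⟨z + w • v, ⟨w, by rw [mem_closedBall, dist_zero_right]; exact hw, rfl⟩, ?_⟩
    rw [dist_add_right]
    linarith
  have hev1 : ∀ᶠ y in 𝓝 z, dist y z ≤ δ := by
    filter_upwards [ball_mem_nhds z hδ] with y hy using (mem_ball.1 hy).le
  have hcomp : IsCompact ((fun p : (Fin n → ℂ) × ℂ => e.symm (p.1 + p.2 • v)) ''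
      (closedBall z δ ×ˢ closedBall 0 1)) := by
    refine ((isCompact_closedBall z δ).prod (isCompact_closedBall (0 : ℂ) 1)).image_of_continuousOn
      ?_
    refine e.symm.continuousOn.comp (by fun_prop) ?_
    rintro ⟨y, w⟩ ⟨hy, hw⟩
    simp only [mem_closedBall, dist_zero_right] at hy hw
    exact hsub y hy w hw
  obtain ⟨K, hK⟩ := hU2.exists_bound hcomp
  have hKy : ∀ y, dist y z ≤ δ → ∀ θ, |U (e.symm (y + ang θ • v))| ≤ K := by
    intro y hy θ
    exact hK _ ⟨(y, ang θ), ⟨hy, by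
      simp only [mem_closedBall, dist_zero_right]; exact (norm_ang θ).le⟩, rfl⟩
  by_contra hcon
  have hfr : ∃ᶠ y in 𝓝 z, c ≤ av (U ∘ e.symm) y v := by
    intro h1
    apply hcon
    filter_upwards [h1, hev1] with y hy1 hy2
    exact ⟨hsub y hy2, not_le.1 hy1⟩
  obtain ⟨s, hs, hsc⟩ := exists_seq_forall_of_frequently (hfr.and_eventually hev1)
  have hUs : ∀ y, dist y z ≤ δ → Measurable fun θ : ℝ => U (e.symm (y + ang θ • v)) := by
    intro y hy
    exact (hU1.comp (continuous_circ_chart (hsub y hy))).measurable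
  have h1 := le_integral_of_limsup (c := c) (u := fun j θ => U (e.symm (s j + ang θ • v)))
    (U := fun θ => U (e.symm (z + ang θ • v))) (K := K)
    (fun j => hUs _ (hsc j).2) (hUs z (by simpa using hδ.le)) (fun j => hKy _ (hsc j).2)
    (hKy z (by simpa using hδ.le)) (fun θ a ha => by
      have h2 : ContinuousAt e.symm (z + ang θ • v) :=
        e.symm.continuousAt (by simpa using disc_ang hd θ)
      have h3 : Tendsto (fun j => e.symm (s j + ang θ • v)) atTop
          (𝓝 (e.symm (z + ang θ • v))) :=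
        h2.tendsto.comp (hs.add_const _)
      exact h3.eventually (hU1 _ a ha))
    (Frequently.of_forall fun j => (hsc j).1)
  have h2 : av (U ∘ e.symm) z v = ∫ θ, U (e.symm (z + ang θ • v)) ∂circ := rfl
  linarith

/-- frequently in the manifold ⇒ frequently in the chart -/
lemma frequently_chart {e : OpenPartialHomeomorph M (Fin n → ℂ)} {z : Fin n → ℂ}
    (hz : z ∈ e.target) {p : M → Prop} (h : ∃ᶠ y in 𝓝 (e.symm z), p y) :
    ∃ᶠ y in 𝓝 z, p (e.symm y) := by
  have h1 : map e.symm (𝓝 z) = 𝓝 (e.symm z) := e.symm.map_nhds_eq (by simpa using hz)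
  rw [← h1] at h
  exact frequently_map.1 h

/-- **usc regularisation is psh** -/
theorem SubM.psh_ush {S : M → ℝ} (h : SubM S) (hb : LocB S) : PSH (ush S) := by
  refine PSH.mk' hb.ush_usc (fun x => ?_) (fun e he z v hd => ?_)
  · obtain ⟨K, hK⟩ := hb.ush_locB x
    exact ⟨-K, hK.mono fun y hy => (abs_le.1 hy).1⟩
  · by_contra hcon
    rw [not_le] at hcon
    obtain ⟨c, hc1, hc2⟩ := exists_between hcon
    have hz : z ∈ e.target := by simpa using hd 0 (by simp)
    have hfr : ∃ᶠ y in 𝓝 (e.symm z), c ≤ S y := by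
      intro h1
      have h2 : ush S (e.symm z) ≤ c := ush_le (h1.mono fun y hy => (not_le.1 hy).le)
      linarith
    have hfr' := frequently_chart hz hfr
    obtain ⟨y, hy1, hy2, hy3⟩ :=
      (hfr'.and_eventually (av_usc hb.ush_usc hb.ush_locB hd hc1)).exists
    have h3 := h (ush S) hb.ush_usc hb.ush_locB (fun x => hb.le_ush x) e he y v hy2
    linarith

/-- families, with truncation -/
theorem psh_of_family {ι : Type*} {g : ι → ℝ → M → ℝ} (hg : ∀ i T, SubM (g i T)) {S : M → ℝ}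
    (hb : LocB S) (h1 : ∀ i T x, g i T x ≤ max (S x) (-T))
    (h2 : ∀ x, ∀ c < S x, ∀ T, ∃ i, c < g i T x) : PSH (ush S) := by
  -- the truncations
  have hST : ∀ T, SubM (fun x => max (S x) (-T)) := by
    intro T U hU1 hU2 hle e he z v hd
    have hU3 : ∀ x, -T ≤ U x := fun x => (le_max_right _ _).trans (hle x)
    obtain ⟨K, hK⟩ := hU2.exists_bound (isCompact_disc_chart hd)
    refine max_le ?_ ?_
    · apply le_of_forall_lt
      intro c hc
      obtain ⟨i, hi⟩ := h2 _ c hc T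
      exact hi.trans_le (hg i T U hU1 hU2 (fun x => (h1 i T x).trans (hle x)) e he z v hd)
    · calc -T = ∫ _θ, (-T) ∂circ := by simp
        _ ≤ av (U ∘ e.symm) z v :=
          integral_mono (integrable_const _) (integrable_circ_usc hU1 hd hK) fun θ => hU3 _
  refine PSH.mk' hb.ush_usc (fun x => ?_) (fun e he z v hd => ?_)
  · obtain ⟨K, hK⟩ := hb.ush_locB x
    exact ⟨-K, hK.mono fun y hy => (abs_le.1 hy).1⟩
  · -- a bound near the disc
    have hcomp := isCompact_disc_chart hd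
    obtain ⟨T, hT⟩ : ∃ T : ℝ, ∀ x ∈ (fun w : ℂ => e.symm (z + w • v)) '' closedBall 0 1,
        ∀ᶠ y in 𝓝 x, -T ≤ S y := by
      refine hcomp.induction_on (p := fun s => ∃ T : ℝ, ∀ x ∈ s, ∀ᶠ y in 𝓝 x, -T ≤ S y)
        ?_ ?_ ?_ ?_
      · exact ⟨0, by simp⟩
      · rintro s t hst ⟨T, h⟩
        exact ⟨T, fun x hx => h x (hst hx)⟩
      · rintro s t ⟨r, h⟩ ⟨r', h'⟩
        refine ⟨max r r', fun x hx => ?_⟩
        rcases hx with hx | hx
        · exact (h x hx).mono fun y hy => by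
            have := le_max_left r r'
            linarith
        · exact (h' x hx).mono fun y hy => by
            have := le_max_right r r'
            linarith
      · intro x _
        obtain ⟨K, hK⟩ := hb x
        refine ⟨{y | ∀ᶠ t in 𝓝 y, |S t| ≤ K},
          mem_nhdsWithin_of_mem_nhds (eventually_eventually_nhds.2 hK), K, fun y hy => ?_⟩
        exact Eventually.mono hy fun t ht => (abs_le.1 ht).1
    have heq : ∀ x ∈ (fun w : ℂ => e.symm (z + w • v)) '' closedBall 0 1,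
        ush S x = ush (fun x => max (S x) (-T)) x := by
      intro x hx
      apply ush_congr
      filter_upwards [hT x hx] with y hy
      rw [max_eq_left hy]
    have hbT : LocB (fun x => max (S x) (-T)) := by
      intro x
      obtain ⟨K, hK⟩ := hb x
      refine ⟨max K |T|, hK.mono fun y hy => ?_⟩
      rw [abs_le] at hy ⊢
      have h3 := le_abs_self T
      have h4 := neg_abs_le T
      have h5 := le_max_left K |T|
      have h6 := le_max_right K |T|
      constructor
      · exact le_max_of_le_left (by linarith)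
      · exact max_le (by linarith) (by linarith)
    have h3 := ((hST T).psh_ush hbT).le_av he hd
    have h0 : e.symm z ∈ (fun w : ℂ => e.symm (z + w • v)) '' closedBall 0 1 :=
      ⟨0, by simp, by simp⟩
    rw [heq _ h0]
    refine h3.trans (le_of_eq ?_)
    unfold av
    congr 1; funext θ
    exact (heq _ (mem_disc_chart θ)).symm

/-- limits superior -/
theorem subM_limsup {f : ℕ → M → ℝ} (hf : ∀ k, PSH (f k))
    (hb : ∀ x, ∃ K : ℝ, ∀ᶠ y in 𝓝 x, ∀ k, |f k y| ≤ K) {g : M → ℝ}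
    (hg1 : ∀ x, ∀ a, g x < a → ∀ᶠ k in atTop, f k x < a)
    (hg2 : ∀ x, ∀ a, a < g x → ∃ᶠ k in atTop, a ≤ f k x) : SubM g := by
  intro U hU1 hU2 hle e he z v hd
  obtain ⟨K, hK⟩ : ∃ K : ℝ, ∀ x ∈ (fun w : ℂ => e.symm (z + w • v)) '' closedBall 0 1,
      ∀ k, |f k x| ≤ K := by
    refine (isCompact_disc_chart hd).induction_on (p := fun s => ∃ K : ℝ, ∀ x ∈ s,
      ∀ k, |f k x| ≤ K) ?_ ?_ ?_ ?_
    · exact ⟨0, by simp⟩
    · rintro s t hst ⟨T, h⟩
      exact ⟨T, fun x hx => h x (hst hx)⟩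
    · rintro s t ⟨r, h⟩ ⟨r', h'⟩
      refine ⟨max r r', fun x hx k => ?_⟩
      rcases hx with hx | hx
      · exact (h x hx k).trans (le_max_left _ _)
      · exact (h' x hx k).trans (le_max_right _ _)
    · intro x _
      obtain ⟨K, hK⟩ := hb x
      exact ⟨{y | ∀ k, |f k y| ≤ K}, mem_nhdsWithin_of_mem_nhds hK, K, fun y hy => hy⟩
  obtain ⟨K', hK'⟩ := hU2.exists_bound (isCompact_disc_chart hd)
  apply le_of_forall_lt
  intro c hc
  obtain ⟨c', hc', hc''⟩ := exists_between hc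
  refine hc'.trans_le ?_
  have hm : ∀ {u : M → ℝ}, UpperSemicontinuous u →
      Measurable fun θ : ℝ => u (e.symm (z + ang θ • v)) :=
    fun hu => (hu.comp (continuous_circ_chart hd)).measurable
  exact le_integral_of_limsup (c := c') (u := fun k θ => f k (e.symm (z + ang θ • v)))
    (U := fun θ => U (e.symm (z + ang θ • v))) (K := max K K')
    (fun k => hm (hf k).usc) (hm hU1)
    (fun k θ => (hK _ (mem_disc_chart θ) k).trans (le_max_left _ _))
    (fun θ => (hK' _ (mem_disc_chart θ)).trans (le_max_right _ _))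
    (fun θ a ha => hg1 _ a (lt_of_le_of_lt (hle _) ha))
    ((hg2 _ c' hc'').mono fun k hk => hk.trans ((hf k).le_av he hd))

end Crest.Agent.R273.Reg_844
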