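import Crest.Agent.R273.R4y_73
import Crest.Agent.R273.AsmZ_73

/-!
# R273 (S0416), Part A, HALF 2, (R4), part 3 (helper73)

* `r4`     : (R4) for all choices `X : HD P L`
* `r4Stmt` : `AsmZ_73.R4Stmt`
-/

set_option autoImplicit false
set_option linter.unusedSectionVars false

open Set Filter Topology Complex MeasureTheory
open scoped ContDiff Matrix ENNReal NNReal

namespace Crest.Agent.R273.R4x_73

open Crest.Agent.R275.Geo Crest.Agent.R275.Core144 Crest.Agent.R275.GC293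
open Crest.Agent.R273.SteinA_794
open Crest.Agent.R273.SteinB_794 Crest.Agent.R273.SteinC_794 Crest.Agent.R273.SteinD_794
open Crest.Agent.R273.SteinE_794 Crest.Agent.R273.SteinF_794 Crest.Agent.R273.SteinG_794
open Crest.Agent.R273.Defs_333 (ProjD HM HM.wt HM.Semipos HM.Pos HasSec)
open Crest.Agent.R273.FS_333 (lb sec isHS_sec exists_sec_ne fs)
open Crest.Agent.R273.Mer769 Crest.Agent.R273.FF769
open Crest.Agent.R273.TD3_733 (D2)
open Crest.Agent.R273.SerE_945 (ggen_proj)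
open Crest.Agent.R273.Chow_313
open Crest.Agent.R273.YDx5_945
open Crest.Agent.R273.Cmp_145 (sq sq_pos cmp0)

noncomputable section

variable {n : ℕ} {M : Type} [TopologicalSpace M] {A : Atl n M} {P : ProjD A} {L : LB A}
  [ConnectedSpace M] (X : HD P L)

/-- bounded on the fibres of `y`, outside of a divisor -/
def Bd (Φ : nz X.D.t → ℝ) : Prop :=
  ∃ g1 : Reg (lb P ^ X.D.m) X.D.t X.D.ht, g1 ≠ 0 ∧ ∀ x : nz X.D.t, g1.1 x ≠ 0 →
    ∃ b : ℝ, ∀ x' : nz X.D.t, (∀ l, X.y l x'.1 = X.y l x.1) → g1.1 x' ≠ 0 → Φ x' ≤ b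

variable {X} [T2Space M]

theorem Bd.zero : Bd X fun _ => 0 := by
  have := reg_domain X.D.ht (Xne (X := X))
  exact ⟨1, one_ne_zero, fun x _ => ⟨0, fun _ _ _ => le_rfl⟩⟩

theorem Bd.add {Φ Ψ : nz X.D.t → ℝ} (h : Bd X Φ) (h' : Bd X Ψ) : Bd X fun x => Φ x + Ψ x := by
  obtain ⟨g, hg, h1⟩ := h
  obtain ⟨g', hg', h2⟩ := h'
  refine ⟨g * g', mul_ne hg hg', fun x hx => ?_⟩
  have e : ∀ x, (g * g').1 x = g.1 x * g'.1 x := fun x => rfl
  rw [e] at hx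
  obtain ⟨b, hb⟩ := h1 x (left_ne_zero_of_mul hx)
  obtain ⟨b', hb'⟩ := h2 x (right_ne_zero_of_mul hx)
  refine ⟨b + b', fun x' hy hx' => ?_⟩
  rw [e] at hx'
  exact add_le_add (hb x' hy (left_ne_zero_of_mul hx')) (hb' x' hy (right_ne_zero_of_mul hx'))

theorem Bd.sum {κ : Type*} (s : Finset κ) {Φ : κ → nz X.D.t → ℝ} (h : ∀ c ∈ s, Bd X (Φ c)) :
    Bd X fun x => ∑ c ∈ s, Φ c x := by
  classical
  induction s using Finset.induction_on with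
  | empty => simpa using Bd.zero
  | insert a s ha ih =>
    have h1 := (h a (Finset.mem_insert_self a s)).add
      (ih fun c hc => h c (Finset.mem_insert_of_mem hc))
    refine Eq.mp ?_ h1
    congr 1
    funext x
    rw [Finset.sum_insert ha]

theorem Bd.mono {Φ Ψ : nz X.D.t → ℝ} (h : Bd X Φ) {C : ℝ} (hC : 0 ≤ C)
    (hle : ∀ x, Ψ x ≤ C * Φ x) : Bd X Ψ := by
  obtain ⟨g, hg, h1⟩ := h
  refine ⟨g, hg, fun x hx => ?_⟩
  obtain ⟨b, hb⟩ := h1 x hx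
  exact ⟨C * b, fun x' hy hx' => (hle x').trans (mul_le_mul_of_nonneg_left (hb x' hy hx') hC)⟩

/-- the bound for one section `τ0` and one coordinate `F_k` -/
theorem exists_Phi [CompactSpace M] [Finite A.ι] (PA : Part A) (hD : D2 A) (k : Fin (P.N + 1))
    {N : ℕ} {τ0 : A.ι → M → ℂ} (hτ : IsHS ((L ^ X.j0)⁻¹ * lb P ^ N) univ τ0) :
    ∃ Φ : nz X.D.t → ℝ, (∀ x, 0 ≤ Φ x) ∧ Bd X Φ ∧ ∀ x : nz X.D.t,
      1 / (P.N + 1 : ℝ) ≤ rh P k x.1 → ∀ i, x.1 ∈ (A.e i).source →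
        ‖X.sb i x.1 * τ0 i x.1‖ ^ 2 ≤ Φ x * ‖X.sa i x.1 * sec P k i x.1 ^ N‖ ^ 2 := by
  classical
  have hδ : (0 : ℝ) < 1 / (P.N + 1 : ℝ) := by positivity
  by_cases hk : ∃ i, ∃ x ∈ (A.e i).source, sec P k i x ≠ 0
  swap
  · push Not at hk
    refine ⟨fun _ => 0, fun _ => le_rfl, Bd.zero, fun x hx i hi => ?_⟩
    exfalso
    rw [rh_eq k hi, hk i x.1 hi, norm_zero] at hx
    simp at hx
    linarith
  have hμ1 : IsHS (L ^ X.a * lb P ^ X.m * lb P ^ N) univ (X.sb * τ0) := by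
    have h := X.hsb.mul hτ
    have e : L ^ (X.a + X.j0) * lb P ^ X.m * ((L ^ X.j0)⁻¹ * lb P ^ N) =
        L ^ X.a * lb P ^ X.m * lb P ^ N := by
      calc L ^ (X.a + X.j0) * lb P ^ X.m * ((L ^ X.j0)⁻¹ * lb P ^ N)
          = (L ^ X.j0 * (L ^ X.j0)⁻¹) * (L ^ X.a * lb P ^ X.m * lb P ^ N) := by
            rw [pow_add]; ac_rfl
        _ = _ := by rw [mul_inv_cancel, one_mul]
    rwa [e] at h
  have hμ2 : IsHS (L ^ X.a * lb P ^ X.m * lb P ^ N) univ (X.sa * pw (sec P k) N) :=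
    X.hsa.mul (isHS_pw (isHS_sec P k) N)
  obtain ⟨x0, hx0⟩ := X.Une
  obtain ⟨i0, hi0⟩ := A.cover x0
  have hsane : X.sa ≠ 0 := by
    intro h
    exact X.sa_ne hi0 hx0 (congrFun (congrFun h i0) x0)
  obtain ⟨μ, hμ⟩ := exists_relS hμ1 hμ2
    (mul_ne0 X.hsa (isHS_pw (isHS_sec P k) N) hsane (pw_ne0 N hk))
  have hGd := mu_gd X PA hD hk hτ hμ
  refine ⟨fun x => if 1 / (P.N + 1 : ℝ) ≤ rh P k x.1 then ‖ev μ x.1‖ ^ 2 else 0, fun x => ?_, ?_,
    fun x hx i hi => ?_⟩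
  · show 0 ≤ (if 1 / (P.N + 1 : ℝ) ≤ rh P k x.1 then ‖ev μ x.1‖ ^ 2 else 0)
    split_ifs <;> positivity
  · obtain ⟨g, hg, D, h1⟩ := hGd
    refine ⟨g, hg, fun x hx => ?_⟩
    obtain ⟨C, hC⟩ := h1 x hx
    refine ⟨max 0 ((C / (1 / (P.N + 1 : ℝ)) ^ D) ^ 2), fun x' hy hx' => ?_⟩
    show (if 1 / (P.N + 1 : ℝ) ≤ rh P k x'.1 then ‖ev μ x'.1‖ ^ 2 else 0) ≤ _
    split_ifs with hr
    · refine le_trans ?_ (le_max_right _ _)
      have hk0 : x'.1 ∈ nz (sec P k) := by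
        obtain ⟨i, hi⟩ := A.cover x'.1
        rw [mem_nz (isHS_sec P k) hi]
        intro h0
        rw [rh_eq k hi, h0, norm_zero] at hr
        simp at hr
        linarith
      have h2 := (hC x' hk0 hx' hy).2
      have h3 : (1 / (P.N + 1 : ℝ)) ^ D ≤ rh P k x'.1 ^ D := pow_le_pow_left₀ hδ.le hr D
      have h4 : ‖ev μ x'.1‖ * (1 / (P.N + 1 : ℝ)) ^ D ≤ C :=
        (mul_le_mul_of_nonneg_left h3 (norm_nonneg _)).trans h2
      exact pow_le_pow_left₀ (norm_nonneg _) ((le_div_iff₀ (pow_pos hδ D)).2 h4) 2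
    · exact le_max_left _ _
  · simp only [if_pos hx]
    have hxU : x.1 ∈ X.D.S.U := by
      rw [X.hU]; exact x.2
    have hs0 : sec P k i x.1 ≠ 0 := by
      intro h0
      rw [rh_eq k hi, h0, norm_zero] at hx
      simp at hx
      linarith
    have hden : (X.sa * pw (sec P k) N) i x.1 = X.sa i x.1 * sec P k i x.1 ^ N := by
      show X.sa i x.1 * pw (sec P k) N i x.1 = _
      rw [pw_apply _ _ hi]
    have hden0 : X.sa i x.1 * sec P k i x.1 ^ N ≠ 0 :=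
      mul_ne_zero (X.sa_ne hi hxU) (pow_ne_zero _ hs0)
    have h1 := (hμ.reg_ev hμ1 hμ2 hi (by rw [hden]; exact hden0)).2
    rw [h1, hden]
    show _ ≤ ‖X.sb i x.1 * τ0 i x.1 / _‖ ^ 2 * _
    rw [← mul_pow, ← norm_mul, div_mul_cancel₀ _ hden0]

variable (X) in
/-- **(R4)** -/
theorem r4 [CompactSpace M] [Finite A.ι] (PA : Part A) (hD : D2 A) (hL : HM L) :
    Crest.Agent.R273.AsmZ_73.R4sq X hL := by
  classical
  obtain ⟨N, hN⟩ := ggen_proj PA hD P (L ^ X.j0)⁻¹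
  obtain ⟨r, τ, hτ, hτ0⟩ := hN N le_rfl
  obtain ⟨C, hC, hcmp⟩ := cmp0 (HM_333.pow hL X.j0) (a := τ)
    (b := fun k : Fin (P.N + 1) => pw (sec P k) N) hτ hτ0 (fun k => isHS_pw (isHS_sec P k) N)
    fun i x hx => by
      obtain ⟨k, hk⟩ := exists_sec_ne P hx
      exact ⟨k, by rw [pw_apply _ _ hx]; exact pow_ne_zero N hk⟩
  choose Φ hΦ0 hΦb hΦ using fun (l : Fin r) (k : Fin (P.N + 1)) =>
    exists_Phi (X := X) PA hD k (hτ l)
  have hB : Bd X fun x => ∑ l, ∑ k, Φ l k x :=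
    Bd.sum _ fun l _ => Bd.sum _ fun k _ => hΦb l k
  refine (hB.mono hC.le fun x => ?_ : Bd X fun x : nz X.D.t =>
    ‖X.lam x.1‖ ^ 2 * Real.exp (-(X.j0 * wtS hL X.σ x.1)))
  obtain ⟨k, hk, hks⟩ := exists_rh (P := P) x.1
  obtain ⟨i, hi⟩ := A.cover x.1
  have hxU : x.1 ∈ X.D.S.U := by
    rw [X.hU]; exact x.2
  have hs0 : sec P k i x.1 ≠ 0 := (mem_nz (isHS_sec P k) hi).1 hks
  have hsa0 := X.sa_ne hi hxU
  rw [Crest.Agent.R273.Cmp2_145.lam_chart' hL X.hσ X.σ0 X.j0 (X.lam x.1) hxU hi]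
  set c : ℂ := X.lam x.1 * X.σ i x.1 ^ X.j0 with hc
  have hsb : X.sb i x.1 = c * X.sa i x.1 := X.rel hi hxU
  obtain ⟨h1, -⟩ := hcmp i x.1 hi
  rw [HM_333.pow_w] at h1
  have hw : 0 ≤ hL.w i x.1 ^ X.j0 := pow_nonneg (hL.pos i _ hi).le _
  have h2 : ‖sec P k i x.1 ^ N‖ ^ 2 ≤ sq (fun k : Fin (P.N + 1) => pw (sec P k) N) i x.1 := by
    have h3 := Finset.single_le_sum (f := fun k : Fin (P.N + 1) => ‖pw (sec P k) N i x.1‖ ^ 2)
      (fun _ _ => sq_nonneg _) (Finset.mem_univ k)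
    simp only [pw_apply _ _ hi] at h3
    refine h3.trans (le_of_eq ?_)
    unfold Crest.Agent.R273.Cmp_145.sq
    exact Finset.sum_congr rfl fun k _ => by simp only [pw_apply _ _ hi]
  have hpos : 0 < ‖X.sa i x.1 * sec P k i x.1 ^ N‖ ^ 2 := by
    have := norm_pos_iff.2 (mul_ne_zero hsa0 (pow_ne_zero N hs0))
    positivity
  refine le_of_mul_le_mul_right ?_ hpos
  calc ‖c‖ ^ 2 * hL.w i x.1 ^ X.j0 * ‖X.sa i x.1 * sec P k i x.1 ^ N‖ ^ 2
      = ‖c * X.sa i x.1‖ ^ 2 * (hL.w i x.1 ^ X.j0 * ‖sec P k i x.1 ^ N‖ ^ 2) := by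
        rw [norm_mul c, norm_mul (X.sa i x.1), mul_pow, mul_pow]; ring
    _ ≤ ‖c * X.sa i x.1‖ ^ 2 * (C * sq τ i x.1) := by
        refine mul_le_mul_of_nonneg_left ?_ (sq_nonneg _)
        exact (mul_le_mul_of_nonneg_left h2 hw).trans h1
    _ = C * ∑ l, ‖X.sb i x.1 * τ l i x.1‖ ^ 2 := by
        rw [hsb]
        unfold Crest.Agent.R273.Cmp_145.sq
        rw [Finset.mul_sum, Finset.mul_sum, Finset.mul_sum]
        refine Finset.sum_congr rfl fun l _ => ?_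
        rw [norm_mul (c * X.sa i x.1), mul_pow]
        ring
    _ ≤ C * ∑ l, Φ l k x * ‖X.sa i x.1 * sec P k i x.1 ^ N‖ ^ 2 := by
        refine mul_le_mul_of_nonneg_left (Finset.sum_le_sum fun l _ => ?_) hC.le
        exact hΦ l k x hk i hi
    _ ≤ C * (∑ l, ∑ k, Φ l k x) * ‖X.sa i x.1 * sec P k i x.1 ^ N‖ ^ 2 := by
        rw [mul_assoc, Finset.sum_mul]
        refine mul_le_mul_of_nonneg_left (Finset.sum_le_sum fun l _ => ?_) hC.le
        refine mul_le_mul_of_nonneg_right ?_ hpos.le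
        exact Finset.single_le_sum (f := fun k => Φ l k x) (fun k _ => hΦ0 l k x)
          (Finset.mem_univ k)

end

/-- (R4) -/
theorem r4Stmt : Crest.Agent.R273.AsmZ_73.R4Stmt :=
  fun _ _ _ _ _ _ _ _ _ PA hD _ _ hL X => r4 X PA hD hL

end Crest.Agent.R273.R4x_73
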