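import Mathlib
import Crest.Agent.R275.FLh_606

/-!
# Row 273, leaf REG (helper844), part A: flat statements

Regularisation by convolution of functions with the sub-mean value property on complex discs:
`regF κ ε f z = ∫ κ v * f (z + ε v)`.
-/

set_option autoImplicit false
set_option linter.unusedSectionVars false

open MeasureTheory Set Metric Filter Topology
open scoped ENNReal ContDiff

noncomputable section

namespace Crest.Agent.R273.Reg_844

open Crest.Agent.R275.FL606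

/-- smooth rotation invariant kernel for the sup norm -/
theorem exists_ker_pi (n : ℕ) : ∃ κ : (Fin n → ℂ) → ℝ, Ker volume κ ∧ ContDiff ℝ ∞ κ := by
  set k0 : (Fin n → ℂ) → ℝ := fun v => Real.smoothTransition (1 - ∑ j, ‖v j‖ ^ 2) with hk0
  have hs0 : ContDiff ℝ ∞ k0 := by
    have h1 : ContDiff ℝ ∞ (fun v : Fin n → ℂ => 1 - ∑ j, ‖v j‖ ^ 2) := by
      refine contDiff_const.sub (ContDiff.sum fun j _ => ?_)
      exact (contDiff_norm_sq ℂ).comp (contDiff_apply ℝ ℂ j)
    exact Real.smoothTransition.contDiff.comp h1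
  have hsupp0 : ∀ v, 1 ≤ ‖v‖ → k0 v = 0 := by
    intro v hv
    apply Real.smoothTransition.zero_of_nonpos
    have h1 : ‖v‖ ^ 2 ≤ ∑ j, ‖v j‖ ^ 2 := by
      have h2 : ‖v‖ ≤ Real.sqrt (∑ j, ‖v j‖ ^ 2) := by
        rw [pi_norm_le_iff_of_nonneg (Real.sqrt_nonneg _)]
        intro j
        apply Real.le_sqrt_of_sq_le
        exact Finset.single_le_sum (f := fun j => ‖v j‖ ^ 2) (fun i _ => sq_nonneg _)
          (Finset.mem_univ j)
      calc ‖v‖ ^ 2 ≤ (Real.sqrt (∑ j, ‖v j‖ ^ 2)) ^ 2 := by gcongr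
        _ = ∑ j, ‖v j‖ ^ 2 := Real.sq_sqrt (Finset.sum_nonneg fun i _ => sq_nonneg _)
    nlinarith
  have hcs0 : HasCompactSupport k0 := by
    refine HasCompactSupport.of_support_subset_isCompact
      (isCompact_closedBall (0:Fin n → ℂ) 1) ?_
    intro v hv
    rw [mem_closedBall, dist_zero_right]
    by_contra h
    exact hv (hsupp0 v (not_le.1 h).le)
  have hnn0 : ∀ v, 0 ≤ k0 v := fun v => Real.smoothTransition.nonneg _
  have hpos : 0 < ∫ v, k0 v := by
    refine hs0.continuous.integral_pos_of_hasCompactSupport_nonneg_nonzero hcs0 hnn0 (x := 0) ?_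
    have : 0 < k0 0 := Real.smoothTransition.pos_of_pos (by simp)
    exact this.ne'
  set c : ℝ := (∫ v, k0 v)⁻¹ with hc
  have hc0 : 0 < c := inv_pos.2 hpos
  refine ⟨fun v => c * k0 v, ⟨fun v => mul_nonneg hc0.le (hnn0 v),
    (contDiff_const.mul hs0).continuous, fun v hv => ?_, fun w v hw => ?_, ?_⟩,
    contDiff_const.mul hs0⟩
  · simp only [hsupp0 v hv, mul_zero]
  · simp only [hk0, Pi.smul_apply, smul_eq_mul, norm_mul, hw, one_mul]
  · rw [integral_const_mul, hc, inv_mul_cancel₀ hpos.ne']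

variable {E : Type*} [NormedAddCommGroup E] [NormedSpace ℂ E] [MeasurableSpace E] [BorelSpace E]
  [FiniteDimensional ℝ E]

variable (μ : Measure E) [μ.IsAddHaarMeasure] {κ : E → ℝ}

/-- regularisation -/
def regF (κ : E → ℝ) (ε : ℝ) (f : E → ℝ) (z : E) : ℝ := ∫ v, κ v * f (z + (ε : ℂ) • v) ∂μ

lemma regF_eq_conv (κ : E → ℝ) {ε : ℝ} (hε : 0 < ε) (f : E → ℝ) (z : E) :
    regF μ κ ε f z = conv μ κ (fun y => f ((ε : ℂ) • y)) ((ε : ℂ)⁻¹ • z) := by
  rw [conv_eq]
  unfold regF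
  congr 1; funext v
  have : (ε : ℂ) ≠ 0 := by exact_mod_cast hε.ne'
  rw [smul_add, smul_smul, mul_inv_cancel₀ this, one_smul]

lemma Ker.supp_lt {μ : Measure E} (hκ : Ker μ κ) {v : E} (hv : κ v ≠ 0) : ‖v‖ < 1 := by
  by_contra h
  exact hv (hκ.supp v (not_lt.1 h))

lemma Ker.mem_ball {μ : Measure E} (hκ : Ker μ κ) {v : E} (hv : κ v ≠ 0) {ε : ℝ} (hε : 0 < ε)
    (z : E) : z + (ε : ℂ) • v ∈ ball z ε := by
  rw [Metric.mem_ball, dist_eq_norm, add_sub_cancel_left, norm_smul, Complex.norm_real,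
    Real.norm_eq_abs, abs_of_pos hε]
  have := Ker.supp_lt hκ hv
  nlinarith

/-- the value only depends on `f` on the ball -/
lemma regF_congr (hκ : Ker μ κ) {ε : ℝ} (hε : 0 < ε) {f g : E → ℝ} {z : E}
    (h : EqOn f g (ball z ε)) : regF μ κ ε f z = regF μ κ ε g z := by
  unfold regF
  congr 1; funext v
  by_cases hv : κ v = 0
  · simp [hv]
  · rw [h (Ker.mem_ball hκ hv hε z)]

lemma smul_image_ball {ε : ℝ} (hε : 0 < ε) {B : Set E} {z : E} (hz : ball z ε ⊆ B) :
    ball ((ε : ℂ)⁻¹ • z) 1 ⊆ {y | (ε : ℂ) • y ∈ B} := by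
  intro y hy
  apply hz
  rw [Metric.mem_ball, dist_eq_norm] at hy ⊢
  have h0 : (ε : ℂ) ≠ 0 := by exact_mod_cast hε.ne'
  have h1 : (ε : ℂ) • y - z = (ε : ℂ) • (y - (ε : ℂ)⁻¹ • z) := by
    rw [smul_sub, smul_smul, mul_inv_cancel₀ h0, one_smul]
  rw [h1, norm_smul, Complex.norm_real, Real.norm_eq_abs, abs_of_pos hε]
  nlinarith

lemma SM_scale {ε : ℝ} {f : E → ℝ} {B : Set E} (h : SM 0 f B) :
    SM 0 (fun y => f ((ε : ℂ) • y)) {y | (ε : ℂ) • y ∈ B} := by
  intro z v hd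
  have h1 := h ((ε : ℂ) • z) ((ε : ℂ) • v) (fun w hw => by
    have := hd w hw
    rw [mem_ofPred_eq, smul_add, smul_comm] at this
    exact this)
  simp only [zero_mul, add_zero] at h1 ⊢
  refine h1.trans (le_of_eq ?_)
  congr 1; funext w
  rw [smul_add, smul_comm]

/-- (F1) -/
lemma le_regF (hκ : Ker μ κ) {f : E → ℝ} {B : Set E} {K : ℝ} (hf : Measurable f)
    (hK : ∀ z ∈ B, |f z| ≤ K) (h : SM 0 f B) {ε : ℝ} (hε : 0 < ε) {z : E} (hz : ball z ε ⊆ B) :
    f z ≤ regF μ κ ε f z := by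
  have h0 : (ε : ℂ) ≠ 0 := by exact_mod_cast hε.ne'
  have h1 := SM.ker μ hκ (u := fun y => f ((ε : ℂ) • y)) (B := {y | (ε : ℂ) • y ∈ B})
    (hf.comp (measurable_const_smul (ε : ℂ))) (fun y hy => hK _ hy) le_rfl (SM_scale h)
    (smul_image_ball hε hz)
  rw [add_zero, ← regF_eq_conv μ κ hε, smul_smul, mul_inv_cancel₀ h0, one_smul] at h1
  exact h1

/-- sub-mean value property of the regularisation -/
lemma regF_le_av (hκ : Ker μ κ) {f : E → ℝ} {B : Set E} {K : ℝ} (hf : Measurable f)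
    (hK : ∀ z ∈ B, |f z| ≤ K) (h : SM 0 f B) {ε : ℝ} (hε : 0 < ε) {z v : E}
    (hd : ∀ w : ℂ, ‖w‖ ≤ 1 → ball (z + w • v) ε ⊆ B) :
    regF μ κ ε f z ≤ av (regF μ κ ε f) z v := by
  have h0 : (ε : ℂ) ≠ 0 := by exact_mod_cast hε.ne'
  have h1 := SM.conv_le μ hκ (u := fun y => f ((ε : ℂ) • y)) (B := {y | (ε : ℂ) • y ∈ B})
    (hf.comp (measurable_const_smul (ε : ℂ))) (fun y hy => hK _ hy) (SM_scale h)
    (z := (ε : ℂ)⁻¹ • z) (v := (ε : ℂ)⁻¹ • v) (fun w hw => by
      have := smul_image_ball hε (hd w hw)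
      rwa [smul_add, smul_comm] at this)
  rw [zero_mul, add_zero, ← regF_eq_conv μ κ hε] at h1
  refine h1.trans (le_of_eq ?_)
  unfold av
  congr 1; funext θ
  rw [regF_eq_conv μ κ hε, smul_add, smul_comm]

lemma integrable_regF (hκ : Ker μ κ) {f : E → ℝ} {B : Set E} {K : ℝ} (hf : Measurable f)
    (hK : ∀ z ∈ B, |f z| ≤ K) {ε : ℝ} (hε : 0 < ε) {z : E} (hz : ball z ε ⊆ B) :
    Integrable (fun v => κ v * f (z + (ε : ℂ) • v)) μ := by
  have hm : Measurable (fun v => κ v * f (z + (ε : ℂ) • v)) :=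
    hκ.cont.measurable.mul (hf.comp ((measurable_const_add z).comp (measurable_const_smul _)))
  refine Integrable.mono' ((hκ.integrable μ).mul_const K) hm.aestronglyMeasurable ?_
  refine Eventually.of_forall fun v => ?_
  rw [Real.norm_eq_abs, abs_mul, abs_of_nonneg (hκ.nonneg v)]
  by_cases h : κ v = 0
  · simp [h]
  · exact mul_le_mul_of_nonneg_left (hK _ (hz (Ker.mem_ball hκ h hε z))) (hκ.nonneg v)

/-- upper bound -/
lemma regF_le (hκ : Ker μ κ) {f : E → ℝ} {B : Set E} {K : ℝ} (hf : Measurable f)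
    (hK : ∀ z ∈ B, |f z| ≤ K) {ε : ℝ} (hε : 0 < ε) {z : E} (hz : ball z ε ⊆ B) {c : ℝ}
    (hc : ∀ y ∈ ball z ε, f y ≤ c) : regF μ κ ε f z ≤ c := by
  calc regF μ κ ε f z ≤ ∫ v, κ v * c ∂μ := by
        refine integral_mono (integrable_regF μ hκ hf hK hε hz)
          ((hκ.integrable μ).mul_const c) fun v => ?_
        show κ v * f (z + (ε : ℂ) • v) ≤ κ v * c
        by_cases h : κ v = 0
        · simp [h]
        · exact mul_le_mul_of_nonneg_left (hc _ (Ker.mem_ball hκ h hε z)) (hκ.nonneg v)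
    _ = c := by rw [integral_mul_const, hκ.int, one_mul]

lemma ker_symm {μ : Measure E} (hκ : Ker μ κ) (v w : E) : κ (v - w) = κ (w - v) := by
  have := hκ.rot (-1) (v - w) (by simp)
  rw [neg_smul, one_smul, neg_sub] at this
  exact this.symm

/-- (F2), global integrable function -/
lemma contDiff_conv_int (hκ : Ker μ κ) (hs : ContDiff ℝ ∞ κ) {ψ : E → ℝ}
    (hψ : LocallyIntegrable ψ μ) : ContDiff ℝ ∞ (conv μ κ ψ) := by
  have h1 := (hκ.hasCompactSupport μ).contDiff_convolution_right (μ := μ)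
    (ContinuousLinearMap.mul ℝ ℝ) (f := ψ) hψ (n := (⊤ : ℕ∞)) hs
  have h2 : conv μ κ ψ = (fun z => MeasureTheory.convolution ψ κ (ContinuousLinearMap.mul ℝ ℝ) μ z)
      := by
    funext z
    unfold conv MeasureTheory.convolution
    refine integral_congr_ae (Eventually.of_forall fun x => ?_)
    simp only [ContinuousLinearMap.mul_apply']
    rw [ker_symm hκ x z, mul_comm]
  rw [h2]
  exact h1

/-- (F2) -/
lemma contDiffAt_regF (hκ : Ker μ κ) (hs : ContDiff ℝ ∞ κ) {f : E → ℝ} {K : ℝ}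
    (hf : Measurable f) {ε δ : ℝ} (hε : 0 < ε) (hδ : 0 < δ) {z : E}
    (hK : ∀ y ∈ ball z (ε + δ), |f y| ≤ K) : ContDiffAt ℝ ∞ (regF μ κ ε f) z := by
  have h0 : (ε : ℂ) ≠ 0 := by exact_mod_cast hε.ne'
  -- cut off
  set g : E → ℝ := (ball z (ε + δ)).indicator f with hg
  have hgm : Measurable g := hf.indicator measurableSet_ball
  have hgK : ∀ y, |g y| ≤ max K 0 := by
    intro y
    by_cases hy : y ∈ ball z (ε + δ)
    · simp only [hg, indicator_of_mem hy]; exact (hK y hy).trans (le_max_left _ _)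
    · simp only [hg, indicator_of_notMem hy, abs_zero]; exact le_max_right _ _
  have hgl : LocallyIntegrable (fun y => g ((ε : ℂ) • y)) μ := by
    rw [locallyIntegrable_iff]
    intro C hC
    refine Measure.integrableOn_of_bounded (M := max K 0) hC.measure_lt_top.ne
      (hgm.comp (measurable_const_smul (ε : ℂ))).aestronglyMeasurable ?_
    exact Eventually.of_forall fun y => by rw [Real.norm_eq_abs]; exact hgK _
  have h1 := contDiff_conv_int μ hκ hs hgl
  have h2 : ContDiff ℝ ∞ (fun y : E => conv μ κ (fun y => g ((ε : ℂ) • y)) ((ε : ℂ)⁻¹ • y)) := by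
    have : ContDiff ℝ ∞ (fun y : E => (ε : ℂ)⁻¹ • y) := contDiff_const_smul _
    exact h1.comp this
  refine h2.contDiffAt.congr_of_eventuallyEq ?_
  filter_upwards [ball_mem_nhds z hδ] with y hy
  rw [← regF_eq_conv μ κ hε g]
  apply regF_congr μ hκ hε
  intro x hx
  have : x ∈ ball z (ε + δ) := by
    rw [Metric.mem_ball] at *
    calc dist x z ≤ dist x y + dist y z := dist_triangle _ _ _
      _ < ε + δ := by linarith
  simp only [hg, indicator_of_mem this]

/-- the second derivatives of the restriction to a complex line, local version -/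
lemma snd_line_at {f : E → ℝ} {z v : E} {w : ℂ} (hf : ContDiffAt ℝ 2 f (z + w • v)) (a b : ℂ) :
    fderiv ℝ (fderiv ℝ (fun w : ℂ => f (z + w • v))) w a b =
      fderiv ℝ (fderiv ℝ f) (z + w • v) (a • v) (b • v) := by
  set ℓ : ℂ →L[ℝ] E := (ContinuousLinearMap.toSpanSingleton ℂ v).restrictScalars ℝ with hℓ
  have hℓa : ∀ w, ℓ w = w • v := fun w => by simp [hℓ, ContinuousLinearMap.toSpanSingleton_apply]
  have hev : ∀ᶠ y in 𝓝 (z + w • v), ContDiffAt ℝ 2 f y := hf.eventually (by simp)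
  have hd2 : DifferentiableAt ℝ (fderiv ℝ f) (z + w • v) :=
    (hf.fderiv_right (m := 1) (by norm_num)).differentiableAt (by norm_num)
  have haff : ∀ w : ℂ, HasFDerivAt (fun w : ℂ => z + w • v) ℓ w := by
    intro w
    have h := (ℓ.hasFDerivAt (x := w)).const_add z
    refine h.congr_of_eventuallyEq (Eventually.of_forall fun w => ?_)
    simp [hℓa]
  have hcont : ContinuousAt (fun w : ℂ => z + w • v) w := (haff w).continuousAt
  have h1 : (fderiv ℝ (fun w : ℂ => f (z + w • v))) =ᶠ[𝓝 w]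
      fun w => (fderiv ℝ f (z + w • v)).comp ℓ := by
    filter_upwards [hcont.eventually hev] with w hw
    exact ((hw.differentiableAt (by norm_num)).hasFDerivAt.comp w (haff w)).fderiv
  rw [h1.fderiv_eq]
  have h2 : HasFDerivAt (fun w : ℂ => (fderiv ℝ f (z + w • v)))
      ((fderiv ℝ (fderiv ℝ f) (z + w • v)).comp ℓ) w := hd2.hasFDerivAt.comp w (haff w)
  have h3 : HasFDerivAt (fun w : ℂ => (fderiv ℝ f (z + w • v)).comp ℓ)
      ((ContinuousLinearMap.compL ℝ ℂ E ℝ).flip ℓ |>.comp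
        ((fderiv ℝ (fderiv ℝ f) (z + w • v)).comp ℓ)) w :=
    ((ContinuousLinearMap.compL ℝ ℂ E ℝ).flip ℓ).hasFDerivAt.comp w h2
  rw [h3.fderiv]
  simp [hℓa]

/-- (F3) sub-mean value property on small discs ⇒ the Levi form is nonnegative -/
lemma lap_nonneg {f : E → ℝ} {z v : E} (hf : ContDiffAt ℝ 2 f z)
    (hav : ∀ᶠ r : ℝ in 𝓝[>] 0, f z ≤ av f z (r • v)) :
    0 ≤ fderiv ℝ (fderiv ℝ f) z v v + fderiv ℝ (fderiv ℝ f) z (Complex.I • v) (Complex.I • v) := by
  set Λ : E → ℝ := fun z =>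
    fderiv ℝ (fderiv ℝ f) z v v + fderiv ℝ (fderiv ℝ f) z (Complex.I • v) (Complex.I • v) with hΛ
  have hΛc : ContinuousAt Λ z := by
    have h1 : ContinuousAt (fderiv ℝ (fderiv ℝ f)) z := by
      have h2 : ContDiffAt ℝ 1 (fderiv ℝ f) z := hf.fderiv_right (m := 1) (by norm_num)
      exact (h2.fderiv_right (m := 0) (by norm_num)).continuousAt
    exact ((h1.clm_apply continuousAt_const).clm_apply continuousAt_const).add
      ((h1.clm_apply continuousAt_const).clm_apply continuousAt_const)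
  by_contra hne
  have hneg : Λ z < 0 := not_le.1 hne
  have hnear : ∀ᶠ x in 𝓝 z, ContDiffAt ℝ 2 f x ∧ Λ x < Λ z / 2 :=
    (hf.eventually (by simp)).and (hΛc.eventually (gt_mem_nhds (by linarith)))
  obtain ⟨ρ, hρ, hρb⟩ := Metric.eventually_nhds_iff_ball.1 hnear
  have hr1 : ∀ᶠ r : ℝ in 𝓝[>] 0, r < ρ / (2 * (‖v‖ + 1)) :=
    nhdsWithin_le_nhds (gt_mem_nhds (by positivity))
  obtain ⟨r, hr, hrle, hr0⟩ := (hav.and (hr1.and self_mem_nhdsWithin)).exists
  have hr0 : 0 < r := hr0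
  have hin : ∀ w : ℂ, ‖w‖ ≤ 1 → z + w • (r • v) ∈ ball z ρ := by
    intro w hw
    rw [Metric.mem_ball, dist_eq_norm, add_sub_cancel_left, norm_smul, norm_smul,
      Real.norm_eq_abs, abs_of_pos hr0]
    have h1 : r * (2 * (‖v‖ + 1)) < ρ := (lt_div_iff₀ (by positivity)).1 hrle
    calc ‖w‖ * (r * ‖v‖) ≤ 1 * (r * ‖v‖) := by gcongr
      _ < ρ := by nlinarith [norm_nonneg v]
  set ψ : ℂ → ℝ := fun w => (fun x => - f x) (z + w • (r • v)) with hψ
  have hψs : ∀ w ∈ closedBall (0 : ℂ) 1, ContDiffAt ℝ 2 ψ w := by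
    intro w hw
    rw [mem_closedBall, dist_zero_right] at hw
    have h1 : ContDiff ℝ 2 (fun w : ℂ => z + w • (r • v)) := by fun_prop
    have h2 : ContDiffAt ℝ 2 (fun x => - f x) (z + w • (r • v)) := (hρb _ (hin w hw)).1.neg
    exact ContDiffAt.comp (g := fun x => - f x) w h2 h1.contDiffAt
  have hfd : ∀ x ∈ ball z ρ, fderiv ℝ (fderiv ℝ (fun x => - f x)) x =
      - fderiv ℝ (fderiv ℝ f) x := by
    intro x _
    have e1 : fderiv ℝ (fun x => - f x) = fun x => - fderiv ℝ f x := by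
      funext x
      exact fderiv_neg
    rw [e1]
    exact fderiv_neg
  have hL : ∀ w ∈ closedBall (0:ℂ) 1, -(4 * (r ^ 2 * Λ z / 8)) ≤
      fderiv ℝ (fderiv ℝ ψ) w 1 1 + fderiv ℝ (fderiv ℝ ψ) w Complex.I Complex.I := by
    intro w hw
    rw [mem_closedBall, dist_zero_right] at hw
    have h1 := (hρb _ (hin w hw)).2
    have h2 : ContDiffAt ℝ 2 (fun x => - f x) (z + w • (r • v)) := (hρb _ (hin w hw)).1.neg
    rw [hψ, snd_line_at h2, snd_line_at h2, hfd _ (hin w hw)]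
    have e1 : (1:ℂ) • (r • v) = r • v := one_smul _ _
    have e2 : Complex.I • (r • v) = r • (Complex.I • v) := smul_comm _ _ _
    rw [e1, e2]
    simp only [_root_.neg_apply, map_smul, smul_eq_mul, _root_.smul_apply]
    have e3 : (r * (r * -(((fderiv ℝ (fderiv ℝ f) (z + w • r • v)) v) v))) +
        (r * (r * -(((fderiv ℝ (fderiv ℝ f) (z + w • r • v)) (Complex.I • v)) (Complex.I • v))))
        = - (r ^ 2 * Λ (z + w • r • v)) := by
      simp only [hΛ]; ring
    rw [e3]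
    have hr2 : 0 < r ^ 2 := by positivity
    nlinarith
  have hmain := Crest.Agent.R275.FL884.le_circleAverage_of_contDiffAt hψs hL
  rw [av_eq_circleAverage] at hr
  have e4 : Real.circleAverage ψ 0 1 = - Real.circleAverage (fun w : ℂ => f (z + w • (r • v))) 0 1
      := by
    have h5 := Real.circleAverage_fun_smul (a := (-1 : ℝ))
      (f := fun w : ℂ => f (z + w • (r • v))) (c := 0) (R := 1)
    simp only [smul_eq_mul, neg_mul, one_mul] at h5
    simpa [hψ] using h5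
  have e5 : ψ 0 = - f z := by simp [hψ]
  rw [e4, e5] at hmain
  have hr2 : 0 < r ^ 2 := by positivity
  nlinarith

end Crest.Agent.R273.Reg_844
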