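import Crest.Agent.R273.RegB_844

/-!
# Row 273, leaf REG (helper844), part C: the regularisation theorem and closure properties of `PSH`
-/

set_option autoImplicit false
set_option linter.unusedSectionVars false

open MeasureTheory Set Metric Filter Topology
open scoped ENNReal ContDiff

noncomputable section

namespace Crest.Agent.R273.Reg_844

open Crest.Agent.R275.FL606 Crest.Agent.R271.Ho51
open Crest.Agent.R271.W792 (lev)

variable {n : ℕ} {M : Type*} [TopologicalSpace M] [RDom n M]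

/-- a Riemann domain is locally compact -/
lemma locallyCompact_rdom (n : ℕ) (M : Type*) [TopologicalSpace M] [RDom n M] :
    LocallyCompactSpace M := by
  refine ⟨fun x U hU => ?_⟩
  have h1 : IsOpen ((ch x).target ∩ (ch x).symm ⁻¹' (interior U)) :=
    (ch x).symm.continuousOn.isOpen_inter_preimage (ch x).open_target isOpen_interior
  have h2 : cp x ∈ (ch x).target ∩ (ch x).symm ⁻¹' (interior U) := by
    refine ⟨(isCh_ch x).cp_mem (mem_ch x), ?_⟩
    rw [mem_preimage, symm_cp]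
    exact mem_interior_iff_mem_nhds.2 hU
  obtain ⟨r, hr, hb⟩ := Metric.isOpen_iff.1 h1 _ h2
  have hcl : closedBall (cp x) (r / 2) ⊆ (ch x).target ∩ (ch x).symm ⁻¹' (interior U) :=
    (closedBall_subset_ball (by linarith)).trans hb
  refine ⟨(ch x).symm '' closedBall (cp x) (r / 2), ?_, ?_,
    (isCompact_closedBall _ _).image_of_continuousOn
      ((ch x).symm.continuousOn.mono (hcl.trans inter_subset_left))⟩
  · have h3 : (ch x).source ∩ cp ⁻¹' ball (cp x) (r / 2) ∈ 𝓝 x :=
      Filter.inter_mem ((ch x).open_source.mem_nhds (mem_ch x))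
        (cp_cont.continuousAt.preimage_mem_nhds (ball_mem_nhds _ (by positivity)))
    refine Filter.mem_of_superset h3 ?_
    rintro y ⟨hy1, hy2⟩
    exact ⟨cp y, ball_subset_closedBall hy2, (isCh_ch x).symm_cp hy1⟩
  · rintro _ ⟨z, hz, rfl⟩
    exact interior_subset (hcl hz).2

lemma lev_add_const (φ : M → ℝ) (c : ℝ) (x : M) (w : Fin n → ℂ) :
    lev (fun y => φ y + c) x w = lev φ x w := by
  have h : D (fun y => φ y + c) = D φ := by
    funext y
    exact fderiv_add_const c
  unfold lev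
  rw [h]

/-- **Regularisation theorem.** -/
theorem exists_reg [T2Space M] {ψ : M → ℝ} (h : PSH ψ) {C : Set M} (hC : IsCompact C) :
    ∃ (U : Set M) (φ : ℕ → M → ℝ), IsOpen U ∧ C ⊆ U ∧
      (∀ k, ∀ x ∈ U, ContDiffAt ℝ (⊤ : ℕ∞) (φ k ∘ (ch x).symm) (cp x)) ∧
      (∀ k, ∀ x ∈ U, ∀ w, 0 ≤ lev (φ k) x w) ∧
      (∀ x ∈ U, Antitone fun k => φ k x) ∧
      (∀ k, ∀ x ∈ U, ψ x ≤ φ k x) ∧
      (∀ x ∈ U, Tendsto (fun k => φ k x) atTop (𝓝 (ψ x))) := by
  have := locallyCompact_rdom n M
  obtain ⟨C', hC', hCC'⟩ := exists_compact_superset hC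
  obtain ⟨r, hr, hadm⟩ := exists_adm hC'
  obtain ⟨κ, hκ, hs⟩ := exists_ker_pi n
  -- one step
  have step : ∀ (k : ℕ) (ε : {ε : ℝ // 0 < ε ∧ ε < r}), ∃ ε' : {ε : ℝ // 0 < ε ∧ ε < r},
      (ε' : ℝ) ≤ ε / 2 ∧ ∀ x ∈ C', reg κ ε' ψ x < reg κ ε ψ x + (1 / 2 : ℝ) ^ k := by
    rintro k ⟨ε, hε, hεr⟩
    obtain ⟨ε₀, hε₀, h0⟩ := h.reg_lt hκ hC' (g := fun x => reg κ ε ψ x + (1 / 2 : ℝ) ^ k)
      (fun x hx => by
        have h1 := (h.contDiffAt_reg hκ hs hε hεr (hadm x hx)).continuousAt
        have h2 : ContinuousAt (fun y => (reg κ ε ψ ∘ (ch x).symm) (cp y)) x :=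
          ContinuousAt.comp (g := reg κ ε ψ ∘ (ch x).symm) h1 cp_cont.continuousAt
        exact (h2.congr (eventually_eq_comp (isCh_ch x) (mem_ch x) _).symm).add
          continuousAt_const)
      (fun x hx => by
        have h1 := h.le_reg hκ hε hεr (hadm x hx)
        have h2 : (0 : ℝ) < (1 / 2 : ℝ) ^ k := by positivity
        linarith)
    refine ⟨⟨min ε₀ (ε / 2), lt_min hε₀ (by positivity),
      (min_le_right _ _).trans_lt (by linarith)⟩, min_le_right _ _, fun x hx => ?_⟩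
    exact h0 _ (lt_min hε₀ (by positivity)) (min_le_left _ _) x hx
  choose nxt hnxt1 hnxt2 using step
  let e : ℕ → {ε : ℝ // 0 < ε ∧ ε < r} := fun k =>
    Nat.rec ⟨r / 2, by positivity, by linarith⟩ (fun k ε => nxt k ε) k
  have he : ∀ k, e (k + 1) = nxt k (e k) := fun k => rfl
  have hsmall : ∀ k : ℕ, (e k).1 ≤ r * (1 / 2 : ℝ) ^ k := by
    intro k
    induction k with
    | zero => rw [pow_zero, mul_one]; exact (e 0).2.2.le
    | succ k ih =>
      rw [he, pow_succ]
      have := hnxt1 k (e k)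
      linarith
  have htend : Tendsto (fun k : ℕ => ((e k).1 : ℝ)) atTop (𝓝 0) := by
    have h1 : Tendsto (fun k : ℕ => r * (1 / 2 : ℝ) ^ k) atTop (𝓝 (r * 0)) :=
      (tendsto_pow_atTop_nhds_zero_of_lt_one (by norm_num) (by norm_num)).const_mul r
    rw [mul_zero] at h1
    exact squeeze_zero (fun k => (e k).2.1.le) hsmall h1
  refine ⟨interior C', fun k x => reg κ (e k).1 ψ x + 2 * (1 / 2 : ℝ) ^ k, isOpen_interior, hCC',
    ?_, ?_, ?_, ?_, ?_⟩
  · intro k x hx
    have h1 := h.contDiffAt_reg hκ hs (e k).2.1 (e k).2.2 (hadm x (interior_subset hx))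
    exact h1.add contDiffAt_const
  · intro k x hx w
    rw [lev_add_const]
    exact h.lev_reg_nonneg hκ hs (e k).2.1 (e k).2.2 (hadm x (interior_subset hx)) w
  · intro x hx
    refine antitone_nat_of_succ_le fun k => ?_
    have h1 := hnxt2 k (e k) x (interior_subset hx)
    rw [← he] at h1
    simp only [pow_succ]
    linarith
  · intro k x hx
    have h1 := h.le_reg hκ (e k).2.1 (e k).2.2 (hadm x (interior_subset hx))
    have h2 : (0 : ℝ) < (1 / 2 : ℝ) ^ k := by positivity
    linarith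
  · intro x hx
    have hreg : Tendsto (fun k => reg κ (e k).1 ψ x) atTop (𝓝 (ψ x)) := by
      rw [tendsto_order]
      constructor
      · intro a ha
        exact Eventually.of_forall fun k =>
          ha.trans_le (h.le_reg hκ (e k).2.1 (e k).2.2 (hadm x (interior_subset hx)))
      · intro a ha
        obtain ⟨ε₀, hε₀, h0⟩ := h.reg_lt hκ (isCompact_singleton (x := x)) (g := fun _ => a)
          (fun _ _ => continuousAt_const) (fun y hy => by rw [mem_singleton_iff.1 hy]; exact ha)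
        filter_upwards [htend.eventually (gt_mem_nhds hε₀)] with k hk
        exact h0 _ (e k).2.1 hk.le x rfl
    have h2 : Tendsto (fun k : ℕ => 2 * (1 / 2 : ℝ) ^ k) atTop (𝓝 (2 * 0)) :=
      (tendsto_pow_atTop_nhds_zero_of_lt_one (by norm_num) (by norm_num)).const_mul 2
    simpa using hreg.add h2

/-! ### circles in charts -/

lemma continuous_circ_chart {e : OpenPartialHomeomorph M (Fin n → ℂ)} {z v : Fin n → ℂ}
    (hd : ∀ w : ℂ, ‖w‖ ≤ 1 → z + w • v ∈ e.target) :
    Continuous (fun θ : ℝ => e.symm (z + ang θ • v)) := by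
  rw [continuous_iff_continuousAt]
  intro θ
  have h1 : Continuous (fun θ : ℝ => z + ang θ • v) := by
    have := continuous_ang
    fun_prop
  have h2 : ContinuousAt e.symm (z + ang θ • v) :=
    e.symm.continuousAt (by simpa using disc_ang hd θ)
  exact ContinuousAt.comp (g := e.symm) h2 h1.continuousAt

lemma isCompact_disc_chart {e : OpenPartialHomeomorph M (Fin n → ℂ)} {z v : Fin n → ℂ}
    (hd : ∀ w : ℂ, ‖w‖ ≤ 1 → z + w • v ∈ e.target) :
    IsCompact ((fun w : ℂ => e.symm (z + w • v)) '' closedBall 0 1) := by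
  refine (isCompact_closedBall (0 : ℂ) 1).image_of_continuousOn ?_
  refine e.symm.continuousOn.comp (by fun_prop) ?_
  intro w hw
  rw [mem_closedBall, dist_zero_right] at hw
  exact hd w hw

lemma mem_disc_chart {e : OpenPartialHomeomorph M (Fin n → ℂ)} {z v : Fin n → ℂ} (θ : ℝ) :
    e.symm (z + ang θ • v) ∈ (fun w : ℂ => e.symm (z + w • v)) '' closedBall 0 1 :=
  ⟨ang θ, by rw [mem_closedBall, dist_zero_right]; exact (norm_ang θ).le, rfl⟩

/-- bounded upper semicontinuous functions are integrable on circles -/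
lemma integrable_circ_usc {ψ : M → ℝ} (h : UpperSemicontinuous ψ) {e : OpenPartialHomeomorph M (Fin n → ℂ)}
    {z v : Fin n → ℂ} (hd : ∀ w : ℂ, ‖w‖ ≤ 1 → z + w • v ∈ e.target) {K : ℝ}
    (hK : ∀ x ∈ (fun w : ℂ => e.symm (z + w • v)) '' closedBall 0 1, |ψ x| ≤ K) :
    Integrable (fun θ : ℝ => (ψ ∘ e.symm) (z + ang θ • v)) circ := by
  have h1 : UpperSemicontinuous (fun θ : ℝ => ψ (e.symm (z + ang θ • v))) :=
    h.comp (continuous_circ_chart hd)
  refine Integrable.of_bound h1.measurable.aestronglyMeasurable K ?_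
  exact Eventually.of_forall fun θ => by
    rw [Real.norm_eq_abs]; exact hK _ (mem_disc_chart θ)

lemma PSH.integrable_circ {ψ : M → ℝ} (h : PSH ψ) {e : OpenPartialHomeomorph M (Fin n → ℂ)}
    {z v : Fin n → ℂ} (hd : ∀ w : ℂ, ‖w‖ ≤ 1 → z + w • v ∈ e.target) :
    Integrable (fun θ : ℝ => (ψ ∘ e.symm) (z + ang θ • v)) circ := by
  obtain ⟨K, hK⟩ := h.exists_bound (isCompact_disc_chart hd)
  exact integrable_circ_usc h.usc hd hK

lemma PSH.le_av {ψ : M → ℝ} (h : PSH ψ) {e : OpenPartialHomeomorph M (Fin n → ℂ)} (he : IsCh e)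
    {z v : Fin n → ℂ} (hd : ∀ w : ℂ, ‖w‖ ≤ 1 → z + w • v ∈ e.target) :
    ψ (e.symm z) ≤ av (ψ ∘ e.symm) z v := by
  have := (h.sm e he).le hd
  simpa using this

/-- constructor -/
lemma PSH.mk' {ψ : M → ℝ} (h1 : UpperSemicontinuous ψ)
    (h2 : ∀ x, ∃ c : ℝ, ∀ᶠ y in 𝓝 x, c ≤ ψ y)
    (h3 : ∀ e : OpenPartialHomeomorph M (Fin n → ℂ), IsCh e → ∀ z v : Fin n → ℂ,
      (∀ w : ℂ, ‖w‖ ≤ 1 → z + w • v ∈ e.target) → ψ (e.symm z) ≤ av (ψ ∘ e.symm) z v) :
    PSH ψ :=
  ⟨h1, h2, fun e he => SM.of_le fun z v hd => by simpa using h3 e he z v hd⟩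

/-! ### closure properties -/

lemma PSH.const (c : ℝ) : PSH (fun _ : M => c) :=
  PSH.mk' continuous_const.upperSemicontinuous
    (fun _ => ⟨c, Eventually.of_forall fun _ => le_rfl⟩)
    (fun e he z v hd => by simp [av])

lemma PSH.add {ψ ψ' : M → ℝ} (h : PSH ψ) (h' : PSH ψ') : PSH (fun x => ψ x + ψ' x) := by
  refine PSH.mk' (h.usc.add h'.usc) (fun x => ?_) (fun e he z v hd => ?_)
  · obtain ⟨c, hc⟩ := h.bdd x
    obtain ⟨c', hc'⟩ := h'.bdd x
    exact ⟨c + c', (hc.and hc').mono fun y hy => add_le_add hy.1 hy.2⟩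
  · have h1 := h.le_av he hd
    have h2 := h'.le_av he hd
    have h3 : av ((fun x => ψ x + ψ' x) ∘ e.symm) z v = av (ψ ∘ e.symm) z v +
        av (ψ' ∘ e.symm) z v := by
      unfold av
      rw [← integral_add (h.integrable_circ hd) (h'.integrable_circ hd)]
      rfl
    rw [h3]
    exact add_le_add h1 h2

lemma PSH.const_mul {ψ : M → ℝ} (h : PSH ψ) {c : ℝ} (hc : 0 ≤ c) : PSH (fun x => c * ψ x) := by
  rcases hc.eq_or_lt with rfl | hc
  · simpa using PSH.const (n := n) (M := M) 0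
  refine PSH.mk' ?_ (fun x => ?_) (fun e he z v hd => ?_)
  · intro x y hy
    have h1 : ψ x < y / c := by rwa [lt_div_iff₀ hc, mul_comm]
    filter_upwards [h.usc x _ h1] with t ht
    rwa [lt_div_iff₀ hc, mul_comm] at ht
  · obtain ⟨a, ha⟩ := h.bdd x
    exact ⟨c * a, ha.mono fun y hy => mul_le_mul_of_nonneg_left hy hc.le⟩
  · have h3 : av ((fun x => c * ψ x) ∘ e.symm) z v = c * av (ψ ∘ e.symm) z v := by
      unfold av
      rw [← integral_const_mul]
      rfl
    rw [h3]
    exact mul_le_mul_of_nonneg_left (h.le_av he hd) hc.le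

lemma PSH.sup {ψ ψ' : M → ℝ} (h : PSH ψ) (h' : PSH ψ') : PSH (fun x => max (ψ x) (ψ' x)) := by
  have husc : UpperSemicontinuous (fun x => max (ψ x) (ψ' x)) := by
    intro x y hy
    filter_upwards [h.usc x y ((le_max_left _ _).trans_lt hy),
      h'.usc x y ((le_max_right _ _).trans_lt hy)] with t h1 h2
    exact max_lt h1 h2
  have hb : ∀ {e : OpenPartialHomeomorph M (Fin n → ℂ)} {z v : Fin n → ℂ}
      (_hd : ∀ w : ℂ, ‖w‖ ≤ 1 → z + w • v ∈ e.target),
      Integrable (fun θ : ℝ => ((fun x => max (ψ x) (ψ' x)) ∘ e.symm) (z + ang θ • v)) circ := by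
    intro e z v hd
    exact (h.integrable_circ hd).sup (h'.integrable_circ hd)
  refine PSH.mk' husc (fun x => ?_) (fun e he z v hd => ?_)
  · obtain ⟨c, hc⟩ := h.bdd x
    exact ⟨c, hc.mono fun y hy => hy.trans (le_max_left _ _)⟩
  · refine max_le ((h.le_av he hd).trans ?_) ((h'.le_av he hd).trans ?_)
    · exact integral_mono (h.integrable_circ hd) (hb hd) fun θ => le_max_left _ _
    · exact integral_mono (h'.integrable_circ hd) (hb hd) fun θ => le_max_right _ _

/-- smooth functions with nonnegative Levi form -/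
lemma PSH.of_smooth {φ : M → ℝ} (hs : Sm φ) (hl : ∀ x w, 0 ≤ lev φ x w) : PSH φ := by
  refine PSH.mk' hs.continuous.upperSemicontinuous (fun x => ⟨φ x - 1, ?_⟩)
    (fun e he z v hd => ?_)
  · exact (hs.continuous.continuousAt.eventually (lt_mem_nhds (by linarith : φ x - 1 < φ x))).mono
      fun y hy => le_of_lt hy
  · rw [av_eq_circleAverage]
    have hC : ∀ w : ℂ, ‖w‖ ≤ 1 → ContDiffAt ℝ 2 (φ ∘ e.symm) (z + w • v) := fun w hw =>
      (hs.contDiffAt' he (hd w hw)).of_le (by norm_cast)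
    have h1 := Crest.Agent.R275.FL884.le_circleAverage_of_contDiffAt
      (ψ := fun w : ℂ => (φ ∘ e.symm) (z + w • v)) (c := 0) (fun w hw => by
        rw [mem_closedBall, dist_zero_right] at hw
        have h1 : ContDiff ℝ 2 (fun w : ℂ => z + w • v) := by fun_prop
        exact ContDiffAt.comp (g := φ ∘ e.symm) w (hC w hw) h1.contDiffAt)
      (fun w hw => by
        rw [mem_closedBall, dist_zero_right] at hw
        rw [snd_line_at (hC w hw), snd_line_at (hC w hw), one_smul, mul_zero, neg_zero]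
        have hx : e.symm (z + w • v) ∈ e.source := e.map_target (hd w hw)
        have hcp : cp (e.symm (z + w • v)) = z + w • v := he.cp_symm (hd w hw)
        have h2 := hl (e.symm (z + w • v)) v
        rw [lev_eq_chart he hx (by rw [hcp]; exact hC w hw), hcp] at h2
        linarith)
    simpa using h1

end Crest.Agent.R273.Reg_844
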