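import Crest.Agent.R271.T7b2_88
import Crest.Agent.R271.H7a_51

/-!
# Row 273, twisted engine: from test forms to compactly supported `L²` forms
(helper34; adapted from `R271/T7b2_88`)
-/

set_option autoImplicit false
set_option linter.unusedSectionVars false

noncomputable section

open Set Filter Topology MeasureTheory ComplexConjugate
open scoped ENNReal

namespace Crest.Agent.R273.TwP_34

open Crest.Agent.R271.Ho51 Crest.Agent.R271.H88

variable {n : ℕ} {M : Type*} [TopologicalSpace M] [RDom n M] [MeasurableSpace M] [BorelSpace M]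
  {μ : Measure M} [T2Space M] {Phi chi psi : M → ℝ} {al : M → (Fin n → ℂ)} {K0 : ℝ}

/-- the estimate for compactly supported `L²` forms, from the estimate for test forms -/
theorem pairC_of_test (hμ : IsLeb μ) (hPhi : Sm Phi) (hchi : Sm chi)
    (hpsi : Sm psi) (hal : Continuous al)
    (htest : ∀ f : M → (Fin n → ℂ), Sm f → HasCompactSupport f →
      ‖∫ x, (∑ j, al x j * conj (f x j)) * (Real.exp (-(Phi x + chi x - psi x)) : ℂ) ∂μ‖ ^ 2 ≤
      K0 * (2 * ∫ x, ‖(Lop n (D f x)).1 - ∑ j, f x j *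
          dz j (fun y => ((Phi y + chi y - psi y : ℝ) : ℂ)) x‖ ^ 2 *
            Real.exp (-(Phi x + chi x)) ∂μ +
        (1 / 2) * ∑ j, ∑ k, ∫ x, ‖(Lop n (D f x)).2 j k‖ ^ 2 *
            Real.exp (-(Phi x + chi x)) ∂μ)) :
    PairC μ Phi chi psi al K0 := by
  intro v d s K hv hd hs hK hvK hdK hsK hw
  have hloc := hμ.locallyFinite
  -- a relatively compact neighbourhood of `K`
  obtain ⟨U, K', hU, hKU, hUK', hK'⟩ : ∃ U K' : Set M, IsOpen U ∧ K ⊆ U ∧ U ⊆ K' ∧
      IsCompact K' := by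
    obtain ⟨m, c, g, hg, hsum⟩ := exists_pou (M := M) hK
    refine ⟨{x | 0 < ∑ i, g i x}, ⋃ i, tsupport (g i), ?_, ?_, ?_, ?_⟩
    · exact isOpen_lt continuous_const (Sm.sum fun i _ => (hg i).1).continuous
    · intro x hx
      have := hsum.self_of_nhdsSet x hx
      simp [this]
    · intro x hx
      by_contra hcon
      have h0 : ∑ i, g i x = 0 := Finset.sum_eq_zero fun i _ => by
        by_contra hne
        exact hcon (mem_iUnion.2 ⟨i, subset_tsupport _ hne⟩)
      rw [mem_ofPred_eq, h0] at hx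
      exact lt_irrefl _ hx
    · exact isCompact_iUnion fun i => (hg i).2.1
  have hwm : MemLp (fun x => (d x, s x)) 2 μ := by
    refine MemLp.of_le_mul (g := fun x => ‖d x‖ + ‖s x‖) (c := 1) (hd.norm.add hs.norm)
      (hd.1.prodMk hs.1) (Eventually.of_forall fun x => ?_)
    rw [one_mul, Real.norm_of_nonneg (by positivity), Prod.norm_def]
    exact max_le (le_add_of_nonneg_right (norm_nonneg _)) (le_add_of_nonneg_left (norm_nonneg _))
  have hKK' : K ⊆ K' := hKU.trans hUK'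
  have hε : ∀ k : ℕ, (0 : ℝ≥0∞) < ((k : ℝ≥0∞) + 1)⁻¹ := fun k => by
    rw [ENNReal.inv_pos]; simp
  choose f hfs hfc hfU hf1 hf2 using fun k : ℕ => density_compact hμ (Lop n) v
    (fun x => (d x, s x)) hv hwm K hK hvK (fun x hx => by rw [hdK x hx, hsK x hx]; rfl) hw U hU hKU
    ((k : ℝ≥0∞) + 1)⁻¹ (hε k)
  have hfz : ∀ k, ∀ x ∉ K', f k x = 0 := fun k x hx =>
    image_eq_zero_of_notMem_tsupport fun hc => hx (hUK' (hfU k hc))
  have hDz : ∀ k, ∀ x ∉ K', D (f k) x = 0 := fun k x hx =>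
    image_eq_zero_of_notMem_tsupport fun hc => hx (hUK' (hfU k (tsupport_D _ hc)))
  have hvz : ∀ x ∉ K', v x = 0 := fun x hx => hvK x fun hc => hx (hKK' hc)
  have hdz : ∀ x ∉ K', d x = 0 := fun x hx => hdK x fun hc => hx (hKK' hc)
  have hsz : ∀ x ∉ K', s x = 0 := fun x hx => hsK x fun hc => hx (hKK' hc)
  have hinv : Tendsto (fun k : ℕ => ((k : ℝ≥0∞) + 1)⁻¹) atTop (𝓝 0) := by
    have h1 := ENNReal.tendsto_inv_nat_nhds_zero
    have h3 := (tendsto_add_atTop_iff_nat (f := fun k : ℕ => ((k : ℝ≥0∞))⁻¹) 1).2 h1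
    simpa using h3
  -- the two basic convergences
  have t1 : Tendsto (fun k => eLpNorm (f k - v) 2 μ) atTop (𝓝 0) :=
    tendsto_of_tendsto_of_tendsto_of_le_of_le tendsto_const_nhds hinv (fun _ => zero_le) hf1
  have t2 : Tendsto (fun k => eLpNorm (fun x => Lop n (D (f k) x) - (d x, s x)) 2 μ) atTop
      (𝓝 0) :=
    tendsto_of_tendsto_of_tendsto_of_le_of_le tendsto_const_nhds hinv (fun _ => zero_le) hf2
  have mfv : ∀ k, AEStronglyMeasurable (f k - v) μ := fun k =>
    (hfs k).continuous.aestronglyMeasurable.sub hv.1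
  have mDf : ∀ k, AEStronglyMeasurable (fun x => Lop n (D (f k) x)) μ := fun k =>
    ((Lop n).continuous.comp (hfs k).D.continuous).aestronglyMeasurable
  have mw : ∀ k, AEStronglyMeasurable (fun x => Lop n (D (f k) x) - (d x, s x)) μ := fun k =>
    (mDf k).sub hwm.1
  -- weights
  set E1 : M → ℝ := fun x => Real.exp (-(Phi x + chi x - psi x)) with hE1
  set E2 : M → ℝ := fun x => Real.exp (-(Phi x + chi x) / 2) with hE2
  set th : Fin n → M → ℂ := fun j x => dz j (fun y => ((Phi y + chi y - psi y : ℝ) : ℂ)) x with hth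
  have hE1c : Continuous E1 := Real.continuous_exp.comp
    ((hPhi.continuous.add hchi.continuous).sub hpsi.continuous).neg
  have hE2c : Continuous E2 := Real.continuous_exp.comp
    ((hPhi.continuous.add hchi.continuous).neg.div_const 2)
  have hE2sq : ∀ x, Real.exp (-(Phi x + chi x)) = E2 x ^ 2 := fun x => by
    rw [hE2, sq, ← Real.exp_add]; congr 1; ring
  have hthc : ∀ j, Continuous (th j) := fun j =>
    ((Sm.ofReal ((hPhi.add hchi).sub hpsi)).dz j).continuous
  obtain ⟨C2, hC2⟩ := hK'.exists_bound_of_continuousOn hE2c.continuousOn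
  obtain ⟨C3, hC3⟩ := hK'.exists_bound_of_continuousOn
    (f := fun x => ∑ j, ‖th j x‖) (continuous_finsetSum _ fun j _ => (hthc j).norm).continuousOn
  obtain ⟨C1, hC1⟩ := hK'.exists_bound_of_continuousOn
    (f := fun x => (∑ j, ‖al x j‖) * E1 x)
    ((continuous_finsetSum _ fun j _ => ((continuous_apply j).comp hal).norm).mul hE1c).continuousOn
  have hC2' : ∀ x ∈ K', E2 x ≤ |C2| := fun x hx =>
    (le_abs_self _).trans ((hC2 x hx).trans (le_abs_self _))
  have hC3' : ∀ x ∈ K', ∑ j, ‖th j x‖ ≤ |C3| := fun x hx =>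
    (le_abs_self _).trans ((hC3 x hx).trans (le_abs_self _))
  have hC1' : ∀ x ∈ K', (∑ j, ‖al x j‖) * E1 x ≤ |C1| := fun x hx =>
    (le_abs_self _).trans ((hC1 x hx).trans (le_abs_self _))
  have hE2p : ∀ x, 0 ≤ E2 x := fun x => (Real.exp_pos _).le
  have hE1p : ∀ x, 0 ≤ E1 x := fun x => (Real.exp_pos _).le
  -- the pairing converges
  have hsumle : ∀ (x : M) (a b : Fin n → ℂ), ‖∑ j, a j * conj (b j)‖ ≤ (∑ j, ‖a j‖) * ‖b‖ := by
    intro x a b
    refine (norm_sum_le _ _).trans ?_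
    rw [Finset.sum_mul]
    refine Finset.sum_le_sum fun j _ => ?_
    rw [norm_mul, Complex.norm_conj]
    gcongr
    exact norm_le_pi_norm b j
  have hsumle' : ∀ (x : M) (a b : Fin n → ℂ), ‖∑ j, b j * a j‖ ≤ (∑ j, ‖a j‖) * ‖b‖ := by
    intro x a b
    refine (norm_sum_le _ _).trans ?_
    rw [Finset.sum_mul]
    refine Finset.sum_le_sum fun j _ => ?_
    rw [norm_mul, mul_comm]
    gcongr
    exact norm_le_pi_norm b j
  have mcomp : ∀ {u : M → (Fin n → ℂ)}, AEStronglyMeasurable u μ → ∀ j : Fin n,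
      AEStronglyMeasurable (fun x => u x j) μ := fun {u} hu j =>
    (continuous_apply j).comp_aestronglyMeasurable hu
  have mpair : ∀ {u : M → (Fin n → ℂ)}, AEStronglyMeasurable u μ →
      AEStronglyMeasurable (fun x => (∑ j, al x j * conj (u x j)) * (E1 x : ℂ)) μ := by
    intro u hu
    refine AEStronglyMeasurable.mul ?_
      (Complex.continuous_ofReal.comp hE1c).aestronglyMeasurable
    refine Finset.aestronglyMeasurable_fun_sum _ fun j _ => ?_
    exact (((continuous_apply j).comp hal).aestronglyMeasurable).mul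
      (Complex.continuous_conj.comp_aestronglyMeasurable (mcomp hu j))
  have hPb : ∀ (u u' : M → (Fin n → ℂ)), (∀ x ∉ K', u x = 0) → (∀ x ∉ K', u' x = 0) → ∀ x,
      ‖(∑ j, al x j * conj (u x j)) * (E1 x : ℂ) - (∑ j, al x j * conj (u' x j)) * (E1 x : ℂ)‖ ≤
        |C1| * ‖u x - u' x‖ := by
    intro u u' hu hu' x
    have e : (∑ j, al x j * conj (u x j)) * (E1 x : ℂ) -
        (∑ j, al x j * conj (u' x j)) * (E1 x : ℂ) =
        (∑ j, al x j * conj ((u x - u' x) j)) * (E1 x : ℂ) := by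
      rw [← sub_mul, ← Finset.sum_sub_distrib]
      congr 1
      refine Finset.sum_congr rfl fun j _ => ?_
      rw [Pi.sub_apply, map_sub]; ring
    rw [e, norm_mul, Complex.norm_real, Real.norm_of_nonneg (hE1p x)]
    by_cases hx : x ∈ K'
    · calc ‖∑ j, al x j * conj ((u x - u' x) j)‖ * E1 x
          ≤ ((∑ j, ‖al x j‖) * ‖u x - u' x‖) * E1 x :=
            mul_le_mul_of_nonneg_right (hsumle x (al x) (u x - u' x)) (hE1p x)
        _ = ((∑ j, ‖al x j‖) * E1 x) * ‖u x - u' x‖ := by ring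
        _ ≤ |C1| * ‖u x - u' x‖ := mul_le_mul_of_nonneg_right (hC1' x hx) (norm_nonneg _)
    · rw [hu x hx, hu' x hx]
      simp
  have hfin : IsFiniteMeasure (μ.restrict K') :=
    ⟨by rw [Measure.restrict_apply_univ]; exact hK'.measure_lt_top⟩
  have hu1 : ∀ {u : M → (Fin n → ℂ)}, MemLp u 2 μ → (∀ x ∉ K', u x = 0) → Integrable u μ := by
    intro u hu hu0
    have h1 : IntegrableOn u K' μ :=
      memLp_one_iff_integrable.1 ((hu.restrict K').mono_exponent (by norm_num))
    refine (integrableOn_iff_integrable_of_support_subset ?_).1 h1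
    intro x hx
    by_contra hc
    exact hx (hu0 x hc)
  have hPi : ∀ {u : M → (Fin n → ℂ)}, MemLp u 2 μ → (∀ x ∉ K', u x = 0) →
      Integrable (fun x => (∑ j, al x j * conj (u x j)) * (E1 x : ℂ)) μ := by
    intro u hu hu0
    refine ((hu1 hu hu0).norm.const_mul |C1|).mono' (mpair hu.1) (Eventually.of_forall fun x => ?_)
    have := hPb u 0 hu0 (fun _ _ => rfl) x
    simpa using this
  have hfm : ∀ k, MemLp (f k) 2 μ := fun k =>
    (hfs k).continuous.memLp_of_hasCompactSupport (hfc k)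
  have tP : Tendsto (fun k => ∫ x, (∑ j, al x j * conj (f k x j)) * (E1 x : ℂ) ∂μ) atTop
      (𝓝 (∫ x, (∑ j, al x j * conj (v x j)) * (E1 x : ℂ) ∂μ)) := by
    refine tendsto_integral_of_L1' _ (hPi hv hvz).aestronglyMeasurable
      (Eventually.of_forall fun k => hPi (hfm k) (hfz k)) ?_
    have hle : ∀ k, eLpNorm ((fun x => (∑ j, al x j * conj (f k x j)) * (E1 x : ℂ)) -
        fun x => (∑ j, al x j * conj (v x j)) * (E1 x : ℂ)) 1 μ ≤
        ENNReal.ofReal |C1| * (eLpNorm (f k - v) 2 μ * (μ K') ^ (1 / 2 : ℝ)) := by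
      intro k
      refine (eLpNorm_le_mul_eLpNorm_of_ae_le_mul (g := f k - v) (c := |C1|)
        (Eventually.of_forall fun x => hPb (f k) v (hfz k) hvz x) 1).trans ?_
      gcongr
      have hsup : Function.support (f k - v) ⊆ K' := by
        intro x hx
        by_contra hc
        apply hx
        rw [Pi.sub_apply, hfz k x hc, hvz x hc, sub_zero]
      rw [← eLpNorm_restrict_eq_of_support_subset hsup]
      refine (eLpNorm_le_eLpNorm_mul_rpow_measure_univ (p := 1) (q := 2) (by norm_num)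
        (mfv k).restrict).trans ?_
      rw [Measure.restrict_apply_univ]
      have e1 : (1 / ENNReal.toReal 1 - 1 / ENNReal.toReal 2 : ℝ) = 1 / 2 := by
        simp; norm_num
      rw [e1]
      gcongr
      exact Measure.restrict_le_self
    have hlim : Tendsto (fun k => ENNReal.ofReal |C1| *
        (eLpNorm (f k - v) 2 μ * (μ K') ^ (1 / 2 : ℝ))) atTop (𝓝 0) := by
      have h1 := ENNReal.Tendsto.mul_const (b := (μ K') ^ (1 / 2 : ℝ)) t1
        (Or.inr (ENNReal.rpow_ne_top_of_nonneg (by norm_num) hK'.measure_ne_top))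
      have h3 := ENNReal.Tendsto.const_mul (a := ENNReal.ofReal |C1|) h1
        (Or.inr ENNReal.ofReal_ne_top)
      simpa using h3
    exact tendsto_of_tendsto_of_tendsto_of_le_of_le tendsto_const_nhds hlim (fun _ => zero_le) hle
  -- the divergence term
  have hE2n : ∀ x, ‖((E2 x : ℝ) : ℂ)‖ = E2 x := fun x => by
    rw [Complex.norm_real, Real.norm_of_nonneg (hE2p x)]
  have hE2cc : Continuous fun x => ((E2 x : ℝ) : ℂ) := Complex.continuous_ofReal.comp hE2c
  have hAb : ∀ (w w' : M → ℂ × (Fin n → Fin n → ℂ)) (u u' : M → (Fin n → ℂ)),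
      (∀ x ∉ K', w x = 0) → (∀ x ∉ K', w' x = 0) → (∀ x ∉ K', u x = 0) →
      (∀ x ∉ K', u' x = 0) → ∀ x,
      ‖((E2 x : ℝ) : ℂ) * ((w x).1 - ∑ j, u x j * th j x) -
        ((E2 x : ℝ) : ℂ) * ((w' x).1 - ∑ j, u' x j * th j x)‖ ≤
        (|C2| * (1 + |C3|)) * (‖w x - w' x‖ + ‖u x - u' x‖) := by
    intro w w' u u' hw0 hw0' hu hu' x
    have e : ((E2 x : ℝ) : ℂ) * ((w x).1 - ∑ j, u x j * th j x) -
        ((E2 x : ℝ) : ℂ) * ((w' x).1 - ∑ j, u' x j * th j x) =
        ((E2 x : ℝ) : ℂ) * ((w x - w' x).1 - ∑ j, (u x - u' x) j * th j x) := by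
      have : ∑ j, (u x - u' x) j * th j x = ∑ j, u x j * th j x - ∑ j, u' x j * th j x := by
        rw [← Finset.sum_sub_distrib]
        exact Finset.sum_congr rfl fun j _ => by rw [Pi.sub_apply]; ring
      rw [this, Prod.fst_sub]; ring
    rw [e, norm_mul, hE2n]
    by_cases hx : x ∈ K'
    · have h1 : ‖(w x - w' x).1 - ∑ j, (u x - u' x) j * th j x‖ ≤
          ‖w x - w' x‖ + |C3| * ‖u x - u' x‖ := by
        refine (norm_sub_le _ _).trans (add_le_add (norm_fst_le _) ?_)
        refine (hsumle' x (fun j => th j x) (u x - u' x)).trans ?_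
        exact mul_le_mul_of_nonneg_right (hC3' x hx) (norm_nonneg _)
      calc E2 x * ‖(w x - w' x).1 - ∑ j, (u x - u' x) j * th j x‖
          ≤ |C2| * (‖w x - w' x‖ + |C3| * ‖u x - u' x‖) :=
            mul_le_mul (hC2' x hx) h1 (norm_nonneg _) (abs_nonneg _)
        _ ≤ |C2| * ((1 + |C3|) * (‖w x - w' x‖ + ‖u x - u' x‖)) := by
            refine mul_le_mul_of_nonneg_left ?_ (abs_nonneg _)
            have := abs_nonneg C3
            have h3 := norm_nonneg (w x - w' x)
            have h4 := norm_nonneg (u x - u' x)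
            nlinarith
        _ = _ := by ring
    · rw [hw0 x hx, hw0' x hx, hu x hx, hu' x hx]
      simp
  have hLz : ∀ k, ∀ x ∉ K', Lop n (D (f k) x) = 0 := fun k x hx => by
    rw [hDz k x hx, map_zero]
  have hdsz : ∀ x ∉ K', ((d x, s x) : ℂ × (Fin n → Fin n → ℂ)) = 0 := fun x hx => by
    rw [hdz x hx, hsz x hx]; rfl
  have mAv : AEStronglyMeasurable (fun x => ((E2 x : ℝ) : ℂ) * (d x - ∑ j, v x j * th j x)) μ := by
    refine hE2cc.aestronglyMeasurable.mul (hd.1.sub ?_)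
    exact Finset.aestronglyMeasurable_fun_sum _ fun j _ =>
      (mcomp hv.1 j).mul (hthc j).aestronglyMeasurable
  have hAv : MemLp (fun x => ((E2 x : ℝ) : ℂ) * (d x - ∑ j, v x j * th j x)) 2 μ := by
    refine MemLp.of_le_mul (g := fun x => ‖(d x, s x)‖ + ‖v x‖) (c := |C2| * (1 + |C3|))
      (hwm.norm.add hv.norm) mAv (Eventually.of_forall fun x => ?_)
    have := hAb (fun x => (d x, s x)) 0 v 0 hdsz (fun _ _ => rfl) hvz (fun _ _ => rfl) x
    simp only [Pi.zero_apply, sub_zero, Prod.fst_zero, zero_mul, Finset.sum_const_zero,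
      mul_zero] at this
    rwa [Real.norm_of_nonneg (by positivity)]
  have hAf : ∀ k, MemLp (fun x => ((E2 x : ℝ) : ℂ) * ((Lop n (D (f k) x)).1 -
      ∑ j, f k x j * th j x)) 2 μ := by
    intro k
    refine Continuous.memLp_of_hasCompactSupport ?_ ?_
    · refine hE2cc.mul ((continuous_fst.comp ((Lop n).continuous.comp (hfs k).D.continuous)).sub ?_)
      exact continuous_finsetSum _ fun j _ =>
        ((continuous_apply j).comp (hfs k).continuous).mul (hthc j)
    · refine HasCompactSupport.intro hK' fun x hx => ?_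
      rw [hLz k x hx, hfz k x hx]
      simp
  have tA := tendsto_sq hAf hAv (tendsto_of_bound mw mfv t2 t1 (C := |C2| * (1 + |C3|))
    (by positivity) fun k x => hAb (fun x => Lop n (D (f k) x)) (fun x => (d x, s x)) (f k) v
      (hLz k) hdsz (hfz k) hvz x)
  -- the curl terms
  have hBb : ∀ (w w' : M → ℂ × (Fin n → Fin n → ℂ)) (j i : Fin n),
      (∀ x ∉ K', w x = 0) → (∀ x ∉ K', w' x = 0) → ∀ x,
      ‖((E2 x : ℝ) : ℂ) * (w x).2 j i - ((E2 x : ℝ) : ℂ) * (w' x).2 j i‖ ≤
        |C2| * (‖w x - w' x‖ + ‖w x - w' x‖) := by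
    intro w w' j i hw0 hw0' x
    rw [← mul_sub, norm_mul, hE2n]
    by_cases hx : x ∈ K'
    · have h1 : ‖(w x).2 j i - (w' x).2 j i‖ ≤ ‖w x - w' x‖ :=
        ((norm_le_pi_norm ((w x - w' x).2 j) i).trans
          (norm_le_pi_norm ((w x - w' x).2) j)).trans (norm_snd_le _)
      calc E2 x * ‖(w x).2 j i - (w' x).2 j i‖ ≤ |C2| * ‖w x - w' x‖ :=
            mul_le_mul (hC2' x hx) h1 (norm_nonneg _) (abs_nonneg _)
        _ ≤ |C2| * (‖w x - w' x‖ + ‖w x - w' x‖) :=
            mul_le_mul_of_nonneg_left (le_add_of_nonneg_left (norm_nonneg _)) (abs_nonneg _)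
    · rw [hw0 x hx, hw0' x hx]
      simp
  have tB : ∀ j i : Fin n, Tendsto (fun k => ∫ x, ‖((E2 x : ℝ) : ℂ) *
      (Lop n (D (f k) x)).2 j i‖ ^ 2 ∂μ) atTop (𝓝 (∫ x, ‖((E2 x : ℝ) : ℂ) * s x j i‖ ^ 2 ∂μ)) := by
    intro j i
    have cji : Continuous fun q : Fin n → Fin n → ℂ => q j i :=
      (continuous_apply i).comp (continuous_apply j)
    have m1 : AEStronglyMeasurable (fun x => ((E2 x : ℝ) : ℂ) * s x j i) μ :=
      hE2cc.aestronglyMeasurable.mul (cji.comp_aestronglyMeasurable hs.1)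
    have m2 : MemLp (fun x => ((E2 x : ℝ) : ℂ) * s x j i) 2 μ := by
      refine MemLp.of_le_mul (g := fun x => ‖(d x, s x)‖ + ‖(d x, s x)‖) (c := |C2|)
        (hwm.norm.add hwm.norm) m1 (Eventually.of_forall fun x => ?_)
      have := hBb (fun x => (d x, s x)) 0 j i hdsz (fun _ _ => rfl) x
      simp only [Pi.zero_apply, sub_zero, Prod.snd_zero, mul_zero] at this
      rwa [Real.norm_of_nonneg (by positivity)]
    have m3 : ∀ k, MemLp (fun x => ((E2 x : ℝ) : ℂ) * (Lop n (D (f k) x)).2 j i) 2 μ := by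
      intro k
      refine Continuous.memLp_of_hasCompactSupport ?_ ?_
      · exact hE2cc.mul (cji.comp
          (continuous_snd.comp ((Lop n).continuous.comp (hfs k).D.continuous)))
      · refine HasCompactSupport.intro hK' fun x hx => ?_
        rw [hLz k x hx]
        simp
    exact tendsto_sq m3 m2 (tendsto_of_bound mw mw t2 t2 (C := |C2|) (abs_nonneg _) fun k x =>
      hBb (fun x => Lop n (D (f k) x)) (fun x => (d x, s x)) j i (hLz k) hdsz x)
  have eA : ∀ (z : M → ℂ), ∫ x, ‖z x‖ ^ 2 * Real.exp (-(Phi x + chi x)) ∂μ =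
      ∫ x, ‖((E2 x : ℝ) : ℂ) * z x‖ ^ 2 ∂μ := by
    intro z
    refine integral_congr_ae (Eventually.of_forall fun x => ?_)
    show ‖z x‖ ^ 2 * Real.exp (-(Phi x + chi x)) = ‖((E2 x : ℝ) : ℂ) * z x‖ ^ 2
    rw [norm_mul, hE2n, mul_pow, hE2sq, mul_comm]
  have hineq : ∀ k, ‖∫ x, (∑ j, al x j * conj (f k x j)) * (E1 x : ℂ) ∂μ‖ ^ 2 ≤
      K0 * (2 * ∫ x, ‖((E2 x : ℝ) : ℂ) * ((Lop n (D (f k) x)).1 - ∑ j, f k x j * th j x)‖ ^ 2 ∂μ +
        (1 / 2) * ∑ j, ∑ i, ∫ x, ‖((E2 x : ℝ) : ℂ) * (Lop n (D (f k) x)).2 j i‖ ^ 2 ∂μ) := by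
    intro k
    have h3 := htest (f k) (hfs k) (hfc k)
    simp only [eA] at h3
    exact h3
  simp only [eA]
  refine le_of_tendsto_of_tendsto' (tP.norm.pow 2) ?_ hineq
  exact ((tA.const_mul 2).add ((tendsto_finsetSum _ fun j _ =>
    tendsto_finsetSum _ fun i _ => tB j i).const_mul (1 / 2))).const_mul K0

end Crest.Agent.R273.TwP_34
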