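import Crest.Agent.R273.TwW_34
import Crest.Agent.R273.TwP_34
import Crest.Agent.R271.T2_361

/-!
# Row 273, twisted engine: the twisted a priori inequality for test forms (helper34)

`Bt c Φ ψ q x w = Levi (Φ + ψ) x w - c q/(q-1) |∑ w_j ∂_j ψ|²` is the twisted curvature form
(`e^{-ψ} = η`, `q = 1 + λ/η` in the usual Ohsawa–Takegoshi notation; `c > 1` arbitrary).
-/

set_option autoImplicit false
set_option linter.unusedSectionVars false

noncomputable section

open Set Filter Topology MeasureTheory ComplexConjugate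
open scoped ENNReal

namespace Crest.Agent.R273.TwA_34

open Crest.Agent.R271.Ho51 Crest.Agent.R271.H88 Crest.Agent.R271

variable {n : ℕ} {M : Type*} [TopologicalSpace M] [RDom n M]

/-- the twisted curvature form -/
def Bt (c : ℝ) (Φ ψ q : M → ℝ) (x : M) (w : Fin n → ℂ) : ℝ :=
  Levi (fun y => Φ y + ψ y) x w -
    c * (q x / (q x - 1)) * ‖∑ j, w j * dz j (fun y => (ψ y : ℂ)) x‖ ^ 2

lemma Bt_zero (c : ℝ) (Φ ψ q : M → ℝ) (x : M) : Bt c Φ ψ q x 0 = 0 := by
  simp [Bt, Levi]

/-- Young's inequality with a parameter -/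
lemma young (a b : ℂ) {q : ℝ} (hq : 1 < q) :
    ‖a - b‖ ^ 2 ≤ q * ‖a‖ ^ 2 + (q / (q - 1)) * ‖b‖ ^ 2 := by
  have h1 : ‖a - b‖ ≤ ‖a‖ + ‖b‖ := norm_sub_le a b
  have h2 := pow_le_pow_left₀ (norm_nonneg _) h1 2
  have h3 : 0 < q - 1 := by linarith
  have h4 : (q / (q - 1)) = 1 + 1 / (q - 1) := by field_simp; ring
  have h5 : 2 * ‖a‖ * ‖b‖ ≤ (q - 1) * ‖a‖ ^ 2 + 1 / (q - 1) * ‖b‖ ^ 2 := by
    have h6 : 0 ≤ ((q - 1) * ‖a‖ - ‖b‖) ^ 2 / (q - 1) := by positivity
    have h7 : ((q - 1) * ‖a‖ - ‖b‖) ^ 2 / (q - 1) =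
        (q - 1) * ‖a‖ ^ 2 + 1 / (q - 1) * ‖b‖ ^ 2 - 2 * ‖a‖ * ‖b‖ := by
      field_simp; ring
    linarith
  rw [h4]
  nlinarith

/-- Young's inequality, second form -/
lemma young_add (a b : ℂ) {c : ℝ} (hc : 1 < c) :
    ‖a + b‖ ^ 2 ≤ c * ‖a‖ ^ 2 + (c / (c - 1)) * ‖b‖ ^ 2 := by
  have := young a (-b) hc
  rwa [sub_neg_eq_add, norm_neg] at this

lemma ratio_le {q : ℝ} (hq : 2 ≤ q) : q / (q - 1) ≤ 2 := by
  rw [div_le_iff₀ (by linarith)]
  linarith

lemma ratio_nonneg {q : ℝ} (hq : 2 ≤ q) : 0 ≤ q / (q - 1) := by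
  apply div_nonneg <;> linarith

section cont

lemma Bt_continuous {c : ℝ} {Φ ψ q : M → ℝ} (hΦ : Sm Φ) (hψ : Sm ψ) (hq : Sm q) (hq2 : ∀ x, 2 ≤ q x)
    {f : M → Fin n → ℂ} (hf : Continuous f) : Continuous (fun x => Bt c Φ ψ q x (f x)) := by
  have hL : Continuous (fun x => Levi (fun y => Φ y + ψ y) x (f x)) := by
    unfold Levi
    refine Complex.continuous_re.comp ?_
    refine continuous_finsetSum _ fun j _ => continuous_finsetSum _ fun k _ => ?_
    exact (((((hΦ.add hψ).ofReal.db k).dz j).continuous).mul ((continuous_apply j).comp hf)).mul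
      (Complex.continuous_conj.comp ((continuous_apply k).comp hf))
  unfold Bt
  refine hL.sub ((continuous_const.mul ?_).mul ((Continuous.norm ?_).pow 2))
  · exact hq.continuous.div (hq.continuous.sub continuous_const)
      fun x => by have := hq2 x; intro h; linarith
  · exact continuous_finsetSum _ fun j _ =>
      ((continuous_apply j).comp hf).mul (hψ.ofReal.dz j).continuous

end cont

variable [T2Space M] [SecondCountableTopology M] [MeasurableSpace M] [BorelSpace M]
  {μ : Measure M}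

/-- **the twisted a priori inequality** for test forms -/
theorem apriori_tw (hμ : IsLeb μ) {c : ℝ} (hc1 : 1 < c) {φ ψt ψc q : M → ℝ} (hφ : Sm φ) (hψt : Sm ψt) (hψc : Sm ψc)
    (hq : Sm q) (hq2 : ∀ x, 2 ≤ q x)
    {f : M → (Fin n → ℂ)} (hf : Sm f) (hc : HasCompactSupport f) :
    ∫ x, Levi φ x (f x) * Real.exp (-φ x) ∂μ ≤
      ∫ x, ‖∑ j, (dz j (fun y => f y j) x -
        f x j * dz j (fun y => ((φ y - (ψt y + ψc y) : ℝ) : ℂ)) x)‖ ^ 2 *
          (q x * Real.exp (-φ x)) ∂μ
      + ∫ x, c * (q x / (q x - 1)) * ‖∑ j, f x j * dz j (fun y => (ψt y : ℂ)) x‖ ^ 2 *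
          Real.exp (-φ x) ∂μ
      + (2 * (c / (c - 1))) * ∫ x, nsq (f x) * nsq (fun j => dz j (fun y => (ψc y : ℂ)) x) * Real.exp (-φ x) ∂μ
      + (1 / 2) * ∑ j, ∑ k, ∫ x, ‖db j (fun y => f y k) x - db k (fun y => f y j) x‖ ^ 2 *
        Real.exp (-φ x) ∂μ := by
  have hE : Continuous (fun x => Real.exp (-φ x)) := (H361.sm_Er hφ).continuous
  have := hμ.locallyFinite
  have hfj : ∀ j, Continuous (fun x => f x j) := fun j => (hf.pi_apply j).continuous
  have hψ : Sm (fun y => ψt y + ψc y) := hψt.add hψc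
  -- the functions
  set A : M → ℝ := fun x => Levi φ x (f x) * Real.exp (-φ x) with hA
  set B : M → ℝ := fun x => ‖∑ j, (dz j (fun y => f y j) x -
        f x j * dz j (fun y => ((φ y - (ψt y + ψc y) : ℝ) : ℂ)) x)‖ ^ 2 *
          (q x * Real.exp (-φ x)) with hB
  set T : M → ℝ := fun x => c * (q x / (q x - 1)) *
    ‖∑ j, f x j * dz j (fun y => (ψt y : ℂ)) x‖ ^ 2 * Real.exp (-φ x) with hT
  set C : M → ℝ := fun x => nsq (f x) * nsq (fun j => dz j (fun y => (ψc y : ℂ)) x) *
    Real.exp (-φ x) with hC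
  set S : Fin n → Fin n → M → ℝ := fun j k x =>
    ‖db j (fun y => f y k) x - db k (fun y => f y j) x‖ ^ 2 * Real.exp (-φ x) with hS
  have hdiff : ∀ j x, dz j (fun y => ((φ y - (ψt y + ψc y) : ℝ) : ℂ)) x =
      dz j (fun y => (φ y : ℂ)) x - (dz j (fun y => (ψt y : ℂ)) x +
        dz j (fun y => (ψc y : ℂ)) x) := by
    intro j x
    rw [← dz_add hψt.ofReal hψc.ofReal, ← dz_sub hφ.ofReal (hψt.ofReal.add hψc.ofReal)]
    refine dz_congr (Eventually.of_forall fun y => ?_) j
    simp
  have hsmd : Sm (fun y => φ y - (ψt y + ψc y)) := hφ.sub hψ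
  -- integrability
  have cB : Continuous B := by
    refine ((Continuous.norm ?_).pow 2).mul (hq.continuous.mul hE)
    refine continuous_finsetSum _ fun j _ => ?_
    exact ((hf.pi_apply j).dz j).continuous.sub ((hfj j).mul (hsmd.ofReal.dz j).continuous)
  have cT : Continuous T := by
    refine ((continuous_const.mul ?_).mul ((Continuous.norm ?_).pow 2)).mul hE
    · exact hq.continuous.div (hq.continuous.sub continuous_const)
        fun x => by have := hq2 x; intro h; linarith
    · exact continuous_finsetSum _ fun j _ => (hfj j).mul (hψt.ofReal.dz j).continuous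
  have cC : Continuous C := by
    refine (Continuous.mul ?_ ?_).mul hE
    · exact continuous_finsetSum _ fun j _ => ((hfj j).norm.pow 2)
    · exact continuous_finsetSum _ fun j _ => ((hψc.ofReal.dz j).continuous.norm.pow 2)
  have cS : ∀ j k, Continuous (S j k) := fun j k =>
    ((((hf.pi_apply k).db j).continuous.sub ((hf.pi_apply j).db k).continuous).norm.pow 2).mul hE
  have cA : Continuous A := by
    refine Continuous.mul (Complex.continuous_re.comp ?_) hE
    refine continuous_finsetSum _ fun j _ => continuous_finsetSum _ fun k _ => ?_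
    exact (((hφ.ofReal.db k).dz j).continuous.mul (hfj j)).mul (Complex.continuous_conj.comp (hfj k))
  have iA : Integrable A μ := cA.integrable_of_hasCompactSupport <| H361.hcs_of_zero hc fun x hx => by
    have h0 : f x = 0 := image_eq_zero_of_notMem_tsupport hx
    simp [hA, Levi, h0]
  have iB : Integrable B μ := cB.integrable_of_hasCompactSupport <| H361.hcs_of_zero hc fun x hx => by
    have h0 : f x = 0 := image_eq_zero_of_notMem_tsupport hx
    have h1 : ∀ j, dz j (fun y => f y j) x = 0 := fun j =>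
      H361.dz_zero_of_notMem (fun h => hx (H361.tsupport_pi j h)) j
    simp [hB, h0, h1]
  have iT : Integrable T μ := cT.integrable_of_hasCompactSupport <| H361.hcs_of_zero hc fun x hx => by
    have h0 : f x = 0 := image_eq_zero_of_notMem_tsupport hx
    simp [hT, h0]
  have iC : Integrable C μ := cC.integrable_of_hasCompactSupport <| H361.hcs_of_zero hc fun x hx => by
    have h0 : f x = 0 := image_eq_zero_of_notMem_tsupport hx
    simp [hC, nsq, h0]
  have iS : ∀ j k, Integrable (S j k) μ := fun j k =>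
    (cS j k).integrable_of_hasCompactSupport <| H361.hcs_of_zero hc fun x hx => by
      have h1 : ∀ j k, db j (fun y => f y k) x = 0 := fun j k =>
        H361.db_zero_of_notMem (fun h => hx (H361.tsupport_pi k h)) j
      simp [hS, h1]
  obtain ⟨iD, hD⟩ := H361.integral_Dv hμ hφ hf hc
  have hD' : ∫ x, (H361.Dv φ f x).re ∂μ = 0 := by
    have := integral_re iD
    simp only [RCLike.re_eq_complex_re] at this
    rw [this, hD]; simp
  -- pointwise inequality
  have hpt : ∀ x, A x ≤ B x + T x + (2 * (c / (c - 1))) * C x + (1 / 2) * ∑ j, ∑ k, S j k x -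
      (H361.Dv φ f x).re := by
    intro x
    have h1 := H361.basic_pointwise hφ hf x
    have h2 : 0 ≤ ∑ j, ∑ k, ‖db j (fun y => f y k) x‖ ^ 2 * Real.exp (-φ x) :=
      Finset.sum_nonneg fun j _ => Finset.sum_nonneg fun k _ => by positivity
    set a : ℂ := ∑ j, (dz j (fun y => f y j) x -
        f x j * dz j (fun y => ((φ y - (ψt y + ψc y) : ℝ) : ℂ)) x) with ha
    set bt : ℂ := ∑ j, f x j * dz j (fun y => (ψt y : ℂ)) x with hbt
    set bc : ℂ := ∑ j, f x j * dz j (fun y => (ψc y : ℂ)) x with hbc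
    have e1 : ∑ j, H361.dl φ j (fun y => f y j) x = a - (bt + bc) := by
      rw [ha, hbt, hbc, ← Finset.sum_add_distrib, ← Finset.sum_sub_distrib]
      refine Finset.sum_congr rfl fun j _ => ?_
      rw [hdiff, H361.dl]; ring
    have h3 : ‖∑ j, H361.dl φ j (fun y => f y j) x‖ ^ 2 ≤ q x * ‖a‖ ^ 2 +
        c * (q x / (q x - 1)) * ‖bt‖ ^ 2 +
        (2 * (c / (c - 1))) * (nsq (f x) * nsq (fun j => dz j (fun y => (ψc y : ℂ)) x)) := by
      rw [e1]
      refine (young a (bt + bc) (by have := hq2 x; linarith)).trans ?_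
      have e2 : ‖bt + bc‖ ^ 2 ≤ c * ‖bt‖ ^ 2 + (c / (c - 1)) * ‖bc‖ ^ 2 := young_add bt bc hc1
      have ec : 0 ≤ c / (c - 1) := div_nonneg (by linarith) (by linarith)
      have e3 : ‖bc‖ ^ 2 ≤ nsq (f x) * nsq (fun j => dz j (fun y => (ψc y : ℂ)) x) :=
        H361.cs_sum _ _
      have e4 := ratio_le (hq2 x)
      have e5 := ratio_nonneg (hq2 x)
      have e6 : (q x / (q x - 1)) * ‖bt + bc‖ ^ 2 ≤
          (q x / (q x - 1)) * (c * ‖bt‖ ^ 2 + (c / (c - 1)) * ‖bc‖ ^ 2) :=
        mul_le_mul_of_nonneg_left e2 e5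
      have e7 : (q x / (q x - 1)) * ‖bc‖ ^ 2 ≤ 2 * ‖bc‖ ^ 2 :=
        mul_le_mul_of_nonneg_right e4 (sq_nonneg _)
      have e8 : (c / (c - 1)) * ((q x / (q x - 1)) * ‖bc‖ ^ 2) ≤
          (c / (c - 1)) * (2 * (nsq (f x) * nsq (fun j => dz j (fun y => (ψc y : ℂ)) x))) :=
        mul_le_mul_of_nonneg_left (by linarith) ec
      nlinarith
    have h4 := mul_le_mul_of_nonneg_right h3 (Real.exp_pos (-φ x)).le
    simp only [hA, hB, hC, hS, hT]
    nlinarith [h1, h2, h4]
  calc ∫ x, A x ∂μ ≤ ∫ x, (B x + T x + (2 * (c / (c - 1))) * C x + (1 / 2) * ∑ j, ∑ k, S j k x -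
        (H361.Dv φ f x).re) ∂μ := by
        refine integral_mono iA ?_ hpt
        exact (((iB.add iT).add (iC.const_mul _)).add
          ((integrable_finsetSum _ fun j _ => integrable_finsetSum _ fun k _ => iS j k).const_mul
            (1 / 2))).sub iD.re
    _ = _ := by
        rw [integral_sub, integral_add, integral_add, integral_add, integral_const_mul,
          integral_const_mul, integral_finsetSum, hD', sub_zero]
        · congr 2
          refine Finset.sum_congr rfl fun j _ => ?_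
          rw [integral_finsetSum _ fun k _ => iS j k]
        · exact fun j _ => integrable_finsetSum _ fun k _ => iS j k
        · exact iB
        · exact iT
        · exact iB.add iT
        · exact iC.const_mul _
        · exact (iB.add iT).add (iC.const_mul _)
        · exact (integrable_finsetSum _ fun j _ => integrable_finsetSum _ fun k _ =>
            iS j k).const_mul (1 / 2)
        · exact ((iB.add iT).add (iC.const_mul _)).add
            ((integrable_finsetSum _ fun j _ => integrable_finsetSum _ fun k _ =>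
              iS j k).const_mul (1 / 2))
        · exact iD.re

end Crest.Agent.R273.TwA_34
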