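import Crest.Agent.R273.TwA_34
import Crest.Agent.R271.Engine_51

/-!
# Row 273, twisted engine: the pairing estimate for test forms (helper34)
-/

set_option autoImplicit false
set_option linter.unusedSectionVars false

noncomputable section

open Set Filter Topology MeasureTheory ComplexConjugate
open scoped ENNReal

namespace Crest.Agent.R273.TwB_34

open Crest.Agent.R271.Ho51 Crest.Agent.R271.H88 Crest.Agent.R271 Crest.Agent.R273.TwA_34

variable {n : ℕ} {M : Type*} [TopologicalSpace M] [RDom n M]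
  [T2Space M] [SecondCountableTopology M] [MeasurableSpace M] [BorelSpace M]
  {μ : Measure M} {Φ ψt ψc χ q : M → ℝ} {al : M → (Fin n → ℂ)} {κ : M → ℝ} {K0 c : ℝ}

/-- Cauchy–Schwarz for the pairing. -/
lemma pairing_cs_tw (hμ : IsLeb μ) (hΦ : Sm Φ) (hψt : Sm ψt) (hχ : Sm χ)
    (hq : Sm q) (hq2 : ∀ x, 2 ≤ q x)
    (hpos : ∀ x w, 0 ≤ Bt c Φ ψt q x w)
    (h2 : ∀ x, 2 * ψc x ≤ χ x) (hκ0 : ∀ x, 0 ≤ κ x) (hκm : Measurable κ)
    (hk : ∀ x (w : Fin n → ℂ), ‖∑ j, al x j * conj (w j)‖ ^ 2 ≤ κ x * Bt c Φ ψt q x w)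
    (hK0 : 0 ≤ K0)
    (hK : ∫⁻ x, ENNReal.ofReal (κ x * Real.exp (ψt x - Φ x)) ∂μ ≤ ENNReal.ofReal K0)
    {f : M → (Fin n → ℂ)} (hf : Sm f) (hfc : HasCompactSupport f) :
    ‖∫ x, (∑ j, al x j * conj (f x j)) * (Real.exp (-(Φ x + χ x - ψc x)) : ℂ) ∂μ‖ ^ 2 ≤
      K0 * ∫ x, Bt c Φ ψt q x (f x) * Real.exp (-(Φ x + ψt x + χ x)) ∂μ := by
  have hloc := hμ.locallyFinite
  set a : M → ℝ := fun x => κ x * Real.exp (ψt x - Φ x) with ha
  set b : M → ℝ := fun x => Bt c Φ ψt q x (f x) * Real.exp (-(Φ x + ψt x + χ x)) with hb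
  have ha0 : ∀ x, 0 ≤ a x := fun x => mul_nonneg (hκ0 x) (Real.exp_pos _).le
  have hb0 : ∀ x, 0 ≤ b x := fun x => mul_nonneg (hpos x _) (Real.exp_pos _).le
  have hbc : Continuous b := (Bt_continuous hΦ hψt hq hq2 hf.continuous).mul
    (Real.continuous_exp.comp ((hΦ.continuous.add hψt.continuous).add hχ.continuous).neg)
  have hbs : HasCompactSupport b := by
    refine hfc.mono' ?_
    intro x hx
    by_contra hxs
    apply hx
    simp only [hb]
    rw [image_eq_zero_of_notMem_tsupport hxs, Bt_zero, zero_mul]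
  have hbi : Integrable b μ := hbc.integrable_of_hasCompactSupport hbs
  have ham : Measurable a := hκm.mul
    (Real.measurable_exp.comp (hψt.continuous.measurable.sub hΦ.continuous.measurable))
  have hbm : Measurable b := hbc.measurable
  have hpt : ∀ x, ‖(∑ j, al x j * conj (f x j)) *
      (Real.exp (-(Φ x + χ x - ψc x)) : ℂ)‖ ≤ Real.sqrt (a x) * Real.sqrt (b x) := by
    intro x
    rw [norm_mul, Complex.norm_real, Real.norm_of_nonneg (Real.exp_pos _).le,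
      ← Real.sqrt_mul (ha0 x)]
    apply Real.le_sqrt_of_sq_le
    rw [mul_pow]
    have e1 : Real.exp (-(Φ x + χ x - ψc x)) ^ 2 ≤
        Real.exp (ψt x - Φ x) * Real.exp (-(Φ x + ψt x + χ x)) := by
      rw [sq, ← Real.exp_add, ← Real.exp_add]
      apply Real.exp_le_exp.2
      have := h2 x
      linarith
    calc ‖∑ j, al x j * conj (f x j)‖ ^ 2 * Real.exp (-(Φ x + χ x - ψc x)) ^ 2
        ≤ (κ x * Bt c Φ ψt q x (f x)) *
            (Real.exp (ψt x - Φ x) * Real.exp (-(Φ x + ψt x + χ x))) :=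
          mul_le_mul (hk x (f x)) e1 (by positivity) (mul_nonneg (hκ0 x) (hpos x _))
      _ = a x * b x := by simp only [ha, hb]; ring
  have key : ‖∫ x, (∑ j, al x j * conj (f x j)) *
      (Real.exp (-(Φ x + χ x - ψc x)) : ℂ) ∂μ‖ₑ ^ 2 ≤
      (∫⁻ x, ENNReal.ofReal (a x) ∂μ) * ∫⁻ x, ENNReal.ofReal (b x) ∂μ := by
    have h3 : ‖∫ x, (∑ j, al x j * conj (f x j)) *
        (Real.exp (-(Φ x + χ x - ψc x)) : ℂ) ∂μ‖ₑ ≤
        ∫⁻ x, ENNReal.ofReal (Real.sqrt (a x)) * ENNReal.ofReal (Real.sqrt (b x)) ∂μ := by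
      refine (enorm_integral_le_lintegral_enorm _).trans (lintegral_mono fun x => ?_)
      rw [← ofReal_norm, ← ENNReal.ofReal_mul (Real.sqrt_nonneg _)]
      exact ENNReal.ofReal_le_ofReal (hpt x)
    have h4 := ENNReal.lintegral_mul_le_Lp_mul_Lq μ Real.HolderConjugate.two_two
      (f := fun x => ENNReal.ofReal (Real.sqrt (a x)))
      (g := fun x => ENNReal.ofReal (Real.sqrt (b x)))
      ham.sqrt.ennreal_ofReal.aemeasurable hbm.sqrt.ennreal_ofReal.aemeasurable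
    have e2 : ∀ {c : M → ℝ}, (∀ x, 0 ≤ c x) → ∀ x,
        ENNReal.ofReal (Real.sqrt (c x)) ^ (2 : ℝ) = ENNReal.ofReal (c x) := by
      intro c hc x
      rw [ENNReal.ofReal_rpow_of_nonneg (Real.sqrt_nonneg _) (by norm_num)]
      congr 1
      rw [show (2 : ℝ) = ((2 : ℕ) : ℝ) by norm_num, Real.rpow_natCast, Real.sq_sqrt (hc x)]
    simp only [e2 ha0, e2 hb0, Pi.mul_apply] at h4
    calc ‖∫ x, (∑ j, al x j * conj (f x j)) *
        (Real.exp (-(Φ x + χ x - ψc x)) : ℂ) ∂μ‖ₑ ^ 2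
        ≤ ((∫⁻ x, ENNReal.ofReal (a x) ∂μ) ^ (1 / 2 : ℝ) *
          (∫⁻ x, ENNReal.ofReal (b x) ∂μ) ^ (1 / 2 : ℝ)) ^ 2 :=
          pow_le_pow_left' (h3.trans h4) 2
      _ = (∫⁻ x, ENNReal.ofReal (a x) ∂μ) * ∫⁻ x, ENNReal.ofReal (b x) ∂μ := by
          rw [mul_pow, ← ENNReal.rpow_natCast, ← ENNReal.rpow_natCast, ← ENNReal.rpow_mul,
            ← ENNReal.rpow_mul]
          norm_num
  have h5 : ∫⁻ x, ENNReal.ofReal (b x) ∂μ = ENNReal.ofReal (∫ x, b x ∂μ) :=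
    (ofReal_integral_eq_lintegral_ofReal hbi (Eventually.of_forall hb0)).symm
  rw [h5] at key
  have h6 := key.trans (mul_le_mul_left hK _)
  rw [← ENNReal.ofReal_mul hK0, ← ofReal_norm, ← ENNReal.ofReal_pow (norm_nonneg _)] at h6
  have h7 : 0 ≤ K0 * ∫ x, b x ∂μ := mul_nonneg hK0 (integral_nonneg hb0)
  exact (ENNReal.ofReal_le_ofReal_iff h7).1 h6

/-- the weight of level one -/
def Wt (Φ ψt χ q : M → ℝ) (x : M) : ℝ := Φ x + ψt x + χ x - Real.log (q x / 2)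

/-- the difference of weights -/
def ψo (ψt ψc q : M → ℝ) (x : M) : ℝ := ψt x + ψc x - Real.log (q x / 2)

lemma sm_logq (hq : Sm q) (hq2 : ∀ x, 2 ≤ q x) : Sm (fun x => Real.log (q x / 2)) := by
  refine Sm.comp_at (g := fun s => Real.log (s / 2)) hq fun x => ?_
  refine ContDiffAt.log ?_ ?_
  · exact contDiffAt_id.div_const 2
  · have := hq2 x
    intro h
    have h' : q x / 2 = 0 := h
    linarith

lemma sm_Wt (hΦ : Sm Φ) (hψt : Sm ψt) (hχ : Sm χ) (hq : Sm q) (hq2 : ∀ x, 2 ≤ q x) :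
    Sm (Wt Φ ψt χ q) := ((hΦ.add hψt).add hχ).sub (sm_logq hq hq2)

lemma sm_ψo (hψt : Sm ψt) (hψc : Sm ψc) (hq : Sm q) (hq2 : ∀ x, 2 ≤ q x) :
    Sm (ψo ψt ψc q) := (hψt.add hψc).sub (sm_logq hq hq2)

lemma exp_Wt (hq2 : ∀ x, 2 ≤ q x) (x : M) :
    Real.exp (-(Wt Φ ψt χ q x + 0)) = (q x / 2) * Real.exp (-(Φ x + ψt x + χ x)) := by
  have h : 0 < q x / 2 := by have := hq2 x; linarith
  have h1 : -(Wt Φ ψt χ q x + 0) = Real.log (q x / 2) + -(Φ x + ψt x + χ x) := by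
    unfold Wt; ring
  rw [h1, Real.exp_add, Real.exp_log h]

lemma Wt_sub (x : M) : Wt Φ ψt χ q x + 0 - ψo ψt ψc q x = Φ x + χ x - ψc x := by
  unfold Wt ψo; ring

/-- the estimate for test forms -/
lemma pairing_test_tw (hμ : IsLeb μ) (hc1 : 1 < c) (hΦ : Sm Φ) (hψt : Sm ψt) (hψc : Sm ψc) (hχ : Sm χ)
    (hq : Sm q) (hq2 : ∀ x, 2 ≤ q x)
    (hpos : ∀ x w, 0 ≤ Bt c Φ ψt q x w)
    (hL : ∀ x w, (2 * (c / (c - 1))) * nsq (fun j => dz j (fun y => (ψc y : ℂ)) x) * nsq w ≤ Levi χ x w)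
    (h2 : ∀ x, 2 * ψc x ≤ χ x) (hκ0 : ∀ x, 0 ≤ κ x) (hκm : Measurable κ)
    (hk : ∀ x (w : Fin n → ℂ), ‖∑ j, al x j * conj (w j)‖ ^ 2 ≤ κ x * Bt c Φ ψt q x w)
    (hK0 : 0 ≤ K0)
    (hK : ∫⁻ x, ENNReal.ofReal (κ x * Real.exp (ψt x - Φ x)) ∂μ ≤ ENNReal.ofReal K0)
    (f : M → (Fin n → ℂ)) (hf : Sm f) (hfc : HasCompactSupport f) :
    ‖∫ x, (∑ j, al x j * conj (f x j)) *
        (Real.exp (-(Wt Φ ψt χ q x + (fun _ => (0 : ℝ)) x - ψo ψt ψc q x)) : ℂ) ∂μ‖ ^ 2 ≤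
      K0 * (2 * ∫ x, ‖(Lop n (D f x)).1 - ∑ j, f x j *
          dz j (fun y => ((Wt Φ ψt χ q y + (fun _ => (0 : ℝ)) y - ψo ψt ψc q y : ℝ) : ℂ)) x‖ ^ 2 *
            Real.exp (-(Wt Φ ψt χ q x + (fun _ => (0 : ℝ)) x)) ∂μ +
        (1 / 2) * ∑ j, ∑ k, ∫ x, ‖(Lop n (D f x)).2 j k‖ ^ 2 *
            Real.exp (-(Wt Φ ψt χ q x + (fun _ => (0 : ℝ)) x)) ∂μ) := by
  have hloc := hμ.locallyFinite
  simp only [Wt_sub, exp_Wt hq2]
  refine (pairing_cs_tw hμ hΦ hψt hχ hq hq2 hpos h2 hκ0 hκm hk hK0 hK hf hfc).trans ?_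
  refine mul_le_mul_of_nonneg_left ?_ hK0
  set φ : M → ℝ := fun x => Φ x + ψt x + χ x with hφdef
  have hφ : Sm φ := (hΦ.add hψt).add hχ
  have h3 := apriori_tw hμ hc1 hφ hψt hψc hq hq2 hf hfc
  have e1 : ∀ x, (Lop n (D f x)).1 - ∑ j, f x j *
          dz j (fun y => ((Φ y + χ y - ψc y : ℝ) : ℂ)) x =
      ∑ j, (dz j (fun y => f y j) x - f x j *
          dz j (fun y => ((φ y - (ψt y + ψc y) : ℝ) : ℂ)) x) := by
    intro x
    rw [Lop_D_fst hf, Finset.sum_sub_distrib]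
    congr 1
    refine Finset.sum_congr rfl fun j _ => ?_
    congr 1
    refine dz_congr (Eventually.of_forall fun y => ?_) j
    simp only [hφdef]
    congr 1
    ring
  have hcs : ∀ (g : M → ℝ), Continuous g → (∀ x ∉ tsupport f, g x = 0) → Integrable g μ := by
    intro g hg hg0
    exact hg.integrable_of_hasCompactSupport (HasCompactSupport.intro hfc hg0)
  have hf0 : ∀ x ∉ tsupport f, f x = 0 := fun x hx => image_eq_zero_of_notMem_tsupport hx
  have hexp : Continuous fun x => Real.exp (-φ x) :=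
    Real.continuous_exp.comp hφ.continuous.neg
  have hdpsi : Continuous fun x => nsq (fun j => dz j (fun y => (ψc y : ℂ)) x) := by
    refine nsq_continuous.comp ?_
    exact continuous_pi fun j => (hψc.ofReal.dz j).continuous
  have i1 : Integrable (fun x => Bt c Φ ψt q x (f x) * Real.exp (-φ x)) μ :=
    hcs _ ((Bt_continuous hΦ hψt hq hq2 hf.continuous).mul hexp) fun x hx => by
      rw [hf0 x hx, Bt_zero]; ring
  have cT : Continuous (fun x => c * (q x / (q x - 1)) *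
      ‖∑ j, f x j * dz j (fun y => (ψt y : ℂ)) x‖ ^ 2 * Real.exp (-φ x)) := by
    refine ((continuous_const.mul ?_).mul ((Continuous.norm ?_).pow 2)).mul hexp
    · exact hq.continuous.div (hq.continuous.sub continuous_const)
        fun x => by have := hq2 x; intro h; linarith
    · exact continuous_finsetSum _ fun j _ =>
        ((continuous_apply j).comp hf.continuous).mul (hψt.ofReal.dz j).continuous
  have iT : Integrable (fun x => c * (q x / (q x - 1)) *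
      ‖∑ j, f x j * dz j (fun y => (ψt y : ℂ)) x‖ ^ 2 * Real.exp (-φ x)) μ :=
    hcs _ cT fun x hx => by simp [hf0 x hx]
  have i2 : Integrable (fun x => nsq (f x) * nsq (fun j => dz j (fun y => (ψc y : ℂ)) x) *
      Real.exp (-φ x)) μ :=
    hcs _ (((nsq_continuous.comp hf.continuous).mul hdpsi).mul hexp) fun x hx => by
      rw [hf0 x hx, nsq_zero]; ring
  have i3 : Integrable (fun x => Levi φ x (f x) * Real.exp (-φ x)) μ :=
    hcs _ ((Levi_continuous hφ hf.continuous).mul hexp) fun x hx => by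
      rw [hf0 x hx, Levi_zero]; ring
  have h4 : ∫ x, Bt c Φ ψt q x (f x) * Real.exp (-φ x) ∂μ +
      ∫ x, c * (q x / (q x - 1)) *
        ‖∑ j, f x j * dz j (fun y => (ψt y : ℂ)) x‖ ^ 2 * Real.exp (-φ x) ∂μ +
      (2 * (c / (c - 1))) * ∫ x, nsq (f x) * nsq (fun j => dz j (fun y => (ψc y : ℂ)) x) * Real.exp (-φ x) ∂μ ≤
      ∫ x, Levi φ x (f x) * Real.exp (-φ x) ∂μ := by
    have i1T : Integrable (fun x => Bt c Φ ψt q x (f x) * Real.exp (-φ x) + c * (q x / (q x - 1)) *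
        ‖∑ j, f x j * dz j (fun y => (ψt y : ℂ)) x‖ ^ 2 * Real.exp (-φ x)) μ := i1.add iT
    rw [← integral_const_mul, ← integral_add i1 iT, ← integral_add i1T (i2.const_mul _)]
    refine integral_mono ((i1.add iT).add (i2.const_mul _)) i3 fun x => ?_
    show Bt c Φ ψt q x (f x) * Real.exp (-φ x) + c * (q x / (q x - 1)) *
        ‖∑ j, f x j * dz j (fun y => (ψt y : ℂ)) x‖ ^ 2 * Real.exp (-φ x) +
      (2 * (c / (c - 1))) * (nsq (f x) * nsq (fun j => dz j (fun y => (ψc y : ℂ)) x) *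
        Real.exp (-φ x)) ≤ _
    have e2 : Levi φ x (f x) = Levi (fun y => Φ y + ψt y) x (f x) + Levi χ x (f x) :=
      Levi_add (hΦ.add hψt) hχ x (f x)
    rw [e2]
    unfold Bt
    have h5 := hL x (f x)
    have h6 := Real.exp_pos (-φ x)
    have h7 : (2 * (c / (c - 1))) * (nsq (f x) * nsq (fun j => dz j (fun y => (ψc y : ℂ)) x)) ≤
      Levi χ x (f x) := by nlinarith
    nlinarith
  -- the right-hand side
  have hB : 2 * ∫ x, ‖(Lop n (D f x)).1 - ∑ j, f x j *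
          dz j (fun y => ((Φ y + χ y - ψc y : ℝ) : ℂ)) x‖ ^ 2 *
            (q x / 2 * Real.exp (-φ x)) ∂μ =
      ∫ x, ‖∑ j, (dz j (fun y => f y j) x -
        f x j * dz j (fun y => ((φ y - (ψt y + ψc y) : ℝ) : ℂ)) x)‖ ^ 2 *
          (q x * Real.exp (-φ x)) ∂μ := by
    rw [← integral_const_mul]
    refine integral_congr_ae (Eventually.of_forall fun x => ?_)
    simp only [e1]
    ring
  have hS : ∀ j k, ∫ x, ‖db j (fun y => f y k) x - db k (fun y => f y j) x‖ ^ 2 *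
        Real.exp (-φ x) ∂μ ≤ ∫ x, ‖(Lop n (D f x)).2 j k‖ ^ 2 *
            (q x / 2 * Real.exp (-φ x)) ∂μ := by
    intro j k
    have c0 : Continuous fun x => ‖db j (fun y => f y k) x - db k (fun y => f y j) x‖ ^ 2 :=
      ((((hf.pi_apply k).db j).continuous.sub ((hf.pi_apply j).db k).continuous).norm.pow 2)
    have z0 : ∀ x ∉ tsupport f,
        ‖db j (fun y => f y k) x - db k (fun y => f y j) x‖ ^ 2 = 0 := fun x hx => by
      have h1 : ∀ j k, db j (fun y => f y k) x = 0 := fun j k =>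
        H361.db_zero_of_notMem (fun h => hx (H361.tsupport_pi k h)) j
      simp [h1]
    simp_rw [Lop_D_snd hf]
    refine integral_mono (hcs _ (c0.mul hexp) fun x hx => by rw [z0 x hx, zero_mul])
      (hcs _ (c0.mul ((hq.continuous.div_const 2).mul hexp)) fun x hx => by
        rw [z0 x hx, zero_mul]) fun x => ?_
    have h5 := hq2 x
    have h6 := Real.exp_pos (-φ x)
    have h7 : Real.exp (-φ x) ≤ q x / 2 * Real.exp (-φ x) := by nlinarith
    exact mul_le_mul_of_nonneg_left h7 (sq_nonneg _)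
  have hS' : (1 / 2 : ℝ) * ∑ j, ∑ k, ∫ x, ‖db j (fun y => f y k) x -
      db k (fun y => f y j) x‖ ^ 2 * Real.exp (-φ x) ∂μ ≤
      (1 / 2) * ∑ j, ∑ k, ∫ x, ‖(Lop n (D f x)).2 j k‖ ^ 2 *
            (q x / 2 * Real.exp (-φ x)) ∂μ := by
    refine mul_le_mul_of_nonneg_left ?_ (by norm_num)
    exact Finset.sum_le_sum fun j _ => Finset.sum_le_sum fun k _ => hS j k
  rw [hB]
  linarith

/-- the compact pairing estimate in the engine's format -/
theorem pairC_tw (hμ : IsLeb μ) (hc1 : 1 < c) (hΦ : Sm Φ) (hψt : Sm ψt) (hψc : Sm ψc) (hχ : Sm χ)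
    (hq : Sm q) (hq2 : ∀ x, 2 ≤ q x)
    (hpos : ∀ x w, 0 ≤ Bt c Φ ψt q x w)
    (hL : ∀ x w, (2 * (c / (c - 1))) * nsq (fun j => dz j (fun y => (ψc y : ℂ)) x) * nsq w ≤ Levi χ x w)
    (h2 : ∀ x, 2 * ψc x ≤ χ x) (hal : Continuous al) (hκ0 : ∀ x, 0 ≤ κ x) (hκm : Measurable κ)
    (hk : ∀ x (w : Fin n → ℂ), ‖∑ j, al x j * conj (w j)‖ ^ 2 ≤ κ x * Bt c Φ ψt q x w)
    (hK0 : 0 ≤ K0)
    (hK : ∫⁻ x, ENNReal.ofReal (κ x * Real.exp (ψt x - Φ x)) ∂μ ≤ ENNReal.ofReal K0) :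
    PairC μ (Wt Φ ψt χ q) (fun _ => 0) (ψo ψt ψc q) al K0 :=
  TwP_34.pairC_of_test hμ (sm_Wt hΦ hψt hχ hq hq2) (Sm.const 0) (sm_ψo hψt hψc hq hq2) hal
    fun f hf hfc => pairing_test_tw hμ hc1 hΦ hψt hψc hχ hq hq2 hpos hL h2 hκ0 hκm hk hK0 hK f hf hfc

end Crest.Agent.R273.TwB_34
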