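import Crest.Agent.R271.T7b1_868

/-!
# Row 273, twisted engine: the weights `ψ, χ` and the cut-offs `η_ν`, with an arbitrary extra
growth function `L` (helper34; adapted from `R271/T7b1_868`)
-/

set_option autoImplicit false
set_option linter.unusedSectionVars false

noncomputable section

open Set Filter Topology MeasureTheory
open Crest.Agent.R271.Ho51

namespace Crest.Agent.R273.TwW_34

open Crest.Agent.R271.H868

variable {n : ℕ} {M : Type*} [TopologicalSpace M] [RDom n M]

variable [T2Space M] [SecondCountableTopology M] [MeasurableSpace M] [BorelSpace M]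

theorem exists_weights {μ : Measure M} (hμ : IsLeb μ) (rho : M → ℝ) (hρ : Sm rho)
    (hcpt : ∀ t : ℝ, IsCompact {x | rho x ≤ t}) (hL : ∀ x w, nsq w ≤ Levi rho x w) (a : ℝ)
    (h : M → ℝ) (hh : Continuous h) (L : M → ℝ) (hLs : Sm L) (hL0 : ∀ x, 0 ≤ L x)
    (D0 : ℝ) (hD0 : 0 ≤ D0) :
    ∃ psi chi : M → ℝ, Sm psi ∧ Sm chi ∧ (∀ x, 0 ≤ psi x) ∧
      (∀ x, rho x ≤ a → psi x = 0 ∧ chi x = 0) ∧ (∀ x, 2 * psi x ≤ chi x) ∧
      (∀ x w, D0 * nsq (fun j => dz j (fun y => (psi y : ℂ)) x) * nsq w ≤ Levi chi x w) ∧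
      (∫⁻ x, ENNReal.ofReal (|h x| * Real.exp (psi x - chi x)) ∂μ < ⊤) ∧
      ∃ eta : ℕ → M → ℝ, (∀ nu, Sm (eta nu) ∧ HasCompactSupport (eta nu) ∧
        (∀ x, 0 ≤ eta nu x ∧ eta nu x ≤ 1) ∧
        ∀ x, nsq (fun j => dz j (fun y => (eta nu y : ℂ)) x) ≤ Real.exp (psi x - L x)) ∧
        ∀ x, ∀ᶠ nu in atTop, ∀ᶠ y in 𝓝 x, eta nu y = 1 := by
  obtain ⟨C, hC0, hC, hCneg⟩ := exists_deriv_st_bound
  have := hμ.locallyFinite
  have hρc : Continuous rho := hρ.continuous
  have hst : ContDiff ℝ (⊤ : ℕ∞) Real.smoothTransition := Real.smoothTransition.contDiff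
  -- the square of the gradient of `rho`
  set q : M → ℝ := fun x => nsq (fun j => dz j (fun y => (rho y : ℂ)) x) with hq
  have hqs : Sm q := Sm_nsq_dz hρ.ofReal
  have hq0 : ∀ x, 0 ≤ q x := fun x => nsq_nonneg _
  have hpos : ∀ x, 1 ≤ 1 + C * q x := fun x => by
    have := mul_nonneg hC0 (hq0 x); linarith
  set psi : M → ℝ := fun x => Real.smoothTransition (rho x - (a + 1)) *
    (Real.log (1 + C * q x) + L x) with hpsi
  have hpsis : Sm psi := by
    have h1 : Sm (fun x => Real.smoothTransition (rho x - (a + 1))) :=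
      Sm.comp (g := fun t : ℝ => Real.smoothTransition (t - (a + 1)))
        (hst.comp (contDiff_id.sub contDiff_const)) hρ
    have h2 : Sm (fun x => Real.log (1 + C * q x)) := by
      refine Sm.comp_at (g := fun s => Real.log (1 + C * s)) hqs fun x => ?_
      refine ContDiffAt.log ?_ ?_
      · exact contDiffAt_const.add (contDiffAt_const.mul contDiffAt_id)
      · have := hpos x; linarith
    exact h1.mulR (h2.add hLs)
  have hpsi0 : ∀ x, 0 ≤ psi x := fun x =>
    mul_nonneg (Real.smoothTransition.nonneg _) (add_nonneg (Real.log_nonneg (hpos x)) (hL0 x))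
  have hpsiz : ∀ x, rho x ≤ a + 1 → psi x = 0 := fun x hx => by
    simp only [hpsi]
    rw [Real.smoothTransition.zero_of_nonpos (by linarith), zero_mul]
  set r : M → ℝ := fun x => nsq (fun j => dz j (fun y => (psi y : ℂ)) x) with hr
  have hrs : Sm r := Sm_nsq_dz hpsis.ofReal
  have hr0 : ∀ x, 0 ≤ r x := fun x => nsq_nonneg _
  have hrz : ∀ x, rho x < a + 1 → r x = 0 := fun x hx => by
    have h1 : (fun y => (psi y : ℂ)) =ᶠ[𝓝 x] fun _ => 0 := by
      filter_upwards [hρc.continuousAt.eventually_lt continuousAt_const hx] with y hy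
      rw [hpsiz y hy.le]; simp
    have h2 : ∀ j, dz j (fun y => (psi y : ℂ)) x = 0 := fun j => by
      rw [dz_congr h1, dz_const]
    simp only [hr, h2, nsq]
    simp
  -- the sequence `b`
  have hcont : Continuous fun x => 2 * psi x + D0 * r x + |h x| + psi x :=
    (((continuous_const.mul hpsis.continuous).add (continuous_const.mul hrs.continuous)).add
      hh.abs).add hpsis.continuous
  have hbd : ∀ k : ℕ, ∃ c : ℝ, ∀ x, rho x ≤ a + k + 2 → 2 * psi x + D0 * r x + |h x| + psi x ≤ c := by
    intro k
    obtain ⟨c, hc⟩ := (hcpt (a + k + 2)).exists_bound_of_continuousOn hcont.continuousOn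
    exact ⟨c, fun x hx => (Real.le_norm_self _).trans (hc x hx)⟩
  choose c hc using hbd
  set b : ℕ → ℝ := fun k => c k + (μ {x | rho x ≤ a + k + 2}).toReal + k with hb
  obtain ⟨X, hX, hXz, hXpos, hXb⟩ := Crest.Agent.R271.H88.exists_convex_weight a b
  set chi : M → ℝ := fun x => X (rho x) with hchi
  have hchis : Sm chi := Sm.comp hX hρ
  -- the index `k` of a point
  have hidx : ∀ x, a + 1 ≤ rho x → ∃ k : ℕ, a + k + 1 ≤ rho x ∧ rho x ≤ a + k + 2 := by
    intro x hx
    refine ⟨⌊rho x - (a + 1)⌋₊, ?_, ?_⟩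
    · have := Nat.floor_le (a := rho x - (a + 1)) (by linarith)
      linarith
    · have := (Nat.lt_floor_add_one (rho x - (a + 1))).le
      linarith
  have hkey : ∀ x (k : ℕ), a + k + 1 ≤ rho x → rho x ≤ a + k + 2 →
      2 * psi x + D0 * r x + |h x| + psi x + (μ {x | rho x ≤ a + k + 2}).toReal + k ≤ chi x ∧
      2 * psi x + D0 * r x + |h x| + psi x + (μ {x | rho x ≤ a + k + 2}).toReal + k
        ≤ deriv X (rho x) := by
    intro x k h1 h2
    have h3 := hc k x h2
    have h4 := hXb k (rho x) h1
    simp only [hb] at h4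
    constructor
    · have := h4.1; simp only [hchi]; linarith
    · have := h4.2; linarith
  have hvol : ∀ k : ℕ, 0 ≤ (μ {x | rho x ≤ a + k + 2}).toReal := fun k => ENNReal.toReal_nonneg
  refine ⟨psi, chi, hpsis, hchis, hpsi0, fun x hx => ⟨hpsiz x (by linarith), hXz _ hx⟩, ?_, ?_, ?_,
    ?_⟩
  · intro x
    rcases le_or_gt (rho x) (a + 1) with hx | hx
    · rw [hpsiz x hx, mul_zero]; exact (hXpos _).1
    · obtain ⟨k, h1, h2⟩ := hidx x hx.le
      have h3 := (hkey x k h1 h2).1
      have h4 := hvol k
      have h5 := mul_nonneg hD0 (hr0 x)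
      have h6 := hpsi0 x
      have h7 := abs_nonneg (h x)
      have h8 : (0 : ℝ) ≤ k := Nat.cast_nonneg k
      linarith
  · intro x w
    have hLx := hL x w
    have hw := nsq_nonneg w
    have e := Levi_comp hρ hX x w
    have hX2 : 0 ≤ deriv (deriv X) (rho x) * ‖∑ j, dz j (fun y => (rho y : ℂ)) x * w j‖ ^ 2 :=
      mul_nonneg (hXpos _).2.2 (sq_nonneg _)
    change D0 * r x * nsq w ≤ Levi (fun y => X (rho y)) x w
    rw [e]
    rcases lt_or_ge (rho x) (a + 1) with hx | hx
    · rw [hrz x hx, mul_zero, zero_mul]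
      exact add_nonneg (mul_nonneg (hXpos _).2.1 (hw.trans hLx)) hX2
    · obtain ⟨k, h1, h2⟩ := hidx x hx
      have h3 := (hkey x k h1 h2).2
      have h4 := hvol k
      have h5 := mul_nonneg hD0 (hr0 x)
      have h6 := hpsi0 x
      have h7 := abs_nonneg (h x)
      have h8 : (0 : ℝ) ≤ k := Nat.cast_nonneg k
      have h9 : D0 * r x ≤ deriv X (rho x) := by linarith
      have h10 : D0 * r x * nsq w ≤ deriv X (rho x) * Levi rho x w :=
        mul_le_mul h9 hLx hw (hXpos _).2.1
      linarith
  · -- integrability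
    set F : M → ENNReal := fun x => ENNReal.ofReal (|h x| * Real.exp (psi x - chi x)) with hF
    set S : ℕ → Set M := fun k => {x | a + k + 1 ≤ rho x ∧ rho x ≤ a + k + 2} with hS
    have hcov : (univ : Set M) ⊆ {x | rho x ≤ a + 1} ∪ ⋃ k, S k := by
      intro x _
      rcases le_or_gt (rho x) (a + 1) with hx | hx
      · exact Or.inl hx
      · obtain ⟨k, h1, h2⟩ := hidx x hx.le
        exact Or.inr (mem_iUnion.2 ⟨k, h1, h2⟩)
    have hS' : ∀ k, ∫⁻ x in S k, F x ∂μ ≤ ENNReal.ofReal (Real.exp (-(k : ℝ))) := by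
      intro k
      have hSm : MeasurableSet (S k) :=
        (measurableSet_le measurable_const hρc.measurable).inter
          (measurableSet_le hρc.measurable measurable_const)
      have hfin : μ {x | rho x ≤ a + k + 2} ≠ ⊤ := (hcpt _).measure_lt_top.ne
      set V : ℝ := (μ {x | rho x ≤ a + k + 2}).toReal with hV
      have hSV : μ (S k) ≤ ENNReal.ofReal V := by
        rw [hV, ENNReal.ofReal_toReal hfin]
        exact measure_mono fun x hx => hx.2
      have hpt : ∀ x ∈ S k, F x ≤ ENNReal.ofReal (Real.exp (-(V + k))) := by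
        intro x hx
        apply ENNReal.ofReal_le_ofReal
        have h3 := (hkey x k hx.1 hx.2).1
        have h5 := mul_nonneg hD0 (hr0 x)
        have h6 := hpsi0 x
        have h7 : |h x| ≤ Real.exp |h x| := (by
          have := Real.add_one_le_exp |h x|; linarith)
        calc |h x| * Real.exp (psi x - chi x)
            ≤ Real.exp |h x| * Real.exp (psi x - chi x) :=
              mul_le_mul_of_nonneg_right h7 (Real.exp_pos _).le
          _ = Real.exp (|h x| + (psi x - chi x)) := (Real.exp_add _ _).symm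
          _ ≤ Real.exp (-(V + k)) := by
              apply Real.exp_le_exp.2
              linarith
      calc ∫⁻ x in S k, F x ∂μ ≤ ∫⁻ _ in S k, ENNReal.ofReal (Real.exp (-(V + k))) ∂μ :=
            setLIntegral_mono measurable_const hpt
        _ = ENNReal.ofReal (Real.exp (-(V + k))) * μ (S k) := setLIntegral_const _ _
        _ ≤ ENNReal.ofReal (Real.exp (-(V + k))) * ENNReal.ofReal V := by gcongr
        _ = ENNReal.ofReal (Real.exp (-(V + k)) * V) :=
            (ENNReal.ofReal_mul (Real.exp_pos _).le).symm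
        _ ≤ ENNReal.ofReal (Real.exp (-(k : ℝ))) := by
            apply ENNReal.ofReal_le_ofReal
            have h7 : V ≤ Real.exp V := (by have := Real.add_one_le_exp V; linarith)
            calc Real.exp (-(V + k)) * V ≤ Real.exp (-(V + k)) * Real.exp V :=
                  mul_le_mul_of_nonneg_left h7 (Real.exp_pos _).le
              _ = Real.exp (-(k : ℝ)) := by rw [← Real.exp_add]; congr 1; ring
    have hK : ∫⁻ x in {x | rho x ≤ a + 1}, F x ∂μ < ⊤ := by
      have hFc : Continuous fun x => |h x| * Real.exp (psi x - chi x) :=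
        hh.abs.mul (Real.continuous_exp.comp (hpsis.continuous.sub hchis.continuous))
      obtain ⟨c', hc'⟩ := (hcpt (a + 1)).exists_bound_of_continuousOn hFc.continuousOn
      calc ∫⁻ x in {x | rho x ≤ a + 1}, F x ∂μ
          ≤ ∫⁻ _ in {x | rho x ≤ a + 1}, ENNReal.ofReal c' ∂μ :=
            setLIntegral_mono measurable_const fun x hx =>
              ENNReal.ofReal_le_ofReal ((Real.le_norm_self _).trans (hc' x hx))
        _ = ENNReal.ofReal c' * μ {x | rho x ≤ a + 1} := setLIntegral_const _ _
        _ < ⊤ := ENNReal.mul_lt_top ENNReal.ofReal_lt_top (hcpt _).measure_lt_top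
    calc ∫⁻ x, F x ∂μ = ∫⁻ x in univ, F x ∂μ := by rw [Measure.restrict_univ]
      _ ≤ ∫⁻ x in {x | rho x ≤ a + 1} ∪ ⋃ k, S k, F x ∂μ := lintegral_mono_set hcov
      _ ≤ ∫⁻ x in {x | rho x ≤ a + 1}, F x ∂μ + ∫⁻ x in ⋃ k, S k, F x ∂μ :=
          lintegral_union_le _ _ _
      _ ≤ ∫⁻ x in {x | rho x ≤ a + 1}, F x ∂μ + ∑' k, ∫⁻ x in S k, F x ∂μ := by
          gcongr
          exact lintegral_iUnion_le _ _
      _ ≤ ∫⁻ x in {x | rho x ≤ a + 1}, F x ∂μ +
            ∑' k : ℕ, ENNReal.ofReal (Real.exp (-(k : ℝ))) := by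
          gcongr with k
          exact hS' k
      _ < ⊤ := by
          refine ENNReal.add_lt_top.2 ⟨hK, ?_⟩
          rw [← ENNReal.ofReal_tsum_of_nonneg (fun k => (Real.exp_pos _).le)
            Real.summable_exp_neg_nat]
          exact ENNReal.ofReal_lt_top
  · -- cut-offs
    set eta : ℕ → M → ℝ := fun nu x => 1 - Real.smoothTransition (rho x - (nu + a + 2)) with heta
    have hes : ∀ nu, Sm (eta nu) := fun nu =>
      Sm.comp (g := fun t : ℝ => 1 - Real.smoothTransition (t - (nu + a + 2)))
        (contDiff_const.sub (hst.comp (contDiff_id.sub contDiff_const))) hρ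
    refine ⟨eta, fun nu => ⟨hes nu, ?_, ?_, ?_⟩, ?_⟩
    · refine HasCompactSupport.intro (hcpt (nu + a + 3)) fun x hx => ?_
      simp only [mem_ofPred_eq, not_le] at hx
      simp only [heta]
      rw [Real.smoothTransition.one_of_one_le (by linarith), sub_self]
    · intro x
      have h1 := Real.smoothTransition.nonneg (rho x - (nu + a + 2))
      have h2 := Real.smoothTransition.le_one (rho x - (nu + a + 2))
      simp only [heta]
      constructor <;> linarith
    · intro x
      set s : ℝ := rho x - (nu + a + 2) with hs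
      have hd : HasDerivAt (fun t : ℝ => 1 - Real.smoothTransition (t - (nu + a + 2)))
          (-(deriv Real.smoothTransition s)) (rho x) := by
        have h1 : HasDerivAt Real.smoothTransition (deriv Real.smoothTransition s) s :=
          (hst.differentiable (by simp) _).hasDerivAt
        have h2 : HasDerivAt (fun t : ℝ => t - (nu + a + 2)) 1 (rho x) :=
          (hasDerivAt_id _).sub_const _
        have h3 := (HasDerivAt.comp (rho x) h1 h2).const_sub 1
        simpa using h3
      have h1 : ∀ j, dz j (fun y => (eta nu y : ℂ)) x =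
          ((-(deriv Real.smoothTransition s) : ℝ) : ℂ) * dz j (fun y => (rho y : ℂ)) x := fun j =>
        dz_comp_real hρ (hes nu) x hd j
      have h2 : nsq (fun j => dz j (fun y => (eta nu y : ℂ)) x) =
          (deriv Real.smoothTransition s) ^ 2 * q x := by
        simp only [h1]
        rw [nsq_smul_real, neg_sq]
      rw [h2]
      rcases lt_or_ge (rho x) (a + 2) with hx | hx
      · have : s < 0 := by
          have : (0 : ℝ) ≤ nu := Nat.cast_nonneg nu
          rw [hs]; linarith
        rw [hCneg s this]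
        simpa using (Real.exp_pos _).le
      · have h3 : psi x - L x = Real.log (1 + C * q x) := by
          simp only [hpsi]
          rw [Real.smoothTransition.one_of_one_le (by linarith), one_mul]
          ring
        rw [h3, Real.exp_log (by have := hpos x; linarith)]
        have := mul_le_mul_of_nonneg_right (hC s) (hq0 x)
        linarith
    · intro x
      obtain ⟨N, hN⟩ := exists_nat_gt (rho x - (a + 2))
      filter_upwards [eventually_ge_atTop N] with nu hnu
      have h1 : rho x < nu + a + 2 := by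
        have : (N : ℝ) ≤ nu := by exact_mod_cast hnu
        linarith
      filter_upwards [hρc.continuousAt.eventually_lt continuousAt_const h1] with y hy
      simp only [heta]
      rw [Real.smoothTransition.zero_of_nonpos (by linarith), sub_zero]

end Crest.Agent.R273.TwW_34
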